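import Vale.Agent.P078.General.Main

/-!
# P078: approximately semifinite inclusions with centralised separating states

If the vector states of `η i` are centralised by `A` and separate `M`, a bounded selfadjoint
element that is strongly small stays strongly small after pinching, uniformly in the partition.
So so-paving passes from intermediate semifinite algebras to their bounded strong limits.
-/

namespace Vale.Agent.P078.General

open scoped InnerProductSpace Topology ENNReal

universe u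

variable {H : Type u} [NormedAddCommGroup H] [InnerProductSpace ℂ H] [CompleteSpace H]
variable {ι : Type u}

/-- The vector states of `η i` are centralised by `A` on `M` and separate `M`. -/
structure IsCentralisedSeparating (M A : VonNeumannAlgebra H) (η : ι → H) : Prop where
  centralised : ∀ i, ∀ a ∈ A, ∀ y ∈ M, ⟪η i, a (y (η i))⟫_ℂ = ⟪η i, y (a (η i))⟫_ℂ
  separating : ∀ y ∈ M, (∀ i, y (η i) = 0) → y = 0

/-- Every selfadjoint element of `M` is a bounded strong limit of selfadjoint elements of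
intermediate algebras `A ≤ N ≤ M` having trace families. -/
def ApproxSemifinite (M A : VonNeumannAlgebra H) : Prop :=
  ∀ x ∈ M, IsSelfAdjoint x → ∀ (G : Finset H) (δ : ℝ), 0 < δ →
    ∃ (N : VonNeumannAlgebra H) (κ : Type u) (ζ : κ → H) (y : H →L[ℂ] H),
      (∀ b ∈ A, b ∈ N) ∧ (∀ b ∈ N, b ∈ M) ∧ IsTraceFamily N ζ ∧ y ∈ N ∧ IsSelfAdjoint y ∧
        ‖y‖ ≤ ‖x‖ ∧ ∀ v ∈ G, ‖(x - y) v‖ ≤ δ

namespace IsCentralisedSeparating

variable {M A : VonNeumannAlgebra H} {η : ι → H}

/-- The vectors `c (η i)`, `c` in the commutant, span a dense subspace. -/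
theorem dense_span (hη : IsCentralisedSeparating M A η) :
    (Submodule.span ℂ {v : H | ∃ c ∈ M.commutant, ∃ i, c (η i) = v}).topologicalClosure = ⊤ := by
  set K := (Submodule.span ℂ {v : H | ∃ c ∈ M.commutant, ∃ i, c (η i) = v}).topologicalClosure
  have : CompleteSpace K := (Submodule.isClosed_topologicalClosure _).completeSpace_coe
  have inv : ∀ y ∈ M.commutant, ∀ v ∈ K, y v ∈ K := by
    intro y hy v hv
    have hs : Submodule.span ℂ {v : H | ∃ c ∈ M.commutant, ∃ i, c (η i) = v} ≤
        K.comap (y : H →ₗ[ℂ] H) := by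
      refine Submodule.span_le.2 ?_
      rintro w ⟨c, hc, i, rfl⟩
      refine Submodule.le_topologicalClosure _ (Submodule.subset_span ?_)
      exact ⟨y * c, mul_mem hy hc, i, rfl⟩
    exact Submodule.topologicalClosure_minimal _ hs
      ((Submodule.isClosed_topologicalClosure _).preimage y.continuous) hv
  set P := K.starProjection with hP
  have hPsa : IsSelfAdjoint P := isStarProjection_starProjection.isSelfAdjoint
  have hPM : P ∈ M := mem_of_commute_commutant M fun y hy => by
    have k : ∀ z ∈ M.commutant, P * z * P = z * P := fun z hz => by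
      ext v
      exact Submodule.starProjection_eq_self_iff.2
        (inv z hz _ (Submodule.starProjection_apply_mem K v))
    have e2 := congrArg star (k _ (star_mem hy))
    simp only [star_mul, star_star, hPsa.star_eq, ← mul_assoc] at e2
    exact (k y hy).symm.trans e2
  have h0 : 1 - P = 0 := by
    refine hη.separating _ (sub_mem (one_mem M) hPM) fun i => ?_
    have hi : η i ∈ K :=
      Submodule.le_topologicalClosure _ (Submodule.subset_span ⟨1, one_mem _, i, rfl⟩)
    simp [hP, Submodule.starProjection_eq_self_iff.2 hi]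
  rw [eq_top_iff]
  intro v _
  rw [← show P v = v from (congrArg (fun T : H →L[ℂ] H => T v) (sub_eq_zero.1 h0)).symm]
  exact Submodule.starProjection_apply_mem K v

/-- Strong smallness of a bounded `z`, uniformly after multiplying the vector by contractions
from `A`. -/
theorem uniform_small (hη : IsCentralisedSeparating M A η) (hle : ∀ a ∈ A, a ∈ M)
    {R : ℝ} (hR : 0 ≤ R) (v : H) {δ : ℝ} (hδ : 0 < δ) :
    ∃ (G : Finset H) (θ : ℝ), 0 < θ ∧ ∀ z ∈ M, ‖z‖ ≤ R → (∀ g ∈ G, ‖z g‖ ≤ θ) →
      ∀ a ∈ A, ‖a‖ ≤ 1 → ‖z (a v)‖ ≤ δ := by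
  classical
  let S : Submodule ℂ H :=
    { carrier := {v | ∀ δ : ℝ, 0 < δ → ∃ (G : Finset H) (θ : ℝ), 0 < θ ∧
        ∀ z ∈ M, ‖z‖ ≤ R → (∀ g ∈ G, ‖z g‖ ≤ θ) → ∀ a ∈ A, ‖a‖ ≤ 1 → ‖z (a v)‖ ≤ δ}
      zero_mem' := fun δ hδ => ⟨∅, 1, one_pos, fun z _ _ _ a _ _ => by simp [hδ.le]⟩
      add_mem' := fun {v w} hv hw δ hδ => by
        obtain ⟨G, s, hs, hG⟩ := hv (δ / 2) (half_pos hδ)
        obtain ⟨K, t, ht, hK⟩ := hw (δ / 2) (half_pos hδ)
        refine ⟨G ∪ K, min s t, lt_min hs ht, fun z hz hzR h a ha ha1 => ?_⟩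
        have h1 := hG z hz hzR
          (fun g hg => (h g (Finset.mem_union_left _ hg)).trans (min_le_left _ _)) a ha ha1
        have h2 := hK z hz hzR
          (fun g hg => (h g (Finset.mem_union_right _ hg)).trans (min_le_right _ _)) a ha ha1
        rw [map_add, map_add]
        linarith [norm_add_le (z (a v)) (z (a w))]
      smul_mem' := fun c v hv δ hδ => by
        obtain ⟨G, s, hs, hG⟩ := hv (δ / (‖c‖ + 1)) (by positivity)
        refine ⟨G, s, hs, fun z hz hzR h a ha ha1 => ?_⟩
        have h1 := hG z hz hzR h a ha ha1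
        rw [le_div_iff₀ (by positivity)] at h1
        rw [map_smul, map_smul, norm_smul]
        nlinarith [norm_nonneg (z (a v)), norm_nonneg c] }
  have hcl : IsClosed (S : Set H) := by
    refine isClosed_of_closure_subset fun v hv δ hδ => ?_
    obtain ⟨w, hw, hvw⟩ := Metric.mem_closure_iff.1 hv (δ / (2 * (R + 1))) (by positivity)
    obtain ⟨G, s, hs, hG⟩ := hw (δ / 2) (half_pos hδ)
    refine ⟨G, s, hs, fun z hz hzR h a ha ha1 => ?_⟩
    have h1 := hG z hz hzR h a ha ha1
    have h2 : ‖z (a (v - w))‖ ≤ R * (1 * dist v w) := by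
      rw [dist_eq_norm]
      exact (z.le_opNorm _).trans (mul_le_mul hzR
        ((a.le_opNorm _).trans (mul_le_mul_of_nonneg_right ha1 (norm_nonneg _)))
        (norm_nonneg _) hR)
    rw [lt_div_iff₀ (by positivity)] at hvw
    rw [map_sub, map_sub] at h2
    nlinarith [norm_le_norm_add_norm_sub' (z (a v)) (z (a w)), dist_nonneg (x := v) (y := w)]
  have hsub : Submodule.span ℂ {v : H | ∃ c ∈ M.commutant, ∃ i, c (η i) = v} ≤ S := by
    refine Submodule.span_le.2 ?_
    rintro w ⟨c, hc, i, rfl⟩ δ hδ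
    set e := δ / (‖c‖ + 1) with he
    refine ⟨{η i}, e ^ 2 / (R * ‖η i‖ + 1), by positivity, fun z hz hzR h a ha ha1 => ?_⟩
    have h0 := h (η i) (Finset.mem_singleton_self _)
    rw [le_div_iff₀ (by positivity)] at h0
    set T := star z * z with hT
    have hTM : T ∈ M := mul_mem (star_mem hz) hz
    have haM := hle a ha
    have hsq : ‖z (a (η i))‖ ^ 2 ≤ e ^ 2 := by
      have e1 : ‖z (a (η i))‖ ^ 2 = (⟪η i, star a (T (a (η i)))⟫_ℂ).re := by
        rw [hT, mul_apply_eq_comp, ContinuousLinearMap.star_eq_adjoint,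
          ContinuousLinearMap.star_eq_adjoint, ContinuousLinearMap.adjoint_inner_right,
          ContinuousLinearMap.adjoint_inner_right]
        exact (inner_self_eq_norm_sq (𝕜 := ℂ) _).symm
      have e2 := hη.centralised i (star a) (star_mem ha) (T * a) (mul_mem hTM haM)
      simp only [mul_apply_eq_comp] at e2
      have e3 : ⟪η i, T (a (star a (η i)))⟫_ℂ = ⟪T (η i), a (star a (η i))⟫_ℂ :=
        (inner_sa (IsSelfAdjoint.star_mul_self z) _ _).symm
      rw [e1, e2, e3]
      refine (Complex.re_le_norm _).trans ((norm_inner_le_norm _ _).trans ?_)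
      have b1 : ‖T (η i)‖ ≤ R * ‖z (η i)‖ := by
        rw [hT, mul_apply_eq_comp]
        exact ((star z).le_opNorm _).trans
          (mul_le_mul_of_nonneg_right (by rwa [norm_star]) (norm_nonneg _))
      have b2 : ‖a (star a (η i))‖ ≤ ‖η i‖ := by
        have b3 : ∀ b : H →L[ℂ] H, ‖b‖ ≤ 1 → ∀ u, ‖b u‖ ≤ ‖u‖ := fun b hb u =>
          (b.le_opNorm u).trans (mul_le_of_le_one_left (norm_nonneg _) hb)
        exact (b3 a ha1 _).trans (b3 _ (by rwa [norm_star]) _)
      calc ‖T (η i)‖ * ‖a (star a (η i))‖ ≤ R * ‖z (η i)‖ * ‖η i‖ :=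
            mul_le_mul b1 b2 (norm_nonneg _) (by positivity)
        _ ≤ e ^ 2 := by nlinarith [norm_nonneg (z (η i))]
    have h1 : ‖z (a (η i))‖ ≤ e :=
      le_of_pow_le_pow_left₀ two_ne_zero (by positivity) hsq
    have ec : z (a (c (η i))) = c (z (a (η i))) :=
      congrArg (fun T : H →L[ℂ] H => T (η i))
        (show z * a * c = c * (z * a) from
          VonNeumannAlgebra.mem_commutant_iff.1 hc _ (mul_mem hz haM))
    rw [he, le_div_iff₀ (by positivity)] at h1
    rw [ec]
    nlinarith [c.le_opNorm (z (a (η i))), norm_nonneg (z (a (η i)))]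
  have := Submodule.topologicalClosure_minimal _ hsub hcl
  rw [hη.dense_span] at this
  exact this (Submodule.mem_top (x := v)) δ hδ

/-- Pinchings of a strongly small element are strongly small, uniformly in the partition. -/
theorem pinch_small (hη : IsCentralisedSeparating M A η) (hle : ∀ a ∈ A, a ∈ M) {r : ℕ}
    {R : ℝ} (hR : 0 ≤ R) (F : Finset H) {δ : ℝ} (hδ : 0 < δ) :
    ∃ (G : Finset H) (θ : ℝ), 0 < θ ∧ ∀ z ∈ M, ‖z‖ ≤ R → (∀ g ∈ G, ‖z g‖ ≤ θ) →
      ∀ p : Fin r → H →L[ℂ] H, IsPart A 1 p → ∀ v ∈ F, ‖pinch p z v‖ ≤ δ := by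
  classical
  induction F using Finset.induction_on with
  | empty => exact ⟨∅, 1, one_pos, by simp⟩
  | insert v F _ ih =>
    obtain ⟨G, s, hs, hG⟩ := hη.uniform_small hle hR v
      (show 0 < δ / (r + 1) by positivity)
    obtain ⟨K, t, ht, hK⟩ := ih
    refine ⟨G ∪ K, min s t, lt_min hs ht, fun z hz hzR h p hp w hw => ?_⟩
    rcases Finset.mem_insert.1 hw with rfl | hw
    · have h1 := hG z hz hzR
        (fun g hg => (h g (Finset.mem_union_left _ hg)).trans (min_le_left _ _))
      have h2 : ∀ i, ‖(p i * z * p i) w‖ ≤ δ / (r + 1) := fun i => by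
        rw [mul_apply_eq_comp, mul_apply_eq_comp]
        exact (norm_proj_le (hp.proj i) _).trans
          (h1 (p i) (hp.mem i) (opNorm_proj_le_one (hp.proj i)))
      rw [pinch, sum_apply]
      refine (norm_sum_le _ _).trans ((Finset.sum_le_sum fun i _ => h2 i).trans ?_)
      rw [Finset.sum_const, Finset.card_univ, Fintype.card_fin, nsmul_eq_mul, mul_div_assoc',
        div_le_iff₀ (by positivity)]
      nlinarith
    · exact hK z hz hzR
        (fun g hg => (h g (Finset.mem_union_right _ hg)).trans (min_le_right _ _)) p hp w hw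

end IsCentralisedSeparating

/-- So-paving passes to bounded strong limits, losing a factor two in `ε`. -/
theorem soPavable_of_approx {M A : VonNeumannAlgebra H} {η : ι → H} (hA : IsMasa M A)
    (hη : IsCentralisedSeparating M A η) (happ : ApproxSemifinite M A) {ε : ℝ} (hε : 0 < ε)
    {r : ℕ}
    (hsemi : ∀ (N : VonNeumannAlgebra H) (κ : Type u) (ζ : κ → H), IsMasa N A →
      IsTraceFamily N ζ → ∀ y ∈ N, IsSelfAdjoint y → SoPavable N A (ε / 2) r y)
    {x : H →L[ℂ] H} (hxM : x ∈ M) (hxs : IsSelfAdjoint x) : SoPavable M A ε r x := by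
  classical
  intro F δ hδ
  have hmasa : ∀ N : VonNeumannAlgebra H, (∀ b ∈ A, b ∈ N) → (∀ b ∈ N, b ∈ M) → IsMasa N A :=
    fun N h1 h2 => ⟨h1, hA.comm, fun y hy hc => hA.max y (h2 y hy) hc⟩
  by_cases hx : x = 0
  · subst hx
    obtain ⟨N, κ, ζ, y, hAN, hNM, hζ, hyN, hys, -, -⟩ := happ 0 hxM hxs F δ hδ
    obtain ⟨p, a, q, hp, haA, has, han, hqN, hq, hqF, hn⟩ :=
      hsemi N κ ζ (hmasa N hAN hNM) hζ 0 (zero_mem N) hxs F δ hδ
    exact ⟨p, a, q, hp, haA, has, han, hNM q hqN, hq, hqF, hn.trans (by simp)⟩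
  set c := ‖x‖ with hc
  have hc0 : 0 < c := norm_pos_iff.2 hx
  set t := ε / 2 * c with ht
  set d := min (δ / 4) (δ * t / (8 * c)) with hd
  have ht0 : 0 < t := by positivity
  have hd0 : 0 < d := by positivity
  obtain ⟨G, θ, hθ, hG⟩ := hη.pinch_small hA.le (r := r) (R := 2 * c) (by positivity) F
    (show 0 < δ * t / 4 by positivity)
  obtain ⟨N, κ, ζ, y, hAN, hNM, hζ, hyN, hys, hyn, hyG⟩ := happ x hxM hxs G θ hθ
  obtain ⟨p, a, q, hp, haA, has, han, hqN, hq, hqF, hn⟩ :=
    hsemi N κ ζ (hmasa N hAN hNM) hζ y hyN hys F d hd0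
  set R := pinch p (x - y) with hR
  have hzn : ‖x - y‖ ≤ 2 * c := (norm_sub_le _ _).trans (by linarith)
  have hRn : ‖R‖ ≤ 2 * c := (hp.norm_pinch_le _).trans hzn
  have hRv := hG (x - y) (sub_mem hxM (hNM y hyN)) hzn hyG p hp
  set W := R * q with hW
  set T := star W * W with hT
  set g := cut T (t ^ 2) with hg
  have hTsa : IsSelfAdjoint T := IsSelfAdjoint.star_mul_self W
  have hqM := hNM q hqN
  have hWM : W ∈ M := mul_mem (hp.pinch_mem hA.le (sub_mem hxM (hNM y hyN))) hqM
  have hgp : IsStarProjection g := isStarProjection_cut T _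
  have hgM : g ∈ M := cut_mem M (mul_mem (star_mem hWM) hWM) hTsa _
  have hqT : Commute q T := by
    show q * T = T * q
    rw [hT, hW, star_mul, hq.isSelfAdjoint.star_eq]
    simp only [← mul_assoc, hq.isIdempotentElem.eq]
    simp only [mul_assoc, hq.isIdempotentElem.eq]
  have hqg : Commute q g := commute_cut hTsa hqT _
  have hQ : IsStarProjection (q * g) := hq.mul hgp hqg
  refine ⟨p, a, q * g, hp, haA, has, han.trans hyn, mul_mem hqM hgM, hQ, fun v hv => ?_, ?_⟩
  · have h1 : ‖(1 - q) v‖ < d := hqF v hv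
    have hWv : ‖W v‖ ≤ δ * t / 4 + 2 * c * d := by
      have e : W v = R v - R ((1 - q) v) := by
        simp [hW, mul_apply_eq_comp]
      rw [e]
      refine (norm_sub_le _ _).trans (add_le_add (hRv v hv) ?_)
      exact (R.le_opNorm _).trans (mul_le_mul hRn h1.le (norm_nonneg _) (by positivity))
    have h3 : ‖v - g v‖ ≤ δ / 2 := by
      refine (norm_sub_cut_le (W := W) ht0 v).trans ?_
      rw [div_le_iff₀ ht0]
      have : d * (8 * c) ≤ δ * t := (le_div_iff₀ (by positivity)).1 (min_le_right _ _)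
      nlinarith
    have e : (1 - q * g) v = (1 - q) v + q (v - g v) := by
      simp [mul_apply_eq_comp]
    rw [e]
    have h4 : d ≤ δ / 4 := min_le_left _ _
    linarith [norm_add_le ((1 - q) v) (q (v - g v)), norm_proj_le hq (v - g v)]
  · have hWg : ‖W * g‖ ≤ t := by
      refine ContinuousLinearMap.opNorm_le_bound _ ht0.le fun v => ?_
      rw [mul_apply_eq_comp]
      exact (norm_cut_sq_le ht0.le v).trans
        (mul_le_mul_of_nonneg_left (norm_proj_le hgp v) ht0.le)
    set S := pinch p y - a with hS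
    have e : q * g * (pinch p x - a) * (q * g) = g * (q * S * q) * g + q * g * (W * g) := by
      have e1 : pinch p x - a = S + R := by
        rw [hR, hS, pinch_sub]
        abel
      rw [e1, mul_add, add_mul]
      refine congrArg₂ (· + ·) ?_ ?_
      · calc q * g * S * (q * g) = g * q * S * (q * g) := by rw [hqg.eq]
          _ = g * (q * S * q) * g := by simp only [mul_assoc]
      · simp only [hW, mul_assoc]
    rw [e]
    refine (norm_add_le _ _).trans ?_
    have b1 : ‖g * (q * S * q) * g‖ ≤ ε / 2 * c := by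
      refine norm_mul₃_le.trans ?_
      calc ‖g‖ * ‖q * S * q‖ * ‖g‖ ≤ 1 * (ε / 2 * c) * 1 := by
            gcongr
            · exact opNorm_proj_le_one hgp
            · exact hn.trans (mul_le_mul_of_nonneg_left hyn (by positivity))
            · exact opNorm_proj_le_one hgp
        _ = ε / 2 * c := by ring
    have b2 : ‖q * g * (W * g)‖ ≤ t := (norm_mul_le _ _).trans
      ((mul_le_mul (opNorm_proj_le_one hQ) hWg (norm_nonneg _) zero_le_one).trans (one_mul t).le)
    linarith

/-- One `C / ε ^ 2` bound for all approximately semifinite inclusions with centralised separating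
states, from the semifinite bound. -/
theorem exists_sq_bound_approx
    (semi : ∃ C : ℝ, 0 < C ∧ ∀ ε : ℝ, 0 < ε → ε ≤ 1 → ∃ r : ℕ, 0 < r ∧ (r : ℝ) ≤ C / ε ^ 2 ∧
      ∀ (H : Type u) [NormedAddCommGroup H] [InnerProductSpace ℂ H] [CompleteSpace H]
        (M A : VonNeumannAlgebra H) (ι : Type u) (ξ : ι → H),
        IsMasa M A → IsTraceFamily M ξ → ∀ x ∈ M, IsSelfAdjoint x → SoPavable M A ε r x) :
    ∃ C : ℝ, 0 < C ∧ ∀ ε : ℝ, 0 < ε → ε ≤ 1 → ∃ r : ℕ, 0 < r ∧ (r : ℝ) ≤ C / ε ^ 2 ∧
      ∀ (H : Type u) [NormedAddCommGroup H] [InnerProductSpace ℂ H] [CompleteSpace H]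
        (M A : VonNeumannAlgebra H) (ι : Type u) (η : ι → H),
        IsMasa M A → IsCentralisedSeparating M A η → ApproxSemifinite M A →
          ∀ x ∈ M, IsSelfAdjoint x → SoPavable M A ε r x := by
  obtain ⟨C, hC, hC'⟩ := semi
  refine ⟨4 * C, by positivity, fun ε hε hε1 => ?_⟩
  obtain ⟨r, hr0, hr, h⟩ := hC' (ε / 2) (by positivity) (by linarith)
  refine ⟨r, hr0, hr.trans (le_of_eq (by field_simp; ring)),
    fun H _ _ _ M A ι η hA hη happ x hx hxs => ?_⟩
  exact soPavable_of_approx hA hη happ hε (fun N κ ζ hN hζ => h H N A κ ζ hN hζ) hx hxs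

/-- The two hypotheses are satisfiable in infinite dimension: `B(ℓ²)` with its diagonal. -/
theorem exists_approx_witness :
    ∃ (H : Type) (_ : NormedAddCommGroup H) (_ : InnerProductSpace ℂ H) (_ : CompleteSpace H)
      (M A : VonNeumannAlgebra H) (η : ℕ → H), IsMasa M A ∧ IsCentralisedSeparating M A η ∧
        ApproxSemifinite M A ∧ ¬ FiniteDimensional ℂ H := by
  refine ⟨Ell2, inferInstance, inferInstance, inferInstance, vnTop, ellDiag, fun n => ellBasis n,
    isMasa_ellDiag, ⟨fun n a ha y _ => ?_, fun y _ h => ?_⟩, fun x hx hxs G δ hδ => ?_,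
    not_finiteDimensional_ell⟩
  · set e : Ell2 := ellBasis n
    show ⟪e, a (y e)⟫_ℂ = ⟪e, y (a e)⟫_ℂ
    have ea : a e = ⟪e, a e⟫_ℂ • e := ellDiag_apply ha n
    have es : star a e = ⟪e, star a e⟫_ℂ • e := ellDiag_apply (star_mem ha) n
    have e1 : ⟪e, a (y e)⟫_ℂ = ⟪star a e, y e⟫_ℂ := by
      rw [ContinuousLinearMap.star_eq_adjoint, ContinuousLinearMap.adjoint_inner_left]
    have e2 : (starRingEnd ℂ) ⟪e, star a e⟫_ℂ = ⟪e, a e⟫_ℂ := by
      rw [inner_conj_symm, ContinuousLinearMap.star_eq_adjoint,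
        ContinuousLinearMap.adjoint_inner_left]
    rw [e1, es, inner_smul_left, e2, ea, map_smul, inner_smul_right]
    rw [inner_smul_right, ellBasis.orthonormal.1 n |> inner_self_eq_one_of_norm_eq_one, mul_one]
  · refine ContinuousLinearMap.ext_on
      (Submodule.dense_iff_topologicalClosure_eq_top.2 ellBasis.dense_span) ?_
    rintro _ ⟨n, rfl⟩
    simpa using h n
  · exact ⟨vnTop, ℕ, fun n => ellBasis n, x, fun b _ => mem_vnTop b, fun b hb => hb,
      isTraceFamily_ell, hx, hxs, le_rfl, fun v _ => by simp [hδ.le]⟩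

end Vale.Agent.P078.General
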