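import Mathlib

/-!
# Averaging lemmas: convex combinations, choices per block, random colourings
-/

namespace Vale.Agent.P078.General

open scoped InnerProductSpace Topology
open Filter

variable {E : Type*} [NormedAddCommGroup E] [InnerProductSpace ℂ E]

/-- If `u` tends weakly to `0`, small convex combinations of its tail exist. -/
theorem exists_convex_small [CompleteSpace E] {κ : Type*} {l : Filter κ} [l.NeBot] {s : Set κ}
    (hs : s ∈ l) (u : κ → E) (hu : ∀ w, Tendsto (fun k => ⟪u k, w⟫_ℂ) l (𝓝 0)) {η : ℝ}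
    (hη : 0 < η) :
    ∃ (J : Type) (_ : Fintype J) (lam : J → ℝ) (σ : J → κ), (∀ j, 0 ≤ lam j) ∧ ∑ j, lam j = 1 ∧
      (∀ j, σ j ∈ s) ∧ ‖∑ j, (lam j : ℂ) • u (σ j)‖ < η := by
  letI : InnerProductSpace ℝ E := InnerProductSpace.rclikeToReal ℂ E
  set K := closure (convexHull ℝ (u '' s)) with hK
  obtain ⟨k₀, hk₀⟩ := Filter.nonempty_of_mem hs
  have hne : K.Nonempty := ⟨u k₀, subset_closure (subset_convexHull ℝ _ ⟨k₀, hk₀, rfl⟩)⟩
  have hconv : Convex ℝ K := (convex_convexHull ℝ _).closure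
  obtain ⟨w, hwK, hw⟩ :=
    exists_norm_eq_iInf_of_complete_convex hne isClosed_closure.isComplete hconv 0
  have hmin := (norm_eq_iInf_iff_real_inner_le_zero hconv hwK).1 hw
  have hlow : ∀ k ∈ s, ‖w‖ ^ 2 ≤ (⟪u k, w⟫_ℂ).re := fun k hk => by
    have h1 := hmin _ (subset_closure (subset_convexHull ℝ _ ⟨k, hk, rfl⟩))
    have h2 : (⟪(0 : E) - w, u k - w⟫_ℂ).re ≤ 0 := h1
    have h3 : (⟪w, w⟫_ℂ).re = ‖w‖ ^ 2 := inner_self_eq_norm_sq (𝕜 := ℂ) w
    have h4 : (⟪w, u k⟫_ℂ).re = (⟪u k, w⟫_ℂ).re := inner_re_symm (𝕜 := ℂ) w (u k)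
    simp only [zero_sub, inner_neg_left, inner_sub_right, Complex.neg_re, Complex.sub_re] at h2
    linarith
  have hw0 : w = 0 := by
    have h5 : Tendsto (fun k => (⟪u k, w⟫_ℂ).re) l (𝓝 (0 : ℂ).re) :=
      (Complex.continuous_re.tendsto _).comp (hu w)
    have h6 := ge_of_tendsto h5 (mem_of_superset hs hlow)
    have h7 : ‖w‖ ^ 2 = 0 := le_antisymm (by simpa using h6) (sq_nonneg _)
    simpa using h7
  rw [hw0] at hwK
  obtain ⟨v, hv, hd⟩ := Metric.mem_closure_iff.1 hwK η hη
  obtain ⟨J, hJ, lam, z, h0, h1, hz, hsum⟩ := mem_convexHull_iff_exists_fintype.1 hv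
  choose σ hσs hσz using hz
  refine ⟨J, hJ, lam, σ, h0, h1, hσs, ?_⟩
  have e : ∑ j, (lam j : ℂ) • u (σ j) = v := by
    rw [← hsum]
    exact Finset.sum_congr rfl fun j _ => by rw [hσz j]; exact Complex.coe_smul _ _
  rw [e]
  simpa using hd

/-- One choice per block does as well as the average, up to the sum of the variances. -/
theorem exists_choice {B J : Type*} [DecidableEq B] [Fintype J] (lam : J → ℝ)
    (h0 : ∀ j, 0 ≤ lam j) (h1 : ∑ j, lam j = 1) (c : B → J → E) (s : Finset B) :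
    ∀ z, ∃ σ : B → J, ‖z + ∑ b ∈ s, c b (σ b)‖ ^ 2 ≤
      ‖z + ∑ b ∈ s, ∑ j, (lam j : ℂ) • c b j‖ ^ 2 + ∑ b ∈ s, ∑ j, lam j * ‖c b j‖ ^ 2 := by
  have hne : Nonempty J := by
    by_contra h
    rw [not_nonempty_iff] at h
    simp at h1
  induction s using Finset.induction_on with
  | empty => exact fun z => ⟨fun _ => Classical.arbitrary J, by simp⟩
  | insert a t ha ih =>
    intro z
    set μ := ∑ j, (lam j : ℂ) • c a j with hμ
    set w := z + ∑ b ∈ t, ∑ j, (lam j : ℂ) • c b j with hw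
    obtain ⟨j0, -, hj0⟩ := Finset.exists_min_image Finset.univ (fun j => ‖w + c a j‖ ^ 2)
      Finset.univ_nonempty
    obtain ⟨σ, hσ⟩ := ih (z + c a j0)
    refine ⟨Function.update σ a j0, ?_⟩
    rw [Finset.sum_insert ha, Finset.sum_insert ha, Finset.sum_insert ha, Function.update_self]
    have hσ' : ∑ b ∈ t, c b (Function.update σ a j0 b) = ∑ b ∈ t, c b (σ b) :=
      Finset.sum_congr rfl fun b hb => by
        rw [Function.update_of_ne (by rintro rfl; exact ha hb)]
    rw [hσ', ← add_assoc z]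
    have havg : ‖w + c a j0‖ ^ 2 ≤ ‖w + μ‖ ^ 2 + ∑ j, lam j * ‖c a j‖ ^ 2 := by
      calc ‖w + c a j0‖ ^ 2 = ∑ j, lam j * ‖w + c a j0‖ ^ 2 := by
            rw [← Finset.sum_mul, h1, one_mul]
        _ ≤ ∑ j, lam j * ‖w + c a j‖ ^ 2 := Finset.sum_le_sum fun j _ =>
            mul_le_mul_of_nonneg_left (hj0 j (Finset.mem_univ j)) (h0 j)
        _ = ‖w‖ ^ 2 + 2 * RCLike.re ⟪w, μ⟫_ℂ + ∑ j, lam j * ‖c a j‖ ^ 2 := by
            simp only [norm_add_sq (𝕜 := ℂ), mul_add, Finset.sum_add_distrib, ← Finset.sum_mul,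
              h1, one_mul]
            simp [hμ, inner_sum, inner_smul_right, Finset.mul_sum, mul_left_comm]
        _ ≤ ‖w + μ‖ ^ 2 + ∑ j, lam j * ‖c a j‖ ^ 2 := by
            rw [norm_add_sq (𝕜 := ℂ) w μ]
            linarith [sq_nonneg ‖μ‖]
    have e1 : z + c a j0 + ∑ b ∈ t, ∑ j, (lam j : ℂ) • c b j = w + c a j0 := by rw [hw]; abel
    have e2 : z + (μ + ∑ b ∈ t, ∑ j, (lam j : ℂ) • c b j) = w + μ := by rw [hw]; abel
    rw [e1] at hσ
    rw [e2]
    linarith

/-- The centred indicator of two points having the same colour. -/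
noncomputable def chi {n r : ℕ} (σ : Fin n → Fin r) (p : Fin n × Fin n) : ℝ :=
  (if σ p.1 = σ p.2 then 1 else 0) - 1 / r

theorem chi_swap {n r : ℕ} (σ : Fin n → Fin r) (k l : Fin n) : chi σ (k, l) = chi σ (l, k) := by
  simp [chi, eq_comm]

theorem abs_chi_le {n r : ℕ} (hr : 0 < r) (σ : Fin n → Fin r) (p : Fin n × Fin n) :
    |chi σ p| ≤ 1 := by
  have h : (1 : ℝ) / r ≤ 1 := by
    rw [div_le_one (by exact_mod_cast hr)]
    exact_mod_cast hr
  have h' : (0 : ℝ) ≤ 1 / r := by positivity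
  unfold chi
  split_ifs <;> rw [abs_le] <;> constructor <;> linarith

theorem sum_eq_zero_of_update {n r : ℕ} (hr : 0 < r) (k : Fin n) (F : (Fin n → Fin r) → ℝ)
    (h : ∀ σ, ∑ c, F (Function.update σ k c) = 0) : ∑ σ, F σ = 0 := by
  let g : (Fin n → Fin r) × Fin r → (Fin n → Fin r) × Fin r :=
    fun p => (Function.update p.1 k p.2, p.1 k)
  have hg : Function.Involutive g := fun p => by
    simp [g, Function.update_idem, Function.update_eq_self]
  have h1 : ∑ p, F (g p).1 = ∑ p : (Fin n → Fin r) × Fin r, F p.1 :=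
    Fintype.sum_equiv hg.toPerm _ _ fun p => rfl
  rw [Fintype.sum_prod_type, Fintype.sum_prod_type] at h1
  simp only [g, h, Finset.sum_const_zero, Finset.sum_const, Finset.card_univ, Fintype.card_fin,
    nsmul_eq_mul, ← Finset.mul_sum] at h1
  rcases mul_eq_zero.1 h1.symm with h2 | h2
  · exact absurd h2 (by exact_mod_cast hr.ne')
  · exact h2

theorem sum_chi_mul_chi {n r : ℕ} (hr : 0 < r) {k l a b : Fin n} (hkl : k ≠ l) (ha : k ≠ a)
    (hb : k ≠ b) : ∑ σ : Fin n → Fin r, chi σ (k, l) * chi σ (a, b) = 0 := by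
  refine sum_eq_zero_of_update hr k _ fun σ => ?_
  simp only [chi, Function.update_self, Function.update_of_ne hkl.symm,
    Function.update_of_ne ha.symm, Function.update_of_ne hb.symm, ← Finset.sum_mul,
    Finset.sum_sub_distrib, Finset.sum_ite_eq', Finset.mem_univ, if_true, Finset.sum_const,
    Finset.card_univ, Fintype.card_fin, nsmul_eq_mul]
  field_simp
  simp

/-- Random colourings: the mean square of an off-diagonal sum is at most twice the diagonal. -/
theorem sum_norm_sq_colour_le {n r : ℕ} (hr : 0 < r) (d : Fin n × Fin n → E) :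
    ∑ σ : Fin n → Fin r,
        ‖∑ p ∈ Finset.univ.filter (fun p : Fin n × Fin n => p.1 ≠ p.2), (chi σ p : ℂ) • d p‖ ^ 2 ≤
      ((Fintype.card (Fin n → Fin r) : ℕ) : ℝ) *
        (2 * ∑ p : Fin n × Fin n, ‖d p‖ ^ 2) := by
  classical
  set O := Finset.univ.filter (fun p : Fin n × Fin n => p.1 ≠ p.2) with hO
  set g : Fin n × Fin n → Fin n × Fin n → ℝ := fun p q => (⟪d p, d q⟫_ℂ).re with hg
  set N : ℝ := ((Fintype.card (Fin n → Fin r) : ℕ) : ℝ) with hN
  have hexp : ∀ σ : Fin n → Fin r, ‖∑ p ∈ O, (chi σ p : ℂ) • d p‖ ^ 2 =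
      ∑ p ∈ O, ∑ q ∈ O, chi σ p * chi σ q * g p q := by
    intro σ
    rw [← inner_self_eq_norm_sq (𝕜 := ℂ), sum_inner, map_sum]
    refine Finset.sum_congr rfl fun p _ => ?_
    rw [inner_sum, map_sum]
    refine Finset.sum_congr rfl fun q _ => ?_
    rw [inner_smul_left, inner_smul_right, Complex.conj_ofReal]
    simp [hg]
    ring
  calc ∑ σ : Fin n → Fin r, ‖∑ p ∈ O, (chi σ p : ℂ) • d p‖ ^ 2
      = ∑ p ∈ O, ∑ q ∈ O, (∑ σ : Fin n → Fin r, chi σ p * chi σ q) * g p q := by
        simp_rw [hexp]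
        rw [Finset.sum_comm]
        refine Finset.sum_congr rfl fun p _ => ?_
        rw [Finset.sum_comm]
        simp_rw [Finset.sum_mul]
    _ ≤ ∑ p ∈ O, N * (‖d p‖ ^ 2 + (‖d p‖ ^ 2 + ‖d p.swap‖ ^ 2) / 2) := by
        refine Finset.sum_le_sum fun p hp => ?_
        obtain ⟨k, l⟩ := p
        have hkl : k ≠ l := (Finset.mem_filter.1 hp).2
        have hsub : ({(k, l), (l, k)} : Finset (Fin n × Fin n)) ⊆ O := by
          simp [hO, Finset.insert_subset_iff, hkl, hkl.symm]
        rw [← Finset.sum_subset hsub, Finset.sum_pair (by simp [hkl])]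
        · have hb : ∀ q, |∑ σ : Fin n → Fin r, chi σ (k, l) * chi σ q| ≤ N := fun q => by
            refine (Finset.abs_sum_le_sum_abs _ _).trans ?_
            refine (Finset.sum_le_sum (g := fun _ => (1 : ℝ)) fun σ _ => ?_).trans_eq (by simp [hN])
            rw [abs_mul]
            exact mul_le_one₀ (abs_chi_le hr _ _) (abs_nonneg _) (abs_chi_le hr _ _)
          have hg1 : |g (k, l) (k, l)| ≤ ‖d (k, l)‖ ^ 2 := by
            rw [pow_two]
            exact (Complex.abs_re_le_norm _).trans (norm_inner_le_norm _ _)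
          have hg2 : |g (k, l) (l, k)| ≤ (‖d (k, l)‖ ^ 2 + ‖d (l, k)‖ ^ 2) / 2 := by
            refine ((Complex.abs_re_le_norm _).trans (norm_inner_le_norm _ _)).trans ?_
            nlinarith [sq_nonneg (‖d (k, l)‖ - ‖d (l, k)‖)]
          have hN0 : (0 : ℝ) ≤ N := Nat.cast_nonneg _
          refine (le_abs_self _).trans ((abs_add_le _ _).trans ?_)
          rw [abs_mul, abs_mul, mul_add]
          exact add_le_add (mul_le_mul (hb _) hg1 (abs_nonneg _) hN0)
            (mul_le_mul (hb _) hg2 (abs_nonneg _) hN0)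
        · intro q hq hq'
          obtain ⟨a, b⟩ := q
          have hab : a ≠ b := (Finset.mem_filter.1 hq).2
          simp only [Finset.mem_insert, Finset.mem_singleton, Prod.mk.injEq, not_or, not_and] at hq'
          suffices h : ∑ σ : Fin n → Fin r, chi σ (k, l) * chi σ (a, b) = 0 by simp [h]
          by_cases hk : k ≠ a ∧ k ≠ b
          · exact sum_chi_mul_chi hr hkl hk.1 hk.2
          · have hl : l ≠ a ∧ l ≠ b := by
              refine ⟨fun h => ?_, fun h => ?_⟩
              · subst h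
                rcases not_and_or.1 hk with h' | h'
                · exact hkl (not_not.1 h')
                · exact hq'.2 rfl (not_not.1 h').symm
              · subst h
                rcases not_and_or.1 hk with h' | h'
                · exact hq'.1 (not_not.1 h').symm rfl
                · exact hkl (not_not.1 h')
            simp_rw [chi_swap _ k l]
            exact sum_chi_mul_chi hr hkl.symm hl.1 hl.2
    _ ≤ N * (2 * ∑ p : Fin n × Fin n, ‖d p‖ ^ 2) := by
        rw [← Finset.mul_sum]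
        refine mul_le_mul_of_nonneg_left ?_ (Nat.cast_nonneg _)
        refine (Finset.sum_le_sum_of_subset_of_nonneg (Finset.subset_univ O)
          fun p _ _ => by positivity).trans ?_
        have hs : ∑ p : Fin n × Fin n, ‖d p.swap‖ ^ 2 = ∑ p : Fin n × Fin n, ‖d p‖ ^ 2 :=
          Fintype.sum_equiv (Equiv.prodComm _ _) _ _ fun p => rfl
        simp only [Finset.sum_add_distrib, ← Finset.sum_div, hs]
        linarith

end Vale.Agent.P078.General
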