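import Vale.Agent.P078.General.Thin
import Vale.Agent.P078.General.Average

/-!
# So-paving of the thin part with `O(1/ε)` pieces
-/

namespace Vale.Agent.P078.General

open scoped InnerProductSpace Topology
open Filter

universe u

variable {H : Type u} [NormedAddCommGroup H] [InnerProductSpace ℂ H] [CompleteSpace H]
variable {A : VonNeumannAlgebra H} {e : H →L[ℂ] H}

/-- The partition that uses `Q b` inside the `b`-th piece of `P`. -/
noncomputable def Part.glue (hc : ∀ a ∈ A, ∀ b ∈ A, Commute a b) (P : Part A e)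
    (Q : Fin P.n → Part A e) : Part A e where
  n := Fintype.card (Σ b, Fin (Q b).n)
  p k := P.p ((Fintype.equivFin (Σ b, Fin (Q b).n)).symm k).1 *
    (Q _).p ((Fintype.equivFin (Σ b, Fin (Q b).n)).symm k).2
  isPart := by
    refine ⟨fun k => mul_mem (P.isPart.mem _) ((Q _).isPart.mem _), fun k => ?_,
      fun k l h => ?_, ?_⟩
    · exact (P.isPart.proj _).mul ((Q _).isPart.proj _) (hc _ (P.isPart.mem _) _ ((Q _).isPart.mem _))
    · have hne : (Fintype.equivFin (Σ b, Fin (Q b).n)).symm k ≠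
          (Fintype.equivFin (Σ b, Fin (Q b).n)).symm l := fun e' => h ((Equiv.injective _) e')
      generalize (Fintype.equivFin (Σ b, Fin (Q b).n)).symm k = a at hne
      generalize (Fintype.equivFin (Σ b, Fin (Q b).n)).symm l = a' at hne
      obtain ⟨b, i⟩ := a
      obtain ⟨b', i'⟩ := a'
      show P.p b * (Q b).p i * (P.p b' * (Q b').p i') = 0
      have sw : (Q b).p i * P.p b' = P.p b' * (Q b).p i :=
        (hc _ ((Q b).isPart.mem i) _ (P.isPart.mem b')).eq
      calc P.p b * (Q b).p i * (P.p b' * (Q b').p i')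
          = P.p b * P.p b' * ((Q b).p i * (Q b').p i') := by
            rw [mul_assoc, ← mul_assoc ((Q b).p i), sw]; simp [mul_assoc]
        _ = 0 := by
            rcases eq_or_ne b b' with rfl | hb
            · rw [(Q b).isPart.orth i i' (fun h' => hne (by rw [h'])), mul_zero]
            · rw [P.isPart.orth b b' hb, zero_mul]
    · rw [Fintype.sum_equiv (Fintype.equivFin (Σ b, Fin (Q b).n)).symm _
        (fun x => P.p x.1 * (Q x.1).p x.2) fun _ => rfl, Fintype.sum_sigma]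
      simp_rw [← Finset.mul_sum, (Q _).isPart.sum_eq, P.isPart.mul_unit, P.isPart.sum_eq]

theorem Part.glue_refines (hc : ∀ a ∈ A, ∀ b ∈ A, Commute a b) (P : Part A e)
    (Q : Fin P.n → Part A e) : Part.Refines (Part.glue hc P Q) P := by
  intro k i
  simp only [Part.glue]
  generalize (Fintype.equivFin (Σ b, Fin (Q b).n)).symm k = a
  rw [mul_assoc, (hc _ ((Q a.1).isPart.mem a.2) _ (P.isPart.mem i)).eq, ← mul_assoc]
  rcases eq_or_ne a.1 i with h | h
  · subst h; exact Or.inl (by rw [(P.isPart.proj _).isIdempotentElem.eq])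
  · exact Or.inr (by rw [P.isPart.orth _ _ h, zero_mul])

theorem Part.pinch_glue (hc : ∀ a ∈ A, ∀ b ∈ A, Commute a b) (P : Part A e)
    (Q : Fin P.n → Part A e) (hQ : ∀ b, Part.Refines (Q b) P) (x : H →L[ℂ] H) :
    pinch (Part.glue hc P Q).p x = ∑ b, P.p b * pinch (Q b).p x := by
  refine (Fintype.sum_equiv (Fintype.equivFin (Σ b, Fin (Q b).n)).symm _
    (fun a => P.p a.1 * (Q a.1).p a.2 * x * (P.p a.1 * (Q a.1).p a.2)) fun _ => rfl).trans ?_
  rw [Fintype.sum_sigma]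
  refine Finset.sum_congr rfl fun b _ => ?_
  have hcomm : Commute (P.p b) (pinch (Q b).p x) := Part.commute_pinch_of_refines hc (hQ b) b x
  calc ∑ i, P.p b * (Q b).p i * x * (P.p b * (Q b).p i)
      = ∑ i, P.p b * ((Q b).p i * x * (Q b).p i) * P.p b := by
        refine Finset.sum_congr rfl fun i _ => ?_
        rw [(hc _ (P.isPart.mem b) _ ((Q b).isPart.mem i)).eq]
        conv_lhs => rw [(hc _ ((Q b).isPart.mem i) _ (P.isPart.mem b)).eq]
        simp only [mul_assoc]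
        rw [(hc _ (P.isPart.mem b) _ ((Q b).isPart.mem i)).eq]
    _ = P.p b * pinch (Q b).p x * P.p b := by
        simp only [pinch, Finset.mul_sum, Finset.sum_mul]
    _ = P.p b * pinch (Q b).p x := by
        rw [mul_assoc, ← hcomm.eq, ← mul_assoc, (P.isPart.proj b).isIdempotentElem.eq]

/-- One partition with small compressed pinching. -/
theorem exists_small_diag (hc : ∀ a ∈ A, ∀ b ∈ A, Commute a b) {q y : H →L[ℂ] H}
    (hq : IsStarProjection q) (hy : ‖y‖ ≤ 2) (U : Ultrafilter (Part A e))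
    (hU : ∀ P, {Q | Part.Refines Q P} ∈ U) {P : Part A e} {η : ℝ} (hη : 0 ≤ η)
    (hP : ∀ Q : Part A e, Part.Refines Q P → ∀ v, ∑ k, ‖q (Q.p k v)‖ ^ 2 ≤ η * ‖v‖ ^ 2)
    (hlim : ∀ v w, Tendsto (fun Q => ⟪pinch Q.p y v, w⟫_ℂ) (U : Filter (Part A e)) (𝓝 0))
    (F : Finset H) {κ : ℝ} (hκ : 0 < κ) :
    ∃ Q : Part A e, Part.Refines Q P ∧
      ∑ v ∈ F, ‖q (pinch Q.p y (q v))‖ ^ 2 ≤ κ + 4 * η * ∑ v ∈ F, ‖v‖ ^ 2 := by
  classical
  let u : Part A e → PiLp 2 (fun _ : F => H) :=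
    fun Q => WithLp.toLp 2 fun v => q (pinch Q.p y (q v.1))
  have hu : ∀ w, Tendsto (fun Q => ⟪u Q, w⟫_ℂ) (U : Filter (Part A e)) (𝓝 0) := by
    intro w
    simp only [PiLp.inner_apply, u]
    rw [show (0 : ℂ) = ∑ _v : F, (0 : ℂ) by simp]
    refine tendsto_finset_sum _ fun v _ => ?_
    simp only [inner_sa hq.isSelfAdjoint]
    exact hlim _ _
  obtain ⟨J, hJ, lam, σ, h0, h1, hσ, hsmall⟩ :=
    exists_convex_small (hU P) u hu (Real.sqrt_pos.2 hκ)
  let c : Fin P.n → J → PiLp 2 (fun _ : F => H) :=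
    fun b j => WithLp.toLp 2 fun v => q (P.p b (pinch (σ j).p y (q v.1)))
  obtain ⟨τ, hτ⟩ := exists_choice lam h0 h1 c Finset.univ 0
  have hu' : ∀ j, ∑ b, c b j = u (σ j) := fun j => by
    ext v
    simp only [c, u, WithLp.ofLp_sum, Finset.sum_apply, ← map_sum, ← sum_apply, P.isPart.sum_eq]
    congr 1
    have : e * pinch (σ j).p y = pinch (σ j).p y := (pinch_unit_mul (σ j) y).1
    exact congrArg (fun T : H →L[ℂ] H => T (q v.1)) this
  have hmean : ∑ b, ∑ j, (lam j : ℂ) • c b j = ∑ j, (lam j : ℂ) • u (σ j) := by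
    rw [Finset.sum_comm]
    exact Finset.sum_congr rfl fun j _ => by rw [← Finset.smul_sum, hu' j]
  have hvar : ∑ b, ∑ j, lam j * ‖c b j‖ ^ 2 ≤ 4 * η * ∑ v ∈ F, ‖v‖ ^ 2 := by
    rw [Finset.sum_comm]
    refine le_of_le_of_eq (b := ∑ j, lam j * (4 * η * ∑ v ∈ F, ‖v‖ ^ 2)) ?_
      (by rw [← Finset.sum_mul, h1, one_mul])
    refine Finset.sum_le_sum fun j _ => ?_
    rw [← Finset.mul_sum]
    refine mul_le_mul_of_nonneg_left ?_ (h0 j)
    simp only [c, PiLp.norm_sq_eq_of_L2]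
    rw [Finset.sum_comm, Finset.univ_eq_attach,
      Finset.sum_attach F fun v => ∑ b, ‖q (P.p b (pinch (σ j).p y (q v)))‖ ^ 2, Finset.mul_sum]
    refine Finset.sum_le_sum fun v _ => ?_
    calc ∑ b, ‖q (P.p b (pinch (σ j).p y (q v)))‖ ^ 2
        ≤ ∑ b, η * (4 * ‖P.p b (q v)‖ ^ 2) := by
          refine Finset.sum_le_sum fun b _ => ?_
          set w := pinch (σ j).p y (P.p b (q v)) with hw
          have e1 : P.p b (pinch (σ j).p y (q v)) = w :=
            congrArg (fun T : H →L[ℂ] H => T (q v))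
              (Part.commute_pinch_of_refines hc (hσ j) b y).eq
          have e2 : P.p b w = w := by
            have := congrArg (fun T : H →L[ℂ] H => T (P.p b (q v)))
              (Part.commute_pinch_of_refines hc (hσ j) b y).eq
            simp only [mul_apply_eq_comp] at this
            rw [hw, this]
            congr 1
            exact congrArg (fun T : H →L[ℂ] H => T (q v)) (P.isPart.proj b).isIdempotentElem.eq
          have h3 := (Finset.single_le_sum (f := fun k => ‖q (P.p k w)‖ ^ 2)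
            (fun k _ => sq_nonneg _) (Finset.mem_univ b)).trans (hP P (Part.refines_refl P) w)
          simp only [e2] at h3
          rw [e1]
          refine h3.trans (mul_le_mul_of_nonneg_left ?_ hη)
          have h4 : ‖w‖ ≤ 2 * ‖P.p b (q v)‖ := ((σ j).isPart.norm_pinch_apply_le y _).trans
            (mul_le_mul_of_nonneg_right hy (norm_nonneg _))
          calc ‖w‖ ^ 2 ≤ (2 * ‖P.p b (q v)‖) ^ 2 := pow_le_pow_left₀ (norm_nonneg _) h4 2
            _ = 4 * ‖P.p b (q v)‖ ^ 2 := by ring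
      _ ≤ 4 * η * ‖v‖ ^ 2 := by
          rw [← Finset.mul_sum, ← Finset.mul_sum]
          have := (P.isPart.sum_norm_sq_le (q v)).trans
            (pow_le_pow_left₀ (norm_nonneg _) (norm_proj_le hq v) 2)
          nlinarith
  refine ⟨Part.glue hc P fun b => σ (τ b), Part.glue_refines hc P _, ?_⟩
  have hglue : ∑ b, c b (τ b) = u (Part.glue hc P fun b => σ (τ b)) := by
    ext v
    simp [c, u, Part.pinch_glue hc P _ (fun b => hσ (τ b)), WithLp.ofLp_sum, sum_apply, map_sum]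
  have hnorm : ‖u (Part.glue hc P fun b => σ (τ b))‖ ^ 2 =
      ∑ v ∈ F, ‖q (pinch (Part.glue hc P fun b => σ (τ b)).p y (q v))‖ ^ 2 := by
    simp only [u, PiLp.norm_sq_eq_of_L2, Finset.univ_eq_attach]
    exact Finset.sum_attach F fun v => ‖q (pinch (Part.glue hc P fun b => σ (τ b)).p y (q v))‖ ^ 2
  rw [← hnorm]
  simp only [zero_add, hglue, hmean] at hτ
  refine hτ.trans (add_le_add ?_ hvar)
  exact (pow_le_pow_left₀ (norm_nonneg _) hsmall.le 2).trans_eq (Real.sq_sqrt hκ.le)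

/-- A colouring of a partition that pinches like the average. -/
theorem exists_colour (Q : Part A e) {q y : H →L[ℂ] H} (hq : IsStarProjection q)
    (hqe : q * e = q) (hy : ‖y‖ ≤ 2) {η : ℝ} (hη : 0 ≤ η)
    (hQ : ∀ v, ∑ k, ‖q (Q.p k v)‖ ^ 2 ≤ η * ‖v‖ ^ 2) {r : ℕ} (hr : 0 < r) (F : Finset H) :
    ∃ p : Fin r → H →L[ℂ] H, IsPart A e p ∧
      ∑ v ∈ F, ‖(q * pinch p y * q - ((1 / r : ℝ) : ℂ) • (q * y * q)) v‖ ^ 2 ≤
        2 * ∑ v ∈ F, ‖q (pinch Q.p y (q v))‖ ^ 2 + 16 * η * ∑ v ∈ F, ‖v‖ ^ 2 := by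
  classical
  haveI : NeZero r := ⟨hr.ne'⟩
  set d : H → Fin Q.n × Fin Q.n → H := fun v p => q (Q.p p.1 (y (Q.p p.2 (q v)))) with hd
  set O := Finset.univ.filter (fun p : Fin Q.n × Fin Q.n => p.1 ≠ p.2) with hO
  have hdsum : ∀ v, ∑ p, ‖d v p‖ ^ 2 ≤ 4 * η * ‖v‖ ^ 2 := fun v => by
    rw [Fintype.sum_prod_type, Finset.sum_comm]
    calc ∑ l, ∑ k, ‖d v (k, l)‖ ^ 2 ≤ ∑ l, η * (4 * ‖Q.p l (q v)‖ ^ 2) := by
          refine Finset.sum_le_sum fun l _ => ?_
          set w := y (Q.p l (q v)) with hw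
          calc ∑ k, ‖d v (k, l)‖ ^ 2 ≤ η * ‖w‖ ^ 2 := by simp only [hd, ← hw]; exact hQ w
            _ ≤ η * (4 * ‖Q.p l (q v)‖ ^ 2) := by
                refine mul_le_mul_of_nonneg_left ?_ hη
                have h4 : ‖w‖ ≤ 2 * ‖Q.p l (q v)‖ :=
                  (y.le_opNorm _).trans (mul_le_mul_of_nonneg_right hy (norm_nonneg _))
                exact (pow_le_pow_left₀ (norm_nonneg _) h4 2).trans_eq (by ring)
      _ ≤ 4 * η * ‖v‖ ^ 2 := by
          rw [← Finset.mul_sum, ← Finset.mul_sum]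
          have := (Q.isPart.sum_norm_sq_le (q v)).trans
            (pow_le_pow_left₀ (norm_nonneg _) (norm_proj_le hq v) 2)
          nlinarith
  have havg : ∑ σ : Fin Q.n → Fin r, ∑ v ∈ F, ‖∑ p ∈ O, (chi σ p : ℂ) • d v p‖ ^ 2 ≤
      ∑ _σ : Fin Q.n → Fin r, 8 * η * ∑ v ∈ F, ‖v‖ ^ 2 := by
    rw [Finset.sum_comm, Finset.sum_const, Finset.card_univ, nsmul_eq_mul]
    rw [Finset.mul_sum, Finset.mul_sum]
    refine Finset.sum_le_sum fun v _ => (sum_norm_sq_colour_le hr (d v)).trans ?_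
    refine mul_le_mul_of_nonneg_left ?_ (Nat.cast_nonneg _)
    linarith [hdsum v]
  obtain ⟨σ, -, hσ⟩ := Finset.exists_le_of_sum_le Finset.univ_nonempty havg
  refine ⟨fun c => ∑ k ∈ Finset.univ.filter (fun k => σ k = c), Q.p k, ?_, ?_⟩
  · refine ⟨fun c => sum_mem fun k _ => Q.isPart.mem k, fun c => isStarProjection_sum _ _
      (fun k _ => Q.isPart.proj k) (fun k _ l _ h => Q.isPart.orth k l h), fun c c' h => ?_, ?_⟩
    · rw [Finset.sum_mul]
      refine Finset.sum_eq_zero fun k hk => ?_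
      rw [Finset.mul_sum]
      refine Finset.sum_eq_zero fun l hl => Q.isPart.orth k l ?_
      rintro rfl
      exact h ((Finset.mem_filter.1 hk).2.symm.trans (Finset.mem_filter.1 hl).2)
    · rw [Finset.sum_fiberwise]
      exact Q.isPart.sum_eq
  rw [Finset.mul_sum, Finset.mul_sum]
  rw [show (8 : ℝ) * η * ∑ v ∈ F, ‖v‖ ^ 2 = ∑ v ∈ F, 8 * η * ‖v‖ ^ 2 from Finset.mul_sum ..] at hσ
  refine le_of_le_of_eq (b := ∑ v ∈ F, (2 * ‖q (pinch Q.p y (q v))‖ ^ 2 +
    2 * ‖∑ p ∈ O, (chi σ p : ℂ) • d v p‖ ^ 2)) (Finset.sum_le_sum fun v _ => ?_) rfl |>.trans ?_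
  · set S := ∑ p ∈ O, (chi σ p : ℂ) • d v p with hS
    set w := q (pinch Q.p y (q v)) with hw
    have hyq : q (y (q v)) = ∑ p, d v p := by
      have e1 : ∀ z, q (e z) = q z := fun z => congrArg (fun T : H →L[ℂ] H => T z) hqe
      have e2 : e (q v) = q v := by
        have := congrArg star hqe
        rw [star_mul, hq.isSelfAdjoint.star_eq,
          Q.isPart.isStarProjection_unit.isSelfAdjoint.star_eq] at this
        exact congrArg (fun T : H →L[ℂ] H => T v) this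
      have e3 : ∀ z, e z = ∑ k, Q.p k z := fun z => by
        rw [← sum_apply]
        exact congrArg (fun T : H →L[ℂ] H => T z) Q.isPart.sum_eq.symm
      conv_lhs => rw [← e1 (y (q v)), ← e2, e3, e3 (q v)]
      simp only [map_sum, hd, Fintype.sum_prod_type]
    have hpin : q (pinch (fun c => ∑ k ∈ Finset.univ.filter (fun k => σ k = c), Q.p k) y (q v)) =
        ∑ p : Fin Q.n × Fin Q.n, ((if σ p.1 = σ p.2 then 1 else 0 : ℝ) : ℂ) • d v p := by
      simp only [pinch, Finset.sum_mul, Finset.mul_sum, sum_apply, map_sum, hd, mul_apply_eq_comp,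
        Fintype.sum_prod_type]
      calc ∑ c, ∑ l ∈ Finset.univ.filter (fun k => σ k = c),
            ∑ k ∈ Finset.univ.filter (fun k => σ k = c), q (Q.p k (y (Q.p l (q v))))
          = ∑ c, ∑ l ∈ Finset.univ.filter (fun k => σ k = c),
            ∑ k, (if σ k = σ l then q (Q.p k (y (Q.p l (q v)))) else 0) := by
            refine Finset.sum_congr rfl fun c _ => Finset.sum_congr rfl fun l hl => ?_
            rw [← Finset.sum_filter, (Finset.mem_filter.1 hl).2]
        _ = _ := by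
            rw [Finset.sum_fiberwise, Finset.sum_comm]
            exact Finset.sum_congr rfl fun k _ => Finset.sum_congr rfl fun l _ => by
              split_ifs <;> simp
    have hdiag : w = ∑ k, d v (k, k) := by
      simp [hw, pinch, sum_apply, map_sum, hd, mul_apply_eq_comp]
    have hsplit : (q * pinch (fun c => ∑ k ∈ Finset.univ.filter (fun k => σ k = c), Q.p k) y * q -
        ((1 / r : ℝ) : ℂ) • (q * y * q)) v = ((1 - 1 / r : ℝ) : ℂ) • w + S := by
      simp only [sub_apply, smul_apply, mul_apply_eq_comp]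
      rw [hpin, hyq, Finset.smul_sum, ← Finset.sum_sub_distrib, hdiag, hS, Finset.smul_sum]
      have hd1 : ∑ k, ((1 - 1 / r : ℝ) : ℂ) • d v (k, k) =
          ∑ p ∈ Finset.univ.filter (fun p : Fin Q.n × Fin Q.n => ¬ p.1 ≠ p.2),
            (chi σ p : ℂ) • d v p := by
        refine Finset.sum_bij' (fun k _ => (k, k)) (fun p _ => p.1) ?_ ?_ ?_ ?_ ?_
        · simp
        · simp
        · simp
        · intro p hp; simp at hp; exact Prod.ext rfl hp
        · intro k _; simp [chi]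
      rw [hd1, hO, add_comm, Finset.sum_filter_add_sum_filter_not]
      exact Finset.sum_congr rfl fun p _ => by rw [← sub_smul, chi, Complex.ofReal_sub]
    rw [hsplit]
    have hr1 : ‖((1 - 1 / r : ℝ) : ℂ) • w‖ ≤ ‖w‖ := by
      rw [norm_smul, Complex.norm_real]
      refine mul_le_of_le_one_left (norm_nonneg _) ?_
      have h : (1 : ℝ) / r ≤ 1 := by
        rw [div_le_one (by exact_mod_cast hr)]
        exact_mod_cast hr
      have h' : (0 : ℝ) ≤ 1 / r := by positivity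
      rw [Real.norm_eq_abs, abs_le]
      constructor <;> linarith
    have := norm_add_le (((1 - 1 / r : ℝ) : ℂ) • w) S
    nlinarith [norm_nonneg (((1 - 1 / r : ℝ) : ℂ) • w + S), norm_nonneg w, norm_nonneg S,
      sq_nonneg (‖w‖ - ‖S‖)]
  · rw [Finset.sum_add_distrib, ← Finset.mul_sum, ← Finset.mul_sum, ← Finset.mul_sum]
    rw [← Finset.mul_sum] at hσ
    linarith

variable {M : VonNeumannAlgebra H} {ι : Type u} {ξ : ι → H}

/-- So-paving below `e`, given projections close to `e` with small pinchings. -/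
theorem paving_of_thin (hA : IsMasa M A) (heA : e ∈ A) (he : IsStarProjection e)
    (hex : ∀ (F : Finset H) (δ η : ℝ), 0 < δ → 0 < η →
      ∃ (q : H →L[ℂ] H) (P : Part A e), q ∈ M ∧ IsStarProjection q ∧ q * e = q ∧
        (∀ v ∈ F, ‖e v - q v‖ ≤ δ) ∧
        ∀ Q : Part A e, Part.Refines Q P → ∀ v, ∑ k, ‖q (Q.p k v)‖ ^ 2 ≤ η * ‖v‖ ^ 2)
    {x : H →L[ℂ] H} (hxM : x ∈ M) (hx : IsSelfAdjoint x) (hx1 : ‖x‖ ≤ 1) {ε : ℝ} (hε : 0 < ε)
    {r : ℕ} (hr : 3 / ε ≤ r) (F : Finset H) {δ : ℝ} (hδ : 0 < δ) :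
    ∃ (p : Fin r → H →L[ℂ] H) (a q : H →L[ℂ] H), IsPart A e p ∧ a ∈ A ∧ IsSelfAdjoint a ∧
      a * e = a ∧ ‖a‖ ≤ ‖x‖ ∧ q ∈ M ∧ IsStarProjection q ∧ q * e = q ∧
      (∀ v ∈ F, ‖e v - q v‖ ≤ δ) ∧ ‖q * (pinch p x - a) * q‖ ≤ ε := by
  have hr0 : 0 < r := by
    have : (0 : ℝ) < r := lt_of_lt_of_le (by positivity) hr
    exact_mod_cast this
  set B := 1 + ∑ v ∈ F, ‖v‖ ^ 2 with hB
  have hB0 : 0 < B := by positivity
  set t := ε / 3 with ht
  have ht0 : 0 < t := by positivity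
  set κ := t * δ / 2 with hκ
  have hκ0 : 0 < κ := by positivity
  set η := κ ^ 2 / (48 * B) with hη
  have hη0 : 0 < η := by positivity
  obtain ⟨q₀, P, hq₀M, hq₀, hq₀e, hq₀F, hP⟩ :=
    hex F (δ / 2) η (half_pos hδ) hη0
  obtain ⟨U, hU⟩ := exists_refining_ultrafilter hA.comm heA he
  obtain ⟨a, haA, hasa, hae, hanorm, hlim⟩ := exists_pinch_limit hA heA he U hU hxM hx
  set y := x - a with hy
  have hy2 : ‖y‖ ≤ 2 := (norm_sub_le _ _).trans (by linarith)
  have hlim' : ∀ v w, Tendsto (fun Q => ⟪pinch Q.p y v, w⟫_ℂ) (U : Filter (Part A e)) (𝓝 0) := by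
    intro v w
    have h1 : ∀ Q : Part A e, pinch Q.p y = pinch Q.p x - a := fun Q => by
      rw [hy, pinch_sub, Q.isPart.pinch_of_commute fun k => hA.comm _ (Q.isPart.mem k) _ haA, hae]
    simp only [h1, sub_apply, inner_sub_left]
    rw [← sub_self (⟪a v, w⟫_ℂ)]
    exact (hlim v w).sub tendsto_const_nhds
  obtain ⟨Q, hQP, hQ⟩ := exists_small_diag hA.comm hq₀ hy2 U hU hη0.le hP hlim' F
    (κ := κ ^ 2 / 4) (by positivity)
  obtain ⟨p, hp, hW⟩ := exists_colour Q hq₀ hq₀e hy2 hη0.le (hP Q hQP) hr0 F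
  set W := q₀ * pinch p y * q₀ - ((1 / r : ℝ) : ℂ) • (q₀ * y * q₀) with hWdef
  have hWsum : ∑ v ∈ F, ‖W v‖ ^ 2 ≤ κ ^ 2 := by
    have h24 : η * ∑ v ∈ F, ‖v‖ ^ 2 ≤ κ ^ 2 / 48 := by
      rw [hη, div_mul_eq_mul_div, div_le_div_iff₀ (by positivity) (by norm_num)]
      have : ∑ v ∈ F, ‖v‖ ^ 2 ≤ B := by rw [hB]; linarith
      nlinarith [sq_nonneg κ]
    nlinarith [hW, hQ]
  have hyM : y ∈ M := sub_mem hxM (hA.le a haA)
  have hWM : W ∈ M := sub_mem (mul_mem (mul_mem hq₀M (hp.pinch_mem hA.le hyM)) hq₀M)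
    (smul_mem' M (mul_mem (mul_mem hq₀M hyM) hq₀M) _)
  set g := cut (star W * W) (t ^ 2) with hg
  have hgM : g ∈ M := cut_mem M (mul_mem (star_mem hWM) hWM) (IsSelfAdjoint.star_mul_self W) _
  have hgp : IsStarProjection g := isStarProjection_cut _ _
  have hqW : W * q₀ = W := by
    simp [hWdef, sub_mul, mul_assoc, hq₀.isIdempotentElem.eq]
  have hWq : q₀ * W = W := by
    simp [hWdef, mul_sub, ← mul_assoc, hq₀.isIdempotentElem.eq]
  have hqg : Commute q₀ g := by
    refine commute_cut (IsSelfAdjoint.star_mul_self W) ?_ _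
    have h1 : q₀ * star W = star W := by
      have := congrArg star hqW
      simpa only [star_mul, hq₀.isSelfAdjoint.star_eq] using this
    calc q₀ * (star W * W) = star W * W := by rw [← mul_assoc, h1]
      _ = star W * W * q₀ := by rw [mul_assoc, hqW]
  refine ⟨p, a, q₀ * g, hp, haA, hasa, hae, hanorm, mul_mem hq₀M hgM, hq₀.mul hgp hqg, ?_,
    fun v hv => ?_, ?_⟩
  · rw [hqg.eq, mul_assoc, hq₀e]
  · have h1 := hq₀F v hv
    have h2 : ‖W v‖ ≤ κ := by
      refine le_of_pow_le_pow_left₀ two_ne_zero hκ0.le ?_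
      exact (Finset.single_le_sum (f := fun v => ‖W v‖ ^ 2) (fun v _ => sq_nonneg _) hv).trans hWsum
    have h3 : ‖v - g v‖ ≤ δ / 2 := by
      refine (norm_sub_cut_le ht0 v).trans ?_
      rw [div_le_iff₀ ht0]
      calc ‖W v‖ ≤ κ := h2
        _ = δ / 2 * t := by rw [hκ]; ring
    have h4 : e v - (q₀ * g) v = (e v - q₀ v) + q₀ (v - g v) := by
      simp [map_sub]
    rw [h4]
    linarith [norm_add_le (e v - q₀ v) (q₀ (v - g v)), norm_proj_le hq₀ (v - g v)]
  · have hpa : pinch p x - a = pinch p y := by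
      rw [hy, pinch_sub, hp.pinch_of_commute fun k => hA.comm _ (hp.mem k) _ haA, hae]
    have hgeq : q₀ * g * pinch p y * (q₀ * g) =
        g * (W * g) + ((1 / r : ℝ) : ℂ) • ((q₀ * g) * y * (q₀ * g)) := by
      have hq2 : q₀ * g = g * q₀ := hqg.eq
      conv_lhs => rw [hq2]
      conv_rhs => rw [hWdef, hq2]
      simp only [mul_sub, sub_mul, mul_assoc, smul_mul_assoc, mul_smul_comm]
      simp only [← mul_assoc, hq2]
      abel
    rw [hpa, hgeq]
    refine (norm_add_le _ _).trans ?_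
    have h5 : ‖g * (W * g)‖ ≤ t := by
      refine ContinuousLinearMap.opNorm_le_bound _ ht0.le fun v => ?_
      exact ((norm_proj_le hgp _).trans (norm_cut_sq_le ht0.le v)).trans
        (mul_le_mul_of_nonneg_left (norm_proj_le hgp v) ht0.le)
    have hqn : ‖q₀ * g‖ ≤ 1 := opNorm_proj_le_one (hq₀.mul hgp hqg)
    have h6 : ‖((1 / r : ℝ) : ℂ) • ((q₀ * g) * y * (q₀ * g))‖ ≤ 2 * (1 / r) := by
      rw [norm_smul, Complex.norm_real, Real.norm_of_nonneg (by positivity), mul_comm (2 : ℝ)]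
      refine mul_le_mul_of_nonneg_left ?_ (by positivity)
      refine (norm_mul₃_le).trans ?_
      calc ‖q₀ * g‖ * ‖y‖ * ‖q₀ * g‖ ≤ 1 * 2 * 1 := by gcongr
        _ = 2 := by norm_num
    have h7 : (1 : ℝ) / r ≤ ε / 3 := by
      rw [div_le_div_iff₀ (by exact_mod_cast hr0) (by norm_num)]
      have := (div_le_iff₀ hε).1 hr
      linarith
    linarith

/-- So-paving of the part of a MASA without projections of finite trace. -/
theorem paving_thin (hA : IsMasa M A) (hξ : IsTraceFamily M ξ) (heA : e ∈ A)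
    (he : IsStarProjection e)
    (hthin : ∀ g ∈ A, IsStarProjection g → g * e = g → tau ξ g ≠ ⊤ → g = 0)
    {x : H →L[ℂ] H} (hxM : x ∈ M) (hx : IsSelfAdjoint x) (hx1 : ‖x‖ ≤ 1) {ε : ℝ} (hε : 0 < ε)
    {r : ℕ} (hr : 3 / ε ≤ r) (F : Finset H) {δ : ℝ} (hδ : 0 < δ) :
    ∃ (p : Fin r → H →L[ℂ] H) (a q : H →L[ℂ] H), IsPart A e p ∧ a ∈ A ∧ IsSelfAdjoint a ∧
      a * e = a ∧ ‖a‖ ≤ ‖x‖ ∧ q ∈ M ∧ IsStarProjection q ∧ q * e = q ∧
      (∀ v ∈ F, ‖e v - q v‖ ≤ δ) ∧ ‖q * (pinch p x - a) * q‖ ≤ ε :=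
  paving_of_thin hA heA he (fun F _ _ hδ hη => exists_thin hA hξ heA he hthin F hδ hη)
    hxM hx hx1 hε hr F hδ

end Vale.Agent.P078.General
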