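import Mathlib

/-!
# P078: the notions used by the statement of the result
-/

namespace Vale.Agent.P078.General

open scoped InnerProductSpace Topology ENNReal ComplexOrder

universe u

variable {H : Type u} [NormedAddCommGroup H] [InnerProductSpace ℂ H] [CompleteSpace H]
variable {ι : Type u}

/-- `A` is a maximal abelian selfadjoint subalgebra of `M`. -/
structure IsMasa (M A : VonNeumannAlgebra H) : Prop where
  le : ∀ a ∈ A, a ∈ M
  comm : ∀ a ∈ A, ∀ b ∈ A, Commute a b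
  max : ∀ x ∈ M, (∀ a ∈ A, Commute a x) → x ∈ A

/-- `p` is a partition of `e` into projections of `A`. -/
structure IsPart (A : VonNeumannAlgebra H) (e : H →L[ℂ] H) {ι : Type*} [Fintype ι]
    (p : ι → H →L[ℂ] H) : Prop where
  mem : ∀ i, p i ∈ A
  proj : ∀ i, IsStarProjection (p i)
  orth : ∀ i j, i ≠ j → p i * p j = 0
  sum_eq : ∑ i, p i = e

/-- The pinching of `x` by the family `p`. -/
def pinch {ι : Type*} [Fintype ι] (p : ι → H →L[ℂ] H) (x : H →L[ℂ] H) : H →L[ℂ] H :=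
  ∑ i, p i * x * p i

/-- `tau ξ y = ∑ i, ‖y (ξ i)‖²`, the value at `y* y` of the weight given by the vectors `ξ i`. -/
noncomputable def tau (ξ : ι → H) (y : H →L[ℂ] H) : ℝ≥0∞ :=
  ∑' i, ENNReal.ofReal (‖y (ξ i)‖ ^ 2)

/-- The vectors `ξ` give a faithful semifinite trace `y* y ↦ ∑ i, ‖y (ξ i)‖²` on `M`. -/
structure IsTraceFamily (M : VonNeumannAlgebra H) (ξ : ι → H) : Prop where
  tracial : ∀ y ∈ M, tau ξ y = tau ξ (star y)
  faithful : ∀ y ∈ M, tau ξ y = 0 → y = 0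
  semifinite : ∀ p ∈ M, IsStarProjection p → p ≠ 0 →
    ∃ f ∈ M, IsStarProjection f ∧ f ≠ 0 ∧ f * p = f ∧ tau ξ f ≠ ⊤

/-- The vectors `ξ` of the range of `z` give a faithful semifinite trace on the corner `zMz`. -/
structure IsTraceFamilyOn (M : VonNeumannAlgebra H) (z : H →L[ℂ] H) (ξ : ι → H) : Prop where
  supported : ∀ i, z (ξ i) = ξ i
  tracial : ∀ y ∈ M, z * y * z = y → tau ξ y = tau ξ (star y)
  faithful : ∀ y ∈ M, z * y * z = y → tau ξ y = 0 → y = 0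
  semifinite : ∀ p ∈ M, IsStarProjection p → p ≠ 0 → p * z = p →
    ∃ f ∈ M, IsStarProjection f ∧ f ≠ 0 ∧ f * p = f ∧ tau ξ f ≠ ⊤

/-- `φ` is continuous for the strong operator topology on bounded parts of `M` (normality). -/
def StronglyContinuous (M : VonNeumannAlgebra H) (φ : (H →L[ℂ] H) →ₗ[ℂ] ℂ) : Prop :=
  ∀ δ : ℝ, 0 < δ → ∃ (F : Finset H) (η : ℝ), 0 < η ∧
    ∀ y ∈ M, ‖y‖ ≤ 1 → (∀ v ∈ F, ‖y v‖ ≤ η) → ‖φ y‖ ≤ δ

/-- No nonzero normal positive functional of `M` supported below `e` is centralised by `A`. -/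
def NoCentralised (M A : VonNeumannAlgebra H) (e : H →L[ℂ] H) : Prop :=
  ∀ φ : (H →L[ℂ] H) →ₗ[ℂ] ℂ, StronglyContinuous M φ → (∀ y ∈ M, 0 ≤ φ (star y * y)) →
    (∀ a ∈ A, ∀ y ∈ M, φ (a * y) = φ (y * a)) → (∀ y ∈ M, φ (e * y * e) = φ y) →
    ∀ y ∈ M, φ y = 0

/-- `x` is `(ε, r)` so-pavable over `A` in `M`: for each finite set of vectors and each `δ > 0`
there are a partition of one into `r` projections of `A`, a selfadjoint `a ∈ A` with `‖a‖ ≤ ‖x‖`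
and a projection `q ∈ M` within `δ` of one on these vectors with `‖q (S_P x - a) q‖ ≤ ε ‖x‖`. -/
def SoPavable (M A : VonNeumannAlgebra H) (ε : ℝ) (r : ℕ) (x : H →L[ℂ] H) : Prop :=
  ∀ (F : Finset H) (δ : ℝ), 0 < δ → ∃ (p : Fin r → H →L[ℂ] H) (a q : H →L[ℂ] H),
    IsPart A 1 p ∧ a ∈ A ∧ IsSelfAdjoint a ∧ ‖a‖ ≤ ‖x‖ ∧ q ∈ M ∧ IsStarProjection q ∧
      (∀ v ∈ F, ‖(1 - q) v‖ < δ) ∧ ‖q * (pinch p x - a) * q‖ ≤ ε * ‖x‖

end Vale.Agent.P078.General
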