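import Vale.Agent.P078.General.Witness

/-!
# P078: the statement of the result, from the tracial core with exponent two
-/

namespace Vale.Agent.P078.General

universe u

/-- The statement of the main theorem. In order:

1. an absolute `C` such that, for each `ε ∈ (0, 1]`, one `r ≤ C ε⁻²` so-paves every selfadjoint
   element of every von Neumann algebra with a faithful semifinite trace (given by a family of
   vectors) over every MASA;
2. for an algebra of any type, a MASA centralising no nonzero normal positive functional is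
   so-paved by every `r ≥ 3/ε`;
3. one tracial separating vector gives such a trace;
4. both hypotheses are satisfiable. -/
def MainStatement : Prop :=
  (∃ C : ℝ, 0 < C ∧ ∀ ε : ℝ, 0 < ε → ε ≤ 1 → ∃ r : ℕ, 0 < r ∧ (r : ℝ) ≤ C / ε ^ 2 ∧
    ∀ (H : Type u) [NormedAddCommGroup H] [InnerProductSpace ℂ H] [CompleteSpace H]
      (M A : VonNeumannAlgebra H) (ι : Type u) (ξ : ι → H),
      IsMasa M A → IsTraceFamily M ξ → ∀ x ∈ M, IsSelfAdjoint x → SoPavable M A ε r x) ∧
  (∀ (H : Type u) [NormedAddCommGroup H] [InnerProductSpace ℂ H] [CompleteSpace H]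
    (M A : VonNeumannAlgebra H), IsMasa M A → NoCentralised M A 1 →
    ∀ ε : ℝ, 0 < ε → ∀ r : ℕ, 3 / ε ≤ r → ∀ x ∈ M, IsSelfAdjoint x → SoPavable M A ε r x) ∧
  (∀ (H : Type u) [NormedAddCommGroup H] [InnerProductSpace ℂ H] [CompleteSpace H]
    (M : VonNeumannAlgebra H) (Ω : H), (∀ y ∈ M, ‖y Ω‖ = ‖star y Ω‖) →
    (∀ y ∈ M, y Ω = 0 → y = 0) → IsTraceFamily M (fun _ : PUnit.{u + 1} => Ω)) ∧
  (∃ (H : Type) (_ : NormedAddCommGroup H) (_ : InnerProductSpace ℂ H) (_ : CompleteSpace H)
    (M A : VonNeumannAlgebra H) (ξ : ℕ → H),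
    IsMasa M A ∧ IsTraceFamily M ξ ∧ ¬ FiniteDimensional ℂ H) ∧
  (∃ (H : Type) (_ : NormedAddCommGroup H) (_ : InnerProductSpace ℂ H) (_ : CompleteSpace H)
    (M A : VonNeumannAlgebra H), IsMasa M A ∧ NoCentralised M A 1 ∧ Nontrivial H)

/-- The main statement follows from the tracial core with exponent two. -/
theorem main_of_core
    (core : ∃ C : ℝ, ∀ (K : Type u) [NormedAddCommGroup K] [InnerProductSpace ℂ K]
      [CompleteSpace K] (S : Std K) (ε : ℝ), 0 < ε → ε ≤ 1 →
        ∃ r : ℕ, (r : ℝ) ≤ C / ε ^ 2 ∧ S.Paves ε r) :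
    MainStatement.{u} := by
  refine ⟨?_, fun H _ _ _ M A hA hno ε hε r hr x hx hxs =>
      soPavable_of_noCentralised hA hno hε hr hx hxs,
    fun H _ _ _ M Ω h1 h2 => isTraceFamily_of_tracialVector M Ω h1 h2,
    exists_traceFamily_witness, exists_noCentralised_witness⟩
  obtain ⟨C, hC⟩ := core
  refine ⟨max C 0 + 4, by positivity, fun ε hε hε1 => ?_⟩
  have hp : 0 < ε ^ 2 := by positivity
  have hsq : ε ^ 2 ≤ ε := by nlinarith
  refine ⟨⌊max C 0 / ε ^ 2⌋₊ + ⌈3 / ε⌉₊, ?_, ?_, fun H _ _ _ M A ι ξ hA hξ x hx hxs => ?_⟩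
  · have : 0 < ⌈3 / ε⌉₊ := Nat.ceil_pos.2 (by positivity)
    omega
  · push_cast
    rw [add_div]
    refine add_le_add (Nat.floor_le (by positivity))
      ((Nat.ceil_lt_add_one (by positivity)).le.trans ?_)
    have h2 : 3 / ε + 1 ≤ 4 / ε := by
      rw [div_add_one hε.ne', div_le_div_iff_of_pos_right hε]
      linarith
    exact h2.trans (div_le_div_of_nonneg_left (by norm_num) hp hsq)
  · refine soPavable_of_paves hA hξ hε (Nat.le_ceil _) ?_ hx hxs
    intro K _ _ _ S
    obtain ⟨r, hr, hp'⟩ := hC K S ε hε hε1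
    refine paves_mono (Nat.le_floor (hr.trans ?_)) hp'
    exact div_le_div_of_nonneg_right (le_max_left _ _) hp.le

end Vale.Agent.P078.General
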