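import Vale.Agent.P078.General.Main

/-!
# Arbitrary algebras whose centralised part is semifinite

`z ∈ A` carries a semifinite trace on its corner and no normal functional supported below `1 - z`
is centralised by `A`. The corner is handled inside the algebra `zMz + ℂ(1 - z)` on `H`.
-/

namespace Vale.Agent.P078.General

open scoped InnerProductSpace Topology ENNReal
open Filter

universe u

variable {H : Type u} [NormedAddCommGroup H] [InnerProductSpace ℂ H] [CompleteSpace H]
variable {ι : Type u}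

theorem noCentralised_zero (M A : VonNeumannAlgebra H) : NoCentralised M A 0 := by
  intro φ _ _ _ h y hy
  rw [← h y hy, mul_zero, map_zero]

theorem IsTraceFamily.isTraceFamilyOn_one {M : VonNeumannAlgebra H} {ξ : ι → H}
    (h : IsTraceFamily M ξ) : IsTraceFamilyOn M 1 ξ :=
  ⟨fun _ => rfl, fun y hy _ => h.tracial y hy, fun y hy _ => h.faithful y hy,
    fun p hp hpp hp0 _ => h.semifinite p hp hpp hp0⟩

theorem isTraceFamilyOn_zero (M : VonNeumannAlgebra H) :
    IsTraceFamilyOn M 0 (fun i : PEmpty.{u + 1} => (i.elim : H)) :=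
  ⟨fun i => i.elim, fun _ _ _ => by simp [tau], fun y _ hy _ => by simpa using hy.symm,
    fun p _ _ hp0 hp => absurd (by simpa using hp.symm) hp0⟩

/-- `{y ∈ N | y z = z y, y (1 - z) scalar}`. -/
noncomputable def flatten (N : VonNeumannAlgebra H) (z : H →L[ℂ] H) : VonNeumannAlgebra H :=
  vnOf ((N.commutant : Set (H →L[ℂ] H)) ∪ {z} ∪ {T | (1 - z) * T * (1 - z) = T})

variable {N : VonNeumannAlgebra H} {z : H →L[ℂ] H}

theorem mem_flatten (hz : IsStarProjection z) {y : H →L[ℂ] H} : y ∈ flatten N z ↔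
    y ∈ N ∧ Commute z y ∧ ∀ T, (1 - z) * T * (1 - z) = T → Commute T y := by
  have hstar : ∀ s, star s ∈ ((N.commutant : Set (H →L[ℂ] H)) ∪ {z} ∪
      {T | (1 - z) * T * (1 - z) = T}) → s ∈ ((N.commutant : Set (H →L[ℂ] H)) ∪ {z} ∪
      {T | (1 - z) * T * (1 - z) = T}) := by
    rintro s ((hs | hs) | hs)
    · refine Or.inl (Or.inl ?_)
      have h1 : star s ∈ N.commutant := hs
      have h2 := star_mem h1
      rw [star_star] at h2
      exact h2
    · refine Or.inl (Or.inr ?_)
      have h1 : star s = z := hs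
      rw [Set.mem_singleton_iff, ← star_star s, h1, hz.isSelfAdjoint.star_eq]
    · refine Or.inr ?_
      have h1 := congrArg star (hs : (1 - z) * star s * (1 - z) = star s)
      simp only [star_mul, star_star, hz.one_sub.isSelfAdjoint.star_eq] at h1
      show (1 - z) * s * (1 - z) = s
      rw [mul_assoc]
      exact h1
  rw [flatten, mem_vnOf]
  refine ⟨fun h => ⟨mem_of_commute_commutant N fun w hw => h w (Or.inl (Or.inl (Or.inl hw))),
    h z (Or.inl (Or.inl (Or.inr rfl))), fun T hT => h T (Or.inl (Or.inr hT))⟩, ?_⟩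
  rintro ⟨h1, h2, h3⟩ s hs
  have hs' : s ∈ ((N.commutant : Set (H →L[ℂ] H)) ∪ {z} ∪ {T | (1 - z) * T * (1 - z) = T}) := by
    rcases hs with hs | hs
    exacts [hs, hstar s hs]
  rcases hs' with (hs' | hs') | hs'
  · exact (VonNeumannAlgebra.mem_commutant_iff.1 hs' y h1).symm
  · rw [Set.mem_singleton_iff.1 hs']
    exact h2.eq
  · exact (h3 s hs').eq

/-- Elements of the corner are in the flattened algebra. -/
theorem corner_mem_flatten (hz : IsStarProjection z) {y : H →L[ℂ] H} (hy : y ∈ N)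
    (h : z * y * z = y) : y ∈ flatten N z := by
  have hl : z * y = y := by
    calc z * y = z * (z * y * z) := by rw [h]
      _ = z * y * z := by simp [← mul_assoc, hz.isIdempotentElem.eq]
      _ = y := h
  have hr : y * z = y := by
    calc y * z = z * y * z * z := by rw [h]
      _ = z * y * z := by simp [mul_assoc, hz.isIdempotentElem.eq]
      _ = y := h
  refine (mem_flatten hz).2 ⟨hy, hl.trans hr.symm, fun T hT => ?_⟩
  have h1 : T * y = 0 := by
    rw [← hT, mul_assoc, sub_mul 1 z y, one_mul, hl, sub_self, mul_zero]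
  have h2 : y * T = 0 := by
    rw [← hT, ← mul_assoc, ← mul_assoc, mul_sub y 1 z, mul_one, hr, sub_self, zero_mul, zero_mul]
  exact h1.trans h2.symm

theorem unit_mem_flatten (hz : IsStarProjection z) (hzN : z ∈ N) : z ∈ flatten N z :=
  corner_mem_flatten hz hzN (by rw [hz.isIdempotentElem.eq, hz.isIdempotentElem.eq])

/-- Off `z`, the flattened algebra acts by scalars. -/
theorem flatten_apply_off (hz : IsStarProjection z) {y : H →L[ℂ] H} (hy : y ∈ flatten N z)
    {η : H} (hη : z η = 0) (hη1 : ‖η‖ = 1) {v : H} (hv : z v = 0) :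
    y v = ⟪η, y η⟫_ℂ • v := by
  obtain ⟨-, hzy, hT⟩ := (mem_flatten hz).1 hy
  let T : H →L[ℂ] H := (innerSL ℂ η).smulRight v
  have hTy : Commute T y := hT T (ContinuousLinearMap.ext fun u => by
    have e1 : ⟪η, z u⟫_ℂ = 0 := by rw [← inner_sa hz.isSelfAdjoint, hη, inner_zero_left]
    simp [T, sub_apply, inner_sub_right, e1, map_smul, hv])
  have := congrArg (fun S : H →L[ℂ] H => S η) hTy.eq
  simp only [mul_apply_eq_comp, T, ContinuousLinearMap.smulRight_apply, innerSL_apply_apply,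
    map_smul] at this
  rw [inner_self_eq_norm_sq_to_K, hη1] at this
  simpa using this.symm

variable {M A : VonNeumannAlgebra H} {ξ : ι → H}

theorem isMasa_flatten (hA : IsMasa M A) (hzA : z ∈ A) (hz : IsStarProjection z) :
    IsMasa (flatten M z) (flatten A z) where
  le a ha := by
    obtain ⟨h1, h2, h3⟩ := (mem_flatten hz).1 ha
    exact (mem_flatten hz).2 ⟨hA.le a h1, h2, h3⟩
  comm a ha b hb := hA.comm a ((mem_flatten hz).1 ha).1 b ((mem_flatten hz).1 hb).1
  max x hx h := by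
    obtain ⟨h1, h2, h3⟩ := (mem_flatten hz).1 hx
    refine (mem_flatten hz).2 ⟨hA.max x h1 fun a ha => ?_, h2, h3⟩
    have haz : Commute a z := hA.comm a ha z hzA
    have hc : Commute (z * a * z) x := h _ (corner_mem_flatten hz
      (mul_mem (mul_mem hzA ha) hzA)
      (by simp only [← mul_assoc, hz.isIdempotentElem.eq]; rw [mul_assoc, hz.isIdempotentElem.eq]))
    have hd : Commute ((1 - z) * a * (1 - z)) x := h3 _ (by
      simp only [← mul_assoc, hz.one_sub.isIdempotentElem.eq]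
      rw [mul_assoc, hz.one_sub.isIdempotentElem.eq])
    have e : a = z * a * z + (1 - z) * a * (1 - z) := by
      have e1 : z * a * z = a * z := by rw [← haz.eq, mul_assoc, hz.isIdempotentElem.eq]
      have e2 : (1 - z) * a * (1 - z) = a - a * z := by
        simp only [sub_mul, mul_sub, one_mul, mul_one, ← haz.eq, e1]
        rw [mul_assoc, hz.isIdempotentElem.eq]
        abel
      rw [e1, e2]; abel
    rw [e]
    exact hc.add_left hd

theorem isTraceFamily_flatten (hz : IsStarProjection z) (hzM : z ∈ M)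
    (hξ : IsTraceFamilyOn M z ξ) :
    ∃ (κ : Type u) (ζ : κ → H), IsTraceFamily (flatten M z) ζ := by
  have key : ∀ y ∈ flatten M z, y * z ∈ M ∧ z * (y * z) * z = y * z ∧
      star (y * z) = star y * z ∧ tau ξ y = tau ξ (y * z) := by
    intro y hy
    obtain ⟨h1, h2, -⟩ := (mem_flatten hz).1 hy
    refine ⟨mul_mem h1 hzM, ?_, ?_, ?_⟩
    · rw [← mul_assoc, h2.eq, mul_assoc, hz.isIdempotentElem.eq, mul_assoc,
        hz.isIdempotentElem.eq]
    · rw [← h2.eq, star_mul, hz.isSelfAdjoint.star_eq]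
    · refine tsum_congr fun i => ?_
      rw [mul_apply_eq_comp, hξ.supported i]
  by_cases hz1 : z = 1
  · subst hz1
    refine ⟨ι, ξ, ?_, ?_, ?_⟩
    · intro y hy
      exact hξ.tracial y ((mem_flatten hz).1 hy).1 (by simp)
    · intro y hy h
      exact hξ.faithful y ((mem_flatten hz).1 hy).1 (by simp) h
    · intro p hp hpp hp0
      obtain ⟨f, hf, h⟩ := hξ.semifinite p ((mem_flatten hz).1 hp).1 hpp hp0 (mul_one p)
      exact ⟨f, corner_mem_flatten hz hf (by simp), h⟩
  obtain ⟨u₀, hu₀⟩ : ∃ v, (1 - z) v ≠ 0 := by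
    by_contra h
    push Not at h
    exact hz1 (sub_eq_zero.1 (ContinuousLinearMap.ext h : 1 - z = 0)).symm
  set η := ((‖(1 - z) u₀‖⁻¹ : ℝ) : ℂ) • (1 - z) u₀ with hηdef
  have hη : z η = 0 := by
    rw [hηdef, map_smul, sub_apply, one_apply_eq_self, map_sub]
    rw [show z (z u₀) = z u₀ from
      congrArg (fun S : H →L[ℂ] H => S u₀) hz.isIdempotentElem.eq, sub_self, smul_zero]
  have hη1 : ‖η‖ = 1 := by
    rw [hηdef, norm_smul, Complex.norm_real, norm_inv, norm_norm,
      inv_mul_cancel₀ (norm_ne_zero_iff.2 hu₀)]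
  let ζ : ι ⊕ PUnit.{u + 1} → H := Sum.elim ξ fun _ => η
  have htau : ∀ y, tau ζ y = tau ξ y + ENNReal.ofReal (‖y η‖ ^ 2) := fun y => by
    unfold tau
    rw [Summable.tsum_sum ENNReal.summable ENNReal.summable, tsum_fintype
      (f := fun b : PUnit.{u + 1} => ENNReal.ofReal (‖y (ζ (Sum.inr b))‖ ^ 2))]
    simp [ζ]
  refine ⟨ι ⊕ PUnit.{u + 1}, ζ, ?_, ?_, ?_⟩
  · intro y hy
    have hys : star y ∈ flatten M z := star_mem hy
    obtain ⟨h1, h2, h3, h4⟩ := key y hy
    obtain ⟨-, -, -, h4'⟩ := key _ hys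
    rw [htau, htau, h4, h4', hξ.tracial _ h1 h2, h3]
    congr 2
    have hn : ∀ c : ℂ, ‖c • η‖ = ‖c‖ := fun c => (norm_smul c η).trans (by rw [hη1, mul_one])
    rw [flatten_apply_off hz hy hη hη1 hη, flatten_apply_off hz hys hη hη1 hη, hn,
      hn, ContinuousLinearMap.star_eq_adjoint, ContinuousLinearMap.adjoint_inner_right,
      norm_inner_symm]
  · intro y hy h
    rw [htau, add_eq_zero] at h
    obtain ⟨h1, h2, -, h4⟩ := key y hy
    have h5 : y * z = 0 := hξ.faithful _ h1 h2 (h4 ▸ h.1)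
    have h6 : y η = 0 := by
      have := ENNReal.ofReal_eq_zero.1 h.2
      exact norm_eq_zero.1 (pow_eq_zero_iff two_ne_zero |>.1 (le_antisymm this (sq_nonneg _)))
    ext v
    have h7 : y (z v) = 0 := by
      have := congrArg (fun S : H →L[ℂ] H => S v) h5
      simpa using this
    have h8 : z (v - z v) = 0 := by
      rw [map_sub, show z (z v) = z v from
        congrArg (fun S : H →L[ℂ] H => S v) hz.isIdempotentElem.eq, sub_self]
    have h9 := flatten_apply_off hz hy hη hη1 h8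
    rw [h6, inner_zero_right, zero_smul, map_sub, h7, sub_zero] at h9
    simpa using h9
  · intro p hp hpp hp0
    obtain ⟨h1, h2, -, h4⟩ := key p hp
    obtain ⟨hpM, hzp, -⟩ := (mem_flatten hz).1 hp
    by_cases hpz : p * z = 0
    · refine ⟨p, hp, hpp, hp0, hpp.isIdempotentElem.eq, ?_⟩
      rw [htau, h4, hpz, tau_zero, zero_add]
      exact ENNReal.ofReal_ne_top
    · have hpzp : IsStarProjection (p * z) := hpp.mul hz hzp.symm
      obtain ⟨f, hf, hfp, hf0, hfpz, hft⟩ :=
        hξ.semifinite (p * z) h1 hpzp hpz (by rw [mul_assoc, hz.isIdempotentElem.eq])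
      have hfz : f * z = f := by
        calc f * z = f * (p * z * z) := by rw [← mul_assoc, hfpz]
          _ = f := by rw [mul_assoc p, hz.isIdempotentElem.eq, hfpz]
      have hzf : z * f = f := by
        have := congrArg star hfz
        simpa only [star_mul, hfp.isSelfAdjoint.star_eq, hz.isSelfAdjoint.star_eq] using this
      refine ⟨f, corner_mem_flatten hz hf (by rw [hzf, hfz]), hfp, hf0, ?_, ?_⟩
      · calc f * p = f * (z * p) := by rw [← mul_assoc, hfz]
          _ = f * (p * z) := by rw [hzp.eq]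
          _ = f := hfpz
      · rw [htau]
        exact ENNReal.add_ne_top.2 ⟨hft, ENNReal.ofReal_ne_top⟩

/-- So-paving when the centralised part is semifinite, `M` of any type. -/
theorem soPavable_of_mixed (hA : IsMasa M A) (hzA : z ∈ A) (hz : IsStarProjection z)
    (hξ : IsTraceFamilyOn M z ξ) (hno : NoCentralised M A (1 - z)) {ε : ℝ} (hε : 0 < ε)
    {r₁ r₂ : ℕ} (hr₂ : 3 / ε ≤ r₂)
    (hcore : ∀ (K : Type u) [NormedAddCommGroup K] [InnerProductSpace ℂ K] [CompleteSpace K]
      (S : Std K), S.Paves ε r₁)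
    {x : H →L[ℂ] H} (hxM : x ∈ M) (hx : IsSelfAdjoint x) :
    SoPavable M A ε (r₁ + r₂ + r₂) x := by
  refine soPavable_of_contractions (fun y hy hys hy1 F δ hδ => ?_) hxM hx
  have hr0 : 0 < r₂ := by
    have : (0 : ℝ) < r₂ := lt_of_lt_of_le (by positivity) hr₂
    exact_mod_cast this
  have hzM := hA.le z hzA
  obtain ⟨κ, ζ, hζ⟩ := isTraceFamily_flatten hz hzM hξ
  have hyz : z * y * z ∈ flatten M z := corner_mem_flatten hz (mul_mem (mul_mem hzM hy) hzM)
    (by simp only [← mul_assoc, hz.isIdempotentElem.eq]; rw [mul_assoc, hz.isIdempotentElem.eq])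
  have hys' : IsSelfAdjoint (z * y * z) := by
    have := hys.conjugate z
    rwa [hz.isSelfAdjoint.star_eq] at this
  have hy1' : ‖z * y * z‖ ≤ 1 := by
    refine norm_mul₃_le.trans ?_
    calc ‖z‖ * ‖y‖ * ‖z‖ ≤ 1 * 1 * 1 := by gcongr <;> exact opNorm_proj_le_one hz
      _ = 1 := by norm_num
  classical
  obtain ⟨p, a, q, hp, haA, has, han, hqM, hq, hqF, hn⟩ :=
    paving_of_paves (isMasa_flatten hA hzA hz) hζ hε hr₂ hcore hyz hys' hy1' (F.image z)
      (δ := δ / 3) (by positivity)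
  obtain ⟨haA', haz, -⟩ := (mem_flatten hz).1 haA
  obtain ⟨hqM', hqz, -⟩ := (mem_flatten hz).1 hqM
  have hpz : ∀ i, Commute (p i) z := fun i =>
    hA.comm _ ((mem_flatten hz).1 (hp.mem i)).1 z hzA
  have hp₁ : IsPart A z (fun i => p i * z) := by
    refine ⟨fun i => mul_mem ((mem_flatten hz).1 (hp.mem i)).1 hzA,
      fun i => (hp.proj i).mul hz (hpz i), fun i j hij => ?_, ?_⟩
    · rw [mul_assoc, ← mul_assoc z, ← (hpz j).eq, ← mul_assoc, ← mul_assoc, hp.orth i j hij,
        zero_mul, zero_mul]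
    · rw [← Finset.sum_mul, hp.sum_eq, one_mul]
  have ha₁s : IsSelfAdjoint (a * z) := by
    rw [IsSelfAdjoint, star_mul, hz.isSelfAdjoint.star_eq, has.star_eq, haz.eq]
  have ha₁n : ‖a * z‖ ≤ 1 := (norm_mul_le _ _).trans
    (mul_le_one₀ han (norm_nonneg _) (opNorm_proj_le_one hz))
  have hq₁ : IsStarProjection (q * z) := hq.mul hz hqz.symm
  have h1 : ‖q * z * (pinch (fun i => p i * z) y - a * z) * (q * z)‖ ≤ ε := by
    have e1 : pinch (fun i => p i * z) y = pinch p (z * y * z) := by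
      refine Finset.sum_congr rfl fun i _ => ?_
      calc p i * z * y * (p i * z) = p i * z * y * (z * p i) := by rw [(hpz i).eq]
        _ = _ := by simp [mul_assoc]
    have e2 : q * z * (pinch p (z * y * z) - a * z) * (q * z) =
        z * (q * (pinch p (z * y * z) - a) * q) * z := by
      have e3 : ∀ S, q * z * S * (q * z) = z * (q * S * q) * z := fun S => by
        rw [← hqz.eq]
        simp only [mul_assoc]
        congr 3
      have e4 : q * z * (a * z) * (q * z) = q * z * a * (q * z) := by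
        have : z * (q * z) = q * z := by
          rw [← mul_assoc, hqz.eq, mul_assoc, hz.isIdempotentElem.eq]
        simp only [mul_assoc]
        rw [this]
      rw [mul_sub (q * z), sub_mul _ _ (q * z), e4, ← sub_mul _ _ (q * z), ← mul_sub (q * z), e3]
    rw [e1, e2]
    refine norm_mul₃_le.trans ?_
    calc ‖z‖ * ‖q * (pinch p (z * y * z) - a) * q‖ * ‖z‖ ≤ 1 * ε * 1 := by
          gcongr <;> exact opNorm_proj_le_one hz
      _ = ε := by ring
  have hex := exists_thin_of_pinch hA (sub_mem (one_mem A) hzA) hz.one_sub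
    (exists_small_pinch_of_noCentralised hA (sub_mem (one_mem A) hzA) hz.one_sub hno)
  obtain ⟨p₂, a₂, q₂, hp₂, ha₂A, ha₂s, ha₂z, ha₂n, hq₂M, hq₂, hq₂z, hq₂F, h2⟩ :=
    paving_of_thin hA (sub_mem (one_mem A) hzA) hz.one_sub hex hy hys hy1 hε hr₂ F
      (δ := δ / 3) (by positivity)
  obtain ⟨P, hP, hQ, hab, hPn⟩ := exists_join (x := y) hz hz hzA hzA hz.isIdempotentElem.eq hr0
    hp₁ hp₂ hq₁ hq₂ (by rw [mul_assoc, hz.isIdempotentElem.eq]) hq₂z ha₁s ha₂s
    (by rw [mul_assoc, hz.isIdempotentElem.eq]) ha₂z hε.le h1 h2 zero_le_one ha₁n (ha₂n.trans hy1)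
  refine ⟨P, a * z + a₂, q * z + q₂, hP, add_mem (mul_mem haA' hzA) ha₂A, ha₁s.add ha₂s, hab,
    add_mem (mul_mem hqM' hzM) hq₂M, hQ, fun v hv => ?_, hPn⟩
  have e : (1 - (q * z + q₂)) v = (1 - q) (z v) + ((1 - z) v - q₂ v) := by
    simp only [sub_apply, add_apply, one_apply_eq_self, mul_apply_eq_comp]
    abel
  rw [e]
  linarith [norm_add_le ((1 - q) (z v)) ((1 - z) v - q₂ v),
    hqF (z v) (Finset.mem_image_of_mem z hv), hq₂F v hv]

/-- One bound for all these algebras: everything but a centralised part of type III. -/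
theorem exists_sq_bound_mixed
    (core : ∃ C : ℝ, ∀ (K : Type u) [NormedAddCommGroup K] [InnerProductSpace ℂ K]
      [CompleteSpace K] (S : Std K) (ε : ℝ), 0 < ε → ε ≤ 1 →
        ∃ r : ℕ, (r : ℝ) ≤ C / ε ^ 2 ∧ S.Paves ε r) :
    ∃ C : ℝ, 0 < C ∧ ∀ ε : ℝ, 0 < ε → ε ≤ 1 → ∃ r : ℕ, 0 < r ∧ (r : ℝ) ≤ C / ε ^ 2 ∧
      ∀ (H : Type u) [NormedAddCommGroup H] [InnerProductSpace ℂ H] [CompleteSpace H]
        (M A : VonNeumannAlgebra H) (z : H →L[ℂ] H) (ι : Type u) (ξ : ι → H),
        IsMasa M A → z ∈ A → IsStarProjection z → IsTraceFamilyOn M z ξ →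
        NoCentralised M A (1 - z) → ∀ x ∈ M, IsSelfAdjoint x → SoPavable M A ε r x := by
  obtain ⟨C, hC⟩ := core
  refine ⟨max C 0 + 8, by positivity, fun ε hε hε1 => ?_⟩
  have hp : 0 < ε ^ 2 := by positivity
  have hsq : ε ^ 2 ≤ ε := by nlinarith
  refine ⟨⌊max C 0 / ε ^ 2⌋₊ + ⌈3 / ε⌉₊ + ⌈3 / ε⌉₊, ?_, ?_,
    fun H _ _ _ M A z ι ξ hA hzA hz hξ hno x hx hxs => ?_⟩
  · have : 0 < ⌈3 / ε⌉₊ := Nat.ceil_pos.2 (by positivity)
    omega
  · have h2 : (⌈3 / ε⌉₊ : ℝ) ≤ 4 / ε ^ 2 := by
      refine (Nat.ceil_lt_add_one (by positivity)).le.trans ?_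
      have h3 : 3 / ε + 1 ≤ 4 / ε := by
        rw [div_add_one hε.ne', div_le_div_iff_of_pos_right hε]
        linarith
      exact h3.trans (div_le_div_of_nonneg_left (by norm_num) hp hsq)
    have e8 : (max C 0 + 8) / ε ^ 2 = max C 0 / ε ^ 2 + 4 / ε ^ 2 + 4 / ε ^ 2 := by ring
    push_cast
    rw [e8]
    exact add_le_add (add_le_add (Nat.floor_le (by positivity)) h2) h2
  · refine soPavable_of_mixed hA hzA hz hξ hno hε (Nat.le_ceil _) ?_ hx hxs
    intro K _ _ _ S
    obtain ⟨r, hr, hp'⟩ := hC K S ε hε hε1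
    refine paves_mono (Nat.le_floor (hr.trans ?_)) hp'
    exact div_le_div_of_nonneg_right (le_max_left _ _) hp.le

end Vale.Agent.P078.General
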