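import Vale.Agent.P078.General.Defs

/-!
# Spectral cuts and membership lemmas for concrete von Neumann algebras
-/

namespace Vale.Agent.P078.General

open scoped InnerProductSpace
open Filter

universe u

variable {H : Type u} [NormedAddCommGroup H] [InnerProductSpace ℂ H] [CompleteSpace H]

theorem mem_of_commute_commutant (M : VonNeumannAlgebra H) {x : H →L[ℂ] H}
    (h : ∀ y ∈ M.commutant, y * x = x * y) : x ∈ M := by
  rw [← M.commutant_commutant, VonNeumannAlgebra.mem_commutant_iff]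
  exact h

theorem smul_mem' (M : VonNeumannAlgebra H) {x : H →L[ℂ] H} (hx : x ∈ M) (c : ℂ) :
    c • x ∈ M :=
  M.toStarSubalgebra.smul_mem hx c

theorem smul_one_mem (M : VonNeumannAlgebra H) (c : ℂ) : c • (1 : H →L[ℂ] H) ∈ M :=
  smul_mem' M (one_mem M) c

theorem inner_sa {T : H →L[ℂ] H} (hT : IsSelfAdjoint T) (v w : H) :
    ⟪T v, w⟫_ℂ = ⟪v, T w⟫_ℂ :=
  hT.isSymmetric v w

omit [CompleteSpace H] in
theorem re_inner_nonneg_of_nonneg {T : H →L[ℂ] H} (hT : 0 ≤ T) (v : H) :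
    0 ≤ (⟪T v, v⟫_ℂ).re :=
  ((ContinuousLinearMap.nonneg_iff_isPositive T).1 hT).re_inner_nonneg_left v

theorem star_proj_apply_norm_sq {p : H →L[ℂ] H} (hp : IsStarProjection p) (v : H) :
    ‖p v‖ ^ 2 = (⟪p v, v⟫_ℂ).re := by
  have h : p (p v) = p v := congrArg (fun f : H →L[ℂ] H => f v) hp.isIdempotentElem.eq
  have : ⟪p v, p v⟫_ℂ = ⟪p v, v⟫_ℂ := by
    rw [← inner_sa hp.isSelfAdjoint (p v) v, h]
  rw [← this]
  exact (inner_self_eq_norm_sq (𝕜 := ℂ) (p v)).symm

theorem norm_proj_le {p : H →L[ℂ] H} (hp : IsStarProjection p) (v : H) : ‖p v‖ ≤ ‖v‖ := by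
  have h1 := star_proj_apply_norm_sq hp v
  have h2 : (⟪p v, v⟫_ℂ).re ≤ ‖p v‖ * ‖v‖ :=
    (Complex.re_le_norm _).trans (norm_inner_le_norm _ _)
  by_contra h
  have h3 : 0 ≤ ‖v‖ := norm_nonneg _
  nlinarith

theorem opNorm_proj_le_one {p : H →L[ℂ] H} (hp : IsStarProjection p) : ‖p‖ ≤ 1 :=
  p.opNorm_le_bound zero_le_one fun v => by simpa using norm_proj_le hp v

/-- `shift T t = T - t`. -/
noncomputable def shift (T : H →L[ℂ] H) (t : ℝ) : H →L[ℂ] H := T - (t : ℂ) • 1

theorem isSelfAdjoint_shift {T : H →L[ℂ] H} (hT : IsSelfAdjoint T) (t : ℝ) :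
    IsSelfAdjoint (shift T t) := by
  refine hT.sub ?_
  simp [IsSelfAdjoint, star_smul]

omit [CompleteSpace H] in
theorem commute_shift {y T : H →L[ℂ] H} (h : Commute y T) (t : ℝ) : Commute y (shift T t) :=
  h.sub_right ((Commute.one_right y).smul_right _)

/-- The kernel of the positive part of `T - t`. -/
noncomputable def cutSpace (T : H →L[ℂ] H) (t : ℝ) : Submodule ℂ H := (shift T t)⁺.ker

instance (T : H →L[ℂ] H) (t : ℝ) : CompleteSpace (cutSpace T t) :=
  (ContinuousLinearMap.isClosed_ker _).completeSpace_coe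

/-- The spectral projection of `T` for `(-∞, t]`. -/
noncomputable def cut (T : H →L[ℂ] H) (t : ℝ) : H →L[ℂ] H := (cutSpace T t).starProjection

theorem isStarProjection_cut (T : H →L[ℂ] H) (t : ℝ) : IsStarProjection (cut T t) :=
  isStarProjection_starProjection

theorem cut_mem_cutSpace (T : H →L[ℂ] H) (t : ℝ) (v : H) : cut T t v ∈ cutSpace T t :=
  Submodule.starProjection_apply_mem _ v

theorem commute_cut {y T : H →L[ℂ] H} (hT : IsSelfAdjoint T) (h : Commute y T) (t : ℝ) :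
    Commute y (cut T t) := by
  have h' : Commute (star y) T := by
    have := h.star_star
    rwa [hT.star_eq] at this
  have inv : ∀ z : H →L[ℂ] H, Commute z T → ∀ v ∈ cutSpace T t, z v ∈ cutSpace T t := by
    intro z hz v hv
    have hc : Commute z (shift T t)⁺ := by
      rw [CFC.posPart_def]
      exact ((commute_shift hz t).symm.cfcₙ_real _).symm
    simp only [cutSpace, LinearMap.mem_ker] at hv ⊢
    have e := congrArg (fun f : H →L[ℂ] H => f v) hc.eq
    simp only [mul_apply_eq_comp] at e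
    rw [ContinuousLinearMap.coe_coe] at hv ⊢
    rw [← e, hv, map_zero]
  set P := cut T t with hP
  have hsa : IsSelfAdjoint P := (isStarProjection_cut T t).isSelfAdjoint
  have k : ∀ z : H →L[ℂ] H, Commute z T → P * z * P = z * P := by
    intro z hz
    ext v
    exact Submodule.starProjection_eq_self_iff.2 (inv z hz _ (cut_mem_cutSpace T t v))
  have e2 : P * y * P = P * y := by
    have := congrArg star (k _ h')
    simpa [star_mul, hsa.star_eq, mul_assoc] using this
  exact (k y h).symm.trans e2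

theorem commute_cut_self {T : H →L[ℂ] H} (hT : IsSelfAdjoint T) (t : ℝ) :
    Commute T (cut T t) :=
  commute_cut hT (Commute.refl T) t

theorem cut_mem (M : VonNeumannAlgebra H) {T : H →L[ℂ] H} (hM : T ∈ M) (hT : IsSelfAdjoint T)
    (t : ℝ) : cut T t ∈ M :=
  mem_of_commute_commutant M fun _ hy => commute_cut hT
    ((VonNeumannAlgebra.mem_commutant_iff.1 hy T hM).symm) t

theorem re_inner_le_of_mem_cutSpace {T : H →L[ℂ] H} (hT : IsSelfAdjoint T) {t : ℝ} {v : H}
    (hv : v ∈ cutSpace T t) : (⟪T v, v⟫_ℂ).re ≤ t * ‖v‖ ^ 2 := by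
  have hd := CFC.posPart_sub_negPart (shift T t) (isSelfAdjoint_shift hT t)
  have e := congrArg (fun f : H →L[ℂ] H => f v) hd
  have hv' : (shift T t)⁺ v = 0 := hv
  simp only [sub_apply, hv', zero_sub] at e
  have h0 := re_inner_nonneg_of_nonneg (CFC.negPart_nonneg (shift T t)) v
  have e2 : T v = (t : ℂ) • v - (shift T t)⁻ v := by
    have : shift T t v = T v - (t : ℂ) • v := by simp [shift]
    rw [sub_eq_add_neg, e, this]
    abel
  have hn2 : (⟪v, v⟫_ℂ).re = ‖v‖ ^ 2 := inner_self_eq_norm_sq (𝕜 := ℂ) v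
  rw [e2, inner_sub_left, inner_smul_left, Complex.sub_re, Complex.conj_ofReal,
    Complex.re_ofReal_mul, hn2]
  linarith

theorem le_re_inner_of_cut_eq_zero {T : H →L[ℂ] H} (hT : IsSelfAdjoint T) {t : ℝ} {v : H}
    (hv : cut T t v = 0) : t * ‖v‖ ^ 2 ≤ (⟪T v, v⟫_ℂ).re := by
  have hsa : IsSelfAdjoint (shift T t)⁻ := IsSelfAdjoint.of_nonneg (CFC.negPart_nonneg _)
  have hn : (shift T t)⁻ v = 0 := by
    have hmem : (shift T t)⁻ ((shift T t)⁻ v) ∈ cutSpace T t := by
      have := congrArg (fun f : H →L[ℂ] H => f ((shift T t)⁻ v))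
        (CFC.posPart_mul_negPart (shift T t))
      exact this
    have h0 : ⟪v - cut T t v, (shift T t)⁻ ((shift T t)⁻ v)⟫_ℂ = 0 :=
      Submodule.starProjection_inner_eq_zero v _ hmem
    rw [hv, sub_zero, ← inner_sa hsa] at h0
    exact inner_self_eq_zero.1 h0
  have hd := CFC.posPart_sub_negPart (shift T t) (isSelfAdjoint_shift hT t)
  have e := congrArg (fun f : H →L[ℂ] H => f v) hd
  simp only [sub_apply, hn, sub_zero] at e
  have h0 := re_inner_nonneg_of_nonneg (CFC.posPart_nonneg (shift T t)) v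
  have e2 : T v = (t : ℂ) • v + (shift T t)⁺ v := by
    rw [e]
    simp [shift]
  have hn2 : (⟪v, v⟫_ℂ).re = ‖v‖ ^ 2 := inner_self_eq_norm_sq (𝕜 := ℂ) v
  rw [e2, inner_add_left, inner_smul_left, Complex.add_re, Complex.conj_ofReal,
    Complex.re_ofReal_mul, hn2]
  linarith

theorem norm_sub_cut_sq {T : H →L[ℂ] H} (hT : IsSelfAdjoint T) (hT0 : 0 ≤ T) {t : ℝ} (v : H) :
    t * ‖v - cut T t v‖ ^ 2 ≤ (⟪T v, v⟫_ℂ).re := by
  set g := cut T t with hg
  have hgp := isStarProjection_cut T t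
  have hz : g (v - g v) = 0 := by
    have : g (g v) = g v := congrArg (fun f : H →L[ℂ] H => f v) hgp.isIdempotentElem.eq
    rw [map_sub, this, sub_self]
  have h1 := le_re_inner_of_cut_eq_zero hT hz
  have hc : T (g v) = g (T v) :=
    congrArg (fun f : H →L[ℂ] H => f v) (commute_cut_self hT t).eq
  have hx : ⟪T (g v), v - g v⟫_ℂ = 0 := by
    rw [hc, inner_sa hgp.isSelfAdjoint, hz, inner_zero_right]
  have hy : ⟪T (v - g v), g v⟫_ℂ = 0 := by
    rw [inner_sa hT, ← inner_conj_symm, hx, map_zero]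
  have hs : (⟪T v, v⟫_ℂ).re = (⟪T (g v), g v⟫_ℂ).re + (⟪T (v - g v), v - g v⟫_ℂ).re := by
    have : v = g v + (v - g v) := by abel
    conv_lhs => rw [this]
    simp only [map_add, inner_add_left, inner_add_right, hx, hy, Complex.add_re,
      Complex.zero_re]
    ring
  have h0 := re_inner_nonneg_of_nonneg hT0 (g v)
  linarith

/-- `T ≤ t` on the range of the cut, as a bound for the norm. -/
theorem norm_cut_sq_le {W : H →L[ℂ] H} {t : ℝ} (ht : 0 ≤ t) (v : H) :
    ‖W (cut (star W * W) (t ^ 2) v)‖ ≤ t * ‖cut (star W * W) (t ^ 2) v‖ := by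
  set u := cut (star W * W) (t ^ 2) v
  have h := re_inner_le_of_mem_cutSpace (IsSelfAdjoint.star_mul_self W)
    (cut_mem_cutSpace (star W * W) (t ^ 2) v)
  have e : (⟪(star W * W) u, u⟫_ℂ).re = ‖W u‖ ^ 2 := by
    rw [mul_apply_eq_comp, ContinuousLinearMap.star_eq_adjoint,
      ContinuousLinearMap.adjoint_inner_left]
    exact inner_self_eq_norm_sq (𝕜 := ℂ) (W u)
  rw [e, show t ^ 2 * ‖u‖ ^ 2 = (t * ‖u‖) ^ 2 by ring] at h
  exact le_of_pow_le_pow_left₀ two_ne_zero (by positivity) h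

theorem norm_sub_cut_le {W : H →L[ℂ] H} {t : ℝ} (ht : 0 < t) (v : H) :
    ‖v - cut (star W * W) (t ^ 2) v‖ ≤ ‖W v‖ / t := by
  have h := norm_sub_cut_sq (IsSelfAdjoint.star_mul_self W) (star_mul_self_nonneg W)
    (t := t ^ 2) v
  have e : (⟪(star W * W) v, v⟫_ℂ).re = ‖W v‖ ^ 2 := by
    rw [mul_apply_eq_comp, ContinuousLinearMap.star_eq_adjoint,
      ContinuousLinearMap.adjoint_inner_left]
    exact inner_self_eq_norm_sq (𝕜 := ℂ) (W v)
  rw [e] at h
  rw [le_div_iff₀ ht]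
  refine le_of_pow_le_pow_left₀ two_ne_zero (norm_nonneg _) ?_
  calc (‖v - cut (star W * W) (t ^ 2) v‖ * t) ^ 2
      = t ^ 2 * ‖v - cut (star W * W) (t ^ 2) v‖ ^ 2 := by ring
    _ ≤ _ := h

end Vale.Agent.P078.General
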