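import Vale.Agent.P078.General.Ops

/-!
# Finite partitions in an abelian algebra, refinement, pinchings
-/

namespace Vale.Agent.P078.General

open scoped InnerProductSpace
open Filter

universe u

variable {H : Type u} [NormedAddCommGroup H] [InnerProductSpace ℂ H] [CompleteSpace H]

omit [CompleteSpace H] in
theorem norm_sq_add_of_inner {v w : H} (h : ⟪v, w⟫_ℂ = 0) :
    ‖v + w‖ ^ 2 = ‖v‖ ^ 2 + ‖w‖ ^ 2 := by
  have := norm_add_sq (𝕜 := ℂ) v w
  rw [h] at this
  simpa using this

theorem norm_sq_sum_of_orth {ι : Type*} (s : Finset ι) (v : ι → H)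
    (h : ∀ i ∈ s, ∀ j ∈ s, i ≠ j → ⟪v i, v j⟫_ℂ = 0) :
    ‖∑ i ∈ s, v i‖ ^ 2 = ∑ i ∈ s, ‖v i‖ ^ 2 := by
  classical
  induction s using Finset.induction_on with
  | empty => simp
  | insert a t ha ih =>
    rw [Finset.sum_insert ha, Finset.sum_insert ha, norm_sq_add_of_inner, ih]
    · exact fun i hi j hj hij =>
        h i (Finset.mem_insert_of_mem hi) j (Finset.mem_insert_of_mem hj) hij
    · rw [inner_sum]
      exact Finset.sum_eq_zero fun j hj => h a (Finset.mem_insert_self a t) j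
        (Finset.mem_insert_of_mem hj) fun e => ha (e ▸ hj)

theorem inner_proj_orth {p q : H →L[ℂ] H} (hp : IsStarProjection p) (h : p * q = 0) (v w : H) :
    ⟪p v, q w⟫_ℂ = 0 := by
  rw [inner_sa hp.isSelfAdjoint]
  have : p (q w) = (p * q) w := rfl
  rw [this, h]
  simp

namespace IsPart

variable {A : VonNeumannAlgebra H} {e : H →L[ℂ] H} {ι : Type*} [Fintype ι]
  {p : ι → H →L[ℂ] H}

theorem commute_of_orth (hp : IsPart A e p) (i j : ι) : Commute (p i) (p j) := by
  rcases eq_or_ne i j with rfl | h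
  · exact Commute.refl _
  · exact (hp.orth i j h).trans (hp.orth j i h.symm).symm

theorem mul_unit (hp : IsPart A e p) (i : ι) : p i * e = p i := by
  rw [← hp.sum_eq, Finset.mul_sum, Finset.sum_eq_single i]
  · exact (hp.proj i).isIdempotentElem.eq
  · exact fun j _ h => hp.orth i j h.symm
  · simp

theorem unit_mul (hp : IsPart A e p) (i : ι) : e * p i = p i := by
  rw [← hp.sum_eq, Finset.sum_mul, Finset.sum_eq_single i]
  · exact (hp.proj i).isIdempotentElem.eq
  · exact fun j _ h => hp.orth j i h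
  · simp

theorem isStarProjection_unit (hp : IsPart A e p) : IsStarProjection e := by
  refine ⟨?_, ?_⟩
  · show e * e = e
    conv_lhs => arg 2; rw [← hp.sum_eq]
    rw [Finset.mul_sum]
    simp_rw [hp.unit_mul]
    exact hp.sum_eq
  · rw [← hp.sum_eq]
    exact isSelfAdjoint_sum _ fun i _ => (hp.proj i).isSelfAdjoint

theorem sum_norm_sq (hp : IsPart A e p) (v : H) : ∑ i, ‖p i v‖ ^ 2 = ‖e v‖ ^ 2 := by
  rw [← hp.sum_eq, sum_apply, norm_sq_sum_of_orth]
  exact fun i _ j _ hij => inner_proj_orth (hp.proj i) (hp.orth i j hij) _ _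

theorem sum_norm_sq_le (hp : IsPart A e p) (v : H) : ∑ i, ‖p i v‖ ^ 2 ≤ ‖v‖ ^ 2 := by
  rw [hp.sum_norm_sq]
  exact pow_le_pow_left₀ (norm_nonneg _) (norm_proj_le hp.isStarProjection_unit v) 2

theorem norm_sq_sum_apply (hp : IsPart A e p) (w : ι → H) :
    ‖∑ i, p i (w i)‖ ^ 2 = ∑ i, ‖p i (w i)‖ ^ 2 :=
  norm_sq_sum_of_orth _ _ fun i _ j _ hij => inner_proj_orth (hp.proj i) (hp.orth i j hij) _ _

theorem norm_pinch_apply_sq (hp : IsPart A e p) (x : H →L[ℂ] H) (v : H) :
    ‖pinch p x v‖ ^ 2 = ∑ i, ‖p i (x (p i v))‖ ^ 2 := by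
  rw [← hp.norm_sq_sum_apply fun i => x (p i v)]
  simp [pinch, mul_apply_eq_comp]

theorem norm_pinch_apply_le (hp : IsPart A e p) (x : H →L[ℂ] H) (v : H) :
    ‖pinch p x v‖ ≤ ‖x‖ * ‖v‖ := by
  refine le_of_pow_le_pow_left₀ two_ne_zero (by positivity) ?_
  rw [hp.norm_pinch_apply_sq, mul_pow]
  calc ∑ i, ‖p i (x (p i v))‖ ^ 2 ≤ ∑ i, ‖x‖ ^ 2 * ‖p i v‖ ^ 2 := by
        refine Finset.sum_le_sum fun i _ => ?_
        rw [← mul_pow]
        exact pow_le_pow_left₀ (norm_nonneg _)
          ((norm_proj_le (hp.proj i) _).trans (x.le_opNorm _)) 2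
    _ ≤ ‖x‖ ^ 2 * ‖v‖ ^ 2 := by
        rw [← Finset.mul_sum]
        exact mul_le_mul_of_nonneg_left (hp.sum_norm_sq_le v) (sq_nonneg _)

theorem norm_pinch_le (hp : IsPart A e p) (x : H →L[ℂ] H) : ‖pinch p x‖ ≤ ‖x‖ :=
  (pinch p x).opNorm_le_bound (norm_nonneg _) (hp.norm_pinch_apply_le x)

theorem pinch_mem (hp : IsPart A e p) {M : VonNeumannAlgebra H} (h : ∀ a ∈ A, a ∈ M)
    {x : H →L[ℂ] H} (hx : x ∈ M) : pinch p x ∈ M :=
  sum_mem fun i _ => mul_mem (mul_mem (h _ (hp.mem i)) hx) (h _ (hp.mem i))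

theorem star_pinch (hp : IsPart A e p) (x : H →L[ℂ] H) : star (pinch p x) = pinch p (star x) := by
  simp only [pinch, star_sum, star_mul, (hp.proj _).isSelfAdjoint.star_eq, mul_assoc]

theorem pinch_of_commute (hp : IsPart A e p) {a : H →L[ℂ] H} (h : ∀ i, Commute (p i) a) :
    pinch p a = a * e := by
  simp only [pinch, (h _).eq]
  rw [← hp.sum_eq, Finset.mul_sum]
  exact Finset.sum_congr rfl fun i _ => by rw [mul_assoc, (hp.proj i).isIdempotentElem.eq]

theorem commute_pinch (hp : IsPart A e p) (i : ι) (x : H →L[ℂ] H) :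
    Commute (p i) (pinch p x) := by
  classical
  have l : p i * pinch p x = p i * x * p i := by
    rw [pinch, Finset.mul_sum, Finset.sum_eq_single i]
    · simp [← mul_assoc, (hp.proj i).isIdempotentElem.eq]
    · exact fun j _ h => by simp [← mul_assoc, hp.orth i j h.symm]
    · simp
  have r : pinch p x * p i = p i * x * p i := by
    rw [pinch, Finset.sum_mul, Finset.sum_eq_single i]
    · simp [mul_assoc, (hp.proj i).isIdempotentElem.eq]
    · exact fun j _ h => by simp [mul_assoc, hp.orth j i h]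
    · simp
  exact l.trans r.symm

end IsPart

omit [CompleteSpace H] in
theorem pinch_sub {ι : Type*} [Fintype ι] (p : ι → H →L[ℂ] H) (x y : H →L[ℂ] H) :
    pinch p (x - y) = pinch p x - pinch p y := by
  simp [pinch, mul_sub, sub_mul, Finset.sum_sub_distrib]

/-- A finite partition of `e` in `A`, bundled. -/
structure Part (A : VonNeumannAlgebra H) (e : H →L[ℂ] H) where
  /-- number of pieces -/
  n : ℕ
  /-- the pieces -/
  p : Fin n → H →L[ℂ] H
  isPart : IsPart A e p

namespace Part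

variable {A : VonNeumannAlgebra H} {e : H →L[ℂ] H}

/-- The trivial partition. -/
def triv (heA : e ∈ A) (he : IsStarProjection e) : Part A e where
  n := 1
  p _ := e
  isPart := ⟨fun _ => heA, fun _ => he, fun i j h => absurd (Subsingleton.elim i j) h, by simp⟩

/-- `Q` refines `P`. -/
def Refines (Q P : Part A e) : Prop := ∀ k i, Q.p k * P.p i = Q.p k ∨ Q.p k * P.p i = 0

theorem refines_refl (P : Part A e) : Refines P P := fun k i => by
  rcases eq_or_ne k i with rfl | h
  · exact Or.inl (P.isPart.proj k).isIdempotentElem.eq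
  · exact Or.inr (P.isPart.orth k i h)

theorem exists_parent {Q P : Part A e} (h : Refines Q P) (k : Fin Q.n) (hk : Q.p k ≠ 0) :
    ∃ i, Q.p k * P.p i = Q.p k := by
  by_contra hne
  push Not at hne
  apply hk
  calc Q.p k = Q.p k * e := (Q.isPart.mul_unit k).symm
    _ = Q.p k * ∑ i, P.p i := congrArg _ P.isPart.sum_eq.symm
    _ = 0 := by
      rw [Finset.mul_sum]
      exact Finset.sum_eq_zero fun i _ => (h k i).resolve_left (hne i)

theorem refines_trans {Q P R : Part A e} (h : Refines Q P) (h' : Refines P R) : Refines Q R := by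
  intro k i
  rcases eq_or_ne (Q.p k) 0 with hk | hk
  · exact Or.inr (by simp [hk])
  obtain ⟨j, hj⟩ := exists_parent h k hk
  rcases h' j i with h1 | h1
  · left; rw [← hj, mul_assoc, h1]
  · right; rw [← hj, mul_assoc, h1, mul_zero]

theorem refines_triv (heA : e ∈ A) (he : IsStarProjection e) (P : Part A e) :
    Refines P (triv heA he) := fun k _ => Or.inl (P.isPart.mul_unit k)

/-- The common refinement. -/
noncomputable def inf (hc : ∀ a ∈ A, ∀ b ∈ A, Commute a b) (P Q : Part A e) : Part A e where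
  n := P.n * Q.n
  p k := P.p (finProdFinEquiv.symm k).1 * Q.p (finProdFinEquiv.symm k).2
  isPart := by
    refine ⟨fun k => mul_mem (P.isPart.mem _) (Q.isPart.mem _), fun k => ?_, fun k l h => ?_, ?_⟩
    · exact (P.isPart.proj _).mul (Q.isPart.proj _) (hc _ (P.isPart.mem _) _ (Q.isPart.mem _))
    · have hne : finProdFinEquiv.symm k ≠ finProdFinEquiv.symm l :=
        fun e => h (finProdFinEquiv.symm.injective e)
      set a := finProdFinEquiv.symm k
      set b := finProdFinEquiv.symm l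
      have sw : Q.p a.2 * P.p b.1 = P.p b.1 * Q.p a.2 :=
        (hc _ (Q.isPart.mem _) _ (P.isPart.mem _)).eq
      calc P.p a.1 * Q.p a.2 * (P.p b.1 * Q.p b.2)
          = P.p a.1 * P.p b.1 * (Q.p a.2 * Q.p b.2) := by
            rw [mul_assoc, ← mul_assoc (Q.p a.2), sw]; simp [mul_assoc]
        _ = 0 := by
            by_cases h1 : a.1 = b.1
            · have h2 : a.2 ≠ b.2 := fun h2 => hne (Prod.ext h1 h2)
              rw [Q.isPart.orth _ _ h2, mul_zero]
            · rw [P.isPart.orth _ _ h1, zero_mul]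
    · rw [Fintype.sum_equiv finProdFinEquiv.symm _ (fun x => P.p x.1 * Q.p x.2) fun _ => rfl,
        Fintype.sum_prod_type]
      simp_rw [← Finset.mul_sum, Q.isPart.sum_eq, P.isPart.mul_unit, P.isPart.sum_eq]

theorem inf_refines_left (hc : ∀ a ∈ A, ∀ b ∈ A, Commute a b) (P Q : Part A e) :
    Refines (inf hc P Q) P := by
  intro k i
  simp only [inf]
  set a := finProdFinEquiv.symm k
  rw [mul_assoc, (hc _ (Q.isPart.mem a.2) _ (P.isPart.mem i)).eq, ← mul_assoc]
  rcases eq_or_ne a.1 i with h | h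
  · subst h; exact Or.inl (by rw [(P.isPart.proj _).isIdempotentElem.eq])
  · exact Or.inr (by rw [P.isPart.orth _ _ h, zero_mul])

theorem inf_refines_right (hc : ∀ a ∈ A, ∀ b ∈ A, Commute a b) (P Q : Part A e) :
    Refines (inf hc P Q) Q := by
  intro k i
  simp only [inf]
  set a := finProdFinEquiv.symm k
  rw [mul_assoc]
  rcases eq_or_ne a.2 i with h | h
  · subst h; exact Or.inl (by rw [(Q.isPart.proj _).isIdempotentElem.eq])
  · exact Or.inr (by rw [Q.isPart.orth _ _ h, mul_zero])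

theorem pinch_pinch (hc : ∀ a ∈ A, ∀ b ∈ A, Commute a b) {Q P : Part A e} (h : Refines Q P)
    (x : H →L[ℂ] H) : pinch Q.p (pinch P.p x) = pinch Q.p x := by
  refine Finset.sum_congr rfl fun k _ => ?_
  rcases eq_or_ne (Q.p k) 0 with hk | hk
  · simp [hk]
  obtain ⟨i, hi⟩ := exists_parent h k hk
  have hi' : P.p i * Q.p k = Q.p k :=
    (hc _ (P.isPart.mem i) _ (Q.isPart.mem k)).eq.trans hi
  calc Q.p k * pinch P.p x * Q.p k = Q.p k * (P.p i * pinch P.p x) * Q.p k := by
        rw [← mul_assoc (Q.p k) (P.p i), hi]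
    _ = Q.p k * (P.p i * x * P.p i) * Q.p k := by
        congr 2
        rw [pinch, Finset.mul_sum, Finset.sum_eq_single i]
        · simp [← mul_assoc, (P.isPart.proj i).isIdempotentElem.eq]
        · exact fun j _ hj => by simp [← mul_assoc, P.isPart.orth i j hj.symm]
        · simp
    _ = Q.p k * x * Q.p k := by
        calc Q.p k * (P.p i * x * P.p i) * Q.p k
            = (Q.p k * P.p i) * x * (P.p i * Q.p k) := by simp [mul_assoc]
          _ = _ := by rw [hi, hi']

theorem commute_pinch_of_refines (hc : ∀ a ∈ A, ∀ b ∈ A, Commute a b) {Q P : Part A e}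
    (h : Refines Q P) (i : Fin P.n) (x : H →L[ℂ] H) : Commute (P.p i) (pinch Q.p x) := by
  refine Commute.sum_right _ _ _ fun k _ => ?_
  have e1 : P.p i * Q.p k = Q.p k * P.p i := (hc _ (P.isPart.mem i) _ (Q.isPart.mem k)).eq
  show P.p i * (Q.p k * x * Q.p k) = Q.p k * x * Q.p k * P.p i
  rcases h k i with h1 | h1
  · calc P.p i * (Q.p k * x * Q.p k) = (P.p i * Q.p k) * x * Q.p k := by simp [mul_assoc]
      _ = Q.p k * x * (Q.p k * P.p i) := by rw [e1, h1]
      _ = _ := by simp [mul_assoc]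
  · calc P.p i * (Q.p k * x * Q.p k) = (P.p i * Q.p k) * x * Q.p k := by simp [mul_assoc]
      _ = Q.p k * x * (Q.p k * P.p i) := by rw [e1, h1]; simp
      _ = _ := by simp [mul_assoc]

end Part

end Vale.Agent.P078.General
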