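import Vale.Agent.P078.General.Split

/-!
# MASAs without normal centralised functionals, in arbitrary algebras

No trace is used here: if no nonzero normal positive functional on `M` is centralised by `A`,
then `A` is so-paved with `O(1/ε)` pieces.
-/

namespace Vale.Agent.P078.General

open scoped InnerProductSpace Topology ComplexOrder
open Filter

universe u

variable {H : Type u} [NormedAddCommGroup H] [InnerProductSpace ℂ H] [CompleteSpace H]

variable {M A : VonNeumannAlgebra H} {e : H →L[ℂ] H}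

theorem central_of_proj (φ : (H →L[ℂ] H) →ₗ[ℂ] ℂ) {C : ℝ} (hC : 0 ≤ C)
    (hb : ∀ T, ‖φ T‖ ≤ C * ‖T‖) {y : H →L[ℂ] H}
    (h : ∀ g ∈ A, IsStarProjection g → φ (g * y) = φ (y * g)) {a : H →L[ℂ] H} (ha : a ∈ A) :
    φ (a * y) = φ (y * a) := by
  have key : ∀ b ∈ A, IsSelfAdjoint b → φ (b * y) = φ (y * b) := by
    intro b hbA hsa
    rw [← sub_eq_zero, ← norm_le_zero_iff]
    refine le_of_forall_pos_le_add fun η hη => ?_
    obtain ⟨N, d, c, hd, hn⟩ :=
      exists_step_approx A hbA hsa (η := η / (C * (2 * ‖y‖) + 1)) (by positivity)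
    set s := ∑ j, (c j : ℂ) • d j with hs
    have hsy : φ (s * y) = φ (y * s) := by
      rw [hs, Finset.sum_mul, Finset.mul_sum]
      simp only [map_sum, smul_mul_assoc, mul_smul_comm, map_smul]
      exact Finset.sum_congr rfl fun j _ => by rw [h _ (hd.mem j) (hd.proj j)]
    have e1 : φ (b * y) - φ (y * b) = φ ((b - s) * y - y * (b - s)) := by
      simp only [sub_mul, mul_sub, map_sub, hsy]
      abel
    rw [e1, zero_add]
    refine (hb _).trans ((mul_le_mul_of_nonneg_left (norm_sub_le _ _) hC).trans ?_)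
    have h2 : ‖(b - s) * y‖ + ‖y * (b - s)‖ ≤ 2 * ‖y‖ * ‖b - s‖ := by
      linarith [norm_mul_le (b - s) y, norm_mul_le y (b - s)]
    refine (mul_le_mul_of_nonneg_left h2 hC).trans ?_
    rw [← mul_assoc]
    refine (mul_le_mul_of_nonneg_left hn (by positivity)).trans ?_
    rw [← mul_div_assoc, div_le_iff₀ (by positivity)]
    nlinarith [norm_nonneg y]
  rw [← realPart_add_I_smul_imaginaryPart a]
  simp only [add_mul, mul_add, smul_mul_assoc, mul_smul_comm, map_add, map_smul]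
  rw [key _ ?_ (realPart a).2, key _ ?_ (imaginaryPart a).2]
  · rw [imaginaryPart_apply_coe, ← Complex.coe_smul]
    exact smul_mem' A (smul_mem' A (sub_mem ha (star_mem ha)) _) _
  · rw [realPart_apply_coe, ← Complex.coe_smul]
    exact smul_mem' A (add_mem ha (star_mem ha)) _

theorem inner_pinch (Q : Part A e) (T : H →L[ℂ] H) (v : H) :
    ⟪v, pinch Q.p T v⟫_ℂ = ∑ k, ⟪Q.p k v, T (Q.p k v)⟫_ℂ := by
  simp only [pinch, sum_apply, inner_sum]
  exact Finset.sum_congr rfl fun k _ => by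
    rw [mul_apply_eq_comp, mul_apply_eq_comp, ← inner_sa (Q.isPart.proj k).isSelfAdjoint]

/-- The limit of `∑ v ∈ F, ⟪v, S_Q T v⟫` along the refining ultrafilter. -/
theorem exists_psi (hc : ∀ a ∈ A, ∀ b ∈ A, Commute a b) (heA : e ∈ A) (he : IsStarProjection e)
    (F : Finset H) :
    ∃ (ψ : (H →L[ℂ] H) →ₗ[ℂ] ℂ) (U : Ultrafilter (Part A e)),
      (∀ P, {Q | Part.Refines Q P} ∈ U) ∧
      (∀ T, Tendsto (fun Q => ∑ v ∈ F, ⟪v, pinch Q.p T v⟫_ℂ) (U : Filter (Part A e)) (𝓝 (ψ T))) ∧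
      (∀ T, ‖ψ T‖ ≤ (∑ v ∈ F, ‖v‖ ^ 2) * ‖T‖) ∧ (∀ T, 0 ≤ T → 0 ≤ ψ T) ∧
      (∀ g ∈ A, IsStarProjection g → ∀ y, ψ (g * y) = ψ (y * g)) ∧ ψ (1 - e) = 0 := by
  obtain ⟨U, hU⟩ := exists_refining_ultrafilter hc heA he
  have hlim : ∀ T : H →L[ℂ] H, ∃ L, Tendsto (fun Q : Part A e => ∑ v ∈ F, ⟪v, pinch Q.p T v⟫_ℂ)
      (U : Filter (Part A e)) (𝓝 L) := by
    intro T
    obtain ⟨a, ha, -⟩ := exists_wot_limit U (fun Q : Part A e => pinch Q.p T) (C := ‖T‖)
      fun Q => Q.isPart.norm_pinch_le T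
    refine ⟨∑ v ∈ F, ⟪v, a v⟫_ℂ, tendsto_finsetSum _ fun v _ => ?_⟩
    have := (Complex.continuous_conj.tendsto _).comp (ha v v)
    simpa only [Function.comp_def, inner_conj_symm] using this
  choose L hL using hlim
  have uniq : ∀ T l, Tendsto (fun Q : Part A e => ∑ v ∈ F, ⟪v, pinch Q.p T v⟫_ℂ)
      (U : Filter (Part A e)) (𝓝 l) → L T = l := fun T l hl => tendsto_nhds_unique (hL T) hl
  let ψ : (H →L[ℂ] H) →ₗ[ℂ] ℂ :=
    { toFun := L
      map_add' := fun S T => uniq _ _ (by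
        simpa [pinch, mul_add, add_mul, Finset.sum_add_distrib, inner_add_right, inner_sum] using
          (hL S).add (hL T))
      map_smul' := fun c T => uniq _ _ (by
        simpa [pinch, inner_smul_right, Finset.mul_sum, inner_sum] using (hL T).const_mul c) }
  refine ⟨ψ, U, hU, hL, fun T => ?_, fun T hT => ?_, fun g hg hgp y => ?_, ?_⟩
  · refine le_of_tendsto ((hL T).norm) (.of_forall fun Q => (norm_sum_le _ _).trans ?_)
    rw [Finset.sum_mul]
    refine Finset.sum_le_sum fun v _ => (norm_inner_le_norm _ _).trans ?_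
    rw [pow_two, mul_right_comm, mul_assoc]
    exact mul_le_mul_of_nonneg_left (Q.isPart.norm_pinch_apply_le T v) (norm_nonneg _)
  · refine (isClosed_Ici (a := (0 : ℂ))).mem_of_tendsto (hL T) (.of_forall fun Q => ?_)
    rw [Set.mem_Ici]
    refine Finset.sum_nonneg fun v _ => ?_
    rw [inner_pinch]
    refine Finset.sum_nonneg fun k _ => ?_
    exact ((ContinuousLinearMap.nonneg_iff_isPositive T).1 hT).inner_nonneg_right _
  · let P : Part A e :=
      { n := 2
        p := ![g * e, (1 - g) * e]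
        isPart := by
          have hge : Commute g e := hc g hg e heA
          refine ⟨?_, ?_, ?_, ?_⟩
          · intro i; fin_cases i
            · exact mul_mem hg heA
            · exact mul_mem (sub_mem (one_mem A) hg) heA
          · intro i; fin_cases i
            · exact hgp.mul he hge
            · exact hgp.one_sub.mul he ((Commute.one_left e).sub_left hge)
          · have h1 : g * e * ((1 - g) * e) = 0 := by
              rw [mul_assoc, ← mul_assoc e, ((Commute.one_left e).sub_left hge).symm.eq,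
                mul_assoc, ← mul_assoc, mul_sub, mul_one, hgp.isIdempotentElem.eq, sub_self,
                zero_mul]
            have h2 : (1 - g) * e * (g * e) = 0 := by
              rw [mul_assoc, ← mul_assoc e, hge.symm.eq, mul_assoc, ← mul_assoc, sub_mul, one_mul,
                hgp.isIdempotentElem.eq, sub_self, zero_mul]
            intro i j hij
            fin_cases i <;> fin_cases j <;> first | exact absurd rfl hij | exact h1 | exact h2
          · simp [Fin.sum_univ_two, sub_mul] }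
    refine tendsto_nhds_unique (hL (g * y)) ((hL (y * g)).congr' ?_)
    filter_upwards [hU P] with Q hQ
    have h1 : Commute (g * e) (pinch Q.p y) := Part.commute_pinch_of_refines hc hQ 0 y
    have h2 : g * pinch Q.p y = pinch Q.p y * g := by
      calc g * pinch Q.p y = g * e * pinch Q.p y := by rw [mul_assoc, (pinch_unit_mul Q y).1]
        _ = pinch Q.p y * (g * e) := h1.eq
        _ = pinch Q.p y * g := by
          rw [(hc g hg e heA).eq, ← mul_assoc, (pinch_unit_mul Q y).2]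
    have h3 : pinch Q.p (y * g) = pinch Q.p y * g := by
      simp only [pinch, Finset.sum_mul, mul_assoc]
      exact Finset.sum_congr rfl fun k _ => by rw [(hc g hg _ (Q.isPart.mem k)).eq]
    have h4 : pinch Q.p (g * y) = g * pinch Q.p y := by
      simp only [pinch, Finset.mul_sum, ← mul_assoc]
      exact Finset.sum_congr rfl fun k _ => by rw [(hc g hg _ (Q.isPart.mem k)).eq]
    rw [h3, h4, h2]
  · refine uniq _ _ ?_
    have h0 : ∀ Q : Part A e, pinch Q.p (1 - e) = 0 := fun Q => by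
      simp [pinch, mul_sub, Q.isPart.mul_unit]
    simp only [h0, zero_apply, inner_zero_right, Finset.sum_const_zero]
    exact tendsto_const_nhds

section NormalPart

variable {K : Type*} [NormedAddCommGroup K] [InnerProductSpace ℂ K] [CompleteSpace K]

/-- Vectors whose functional is strongly continuous on bounded parts of `M`. -/
noncomputable def normalSpace (M : VonNeumannAlgebra H)
    (π : (H →L[ℂ] H) →⋆ₐ[ℂ] (K →L[ℂ] K)) : Submodule ℂ K where
  carrier := {ξ | ∀ C δ : ℝ, 0 < δ → ∃ (F : Finset H) (η : ℝ), 0 < η ∧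
    ∀ y ∈ M, ‖y‖ ≤ C → (∀ v ∈ F, ‖y v‖ ≤ η) → ‖π y ξ‖ ≤ δ}
  zero_mem' := fun _ δ hδ => ⟨∅, 1, one_pos, fun y _ _ _ => by simp [hδ.le]⟩
  add_mem' := fun {a b} ha hb C δ hδ => by
    classical
    obtain ⟨F, η, hη, h⟩ := ha C (δ / 2) (half_pos hδ)
    obtain ⟨F', η', hη', h'⟩ := hb C (δ / 2) (half_pos hδ)
    refine ⟨F ∪ F', min η η', lt_min hη hη', fun y hy hC hv => ?_⟩
    have h1 := h y hy hC fun v hvF =>
      (hv v (Finset.mem_union_left _ hvF)).trans (min_le_left _ _)
    have h2 := h' y hy hC fun v hvF =>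
      (hv v (Finset.mem_union_right _ hvF)).trans (min_le_right _ _)
    rw [map_add]
    linarith [norm_add_le (π y a) (π y b)]
  smul_mem' := fun c a ha C δ hδ => by
    obtain ⟨F, η, hη, h⟩ := ha C (δ / (‖c‖ + 1)) (by positivity)
    refine ⟨F, η, hη, fun y hy hC hv => ?_⟩
    have h1 := h y hy hC hv
    rw [le_div_iff₀ (by positivity)] at h1
    rw [map_smul, norm_smul]
    nlinarith [norm_nonneg (π y a), norm_nonneg c]

variable {π : (H →L[ℂ] H) →⋆ₐ[ℂ] (K →L[ℂ] K)}

theorem norm_rep_apply_le (π : (H →L[ℂ] H) →⋆ₐ[ℂ] (K →L[ℂ] K)) (y : H →L[ℂ] H) (ξ : K) :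
    ‖π y ξ‖ ≤ ‖y‖ * ‖ξ‖ :=
  ((π y).le_opNorm ξ).trans
    (mul_le_mul_of_nonneg_right (NonUnitalStarAlgHom.norm_apply_le π y) (norm_nonneg _))

theorem isClosed_normalSpace : IsClosed (normalSpace M π : Set K) := by
  refine isClosed_of_closure_subset fun ξ hξ C δ hδ => ?_
  obtain ⟨a, ha, hd⟩ := Metric.mem_closure_iff.1 hξ (δ / (2 * (|C| + 1))) (by positivity)
  obtain ⟨F, η, hη, h⟩ := ha C (δ / 2) (half_pos hδ)
  refine ⟨F, η, hη, fun y hy hC hv => ?_⟩
  have h1 := h y hy hC hv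
  have h2 : ‖π y (ξ - a)‖ ≤ δ / 2 := by
    refine (norm_rep_apply_le π y _).trans ?_
    rw [dist_eq_norm, lt_div_iff₀ (by positivity)] at hd
    nlinarith [norm_nonneg (ξ - a), le_abs_self C, norm_nonneg y]
  rw [map_sub] at h2
  linarith [norm_le_norm_add_norm_sub' (π y ξ) (π y a)]

theorem rep_mem_normalSpace {z : H →L[ℂ] H} (hz : z ∈ M) {ξ : K} (hξ : ξ ∈ normalSpace M π) :
    π z ξ ∈ normalSpace M π := by
  classical
  intro C δ hδ
  obtain ⟨F, η, hη, h⟩ := hξ (max C 0 * ‖z‖) δ hδ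
  refine ⟨F.image z, η, hη, fun y hy hC hv => ?_⟩
  have := h (y * z) (mul_mem hy hz) ((norm_mul_le _ _).trans
    (mul_le_mul_of_nonneg_right (hC.trans (le_max_left _ _)) (norm_nonneg _)))
    fun v hvF => hv _ (Finset.mem_image_of_mem z hvF)
  rwa [map_mul, mul_apply_eq_comp] at this

theorem mem_normalSpace_of_commute {R : K →L[ℂ] K} (hR : ∀ y ∈ M, Commute R (π y)) {ξ : K}
    (hξ : ξ ∈ normalSpace M π) : R ξ ∈ normalSpace M π := by
  intro C δ hδ
  obtain ⟨F, η, hη, h⟩ := hξ C (δ / (‖R‖ + 1)) (by positivity)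
  refine ⟨F, η, hη, fun y hy hC hv => ?_⟩
  have h1 := h y hy hC hv
  rw [le_div_iff₀ (by positivity)] at h1
  have e1 : π y (R ξ) = R (π y ξ) :=
    (congrArg (fun T : K →L[ℂ] K => T ξ) (hR y hy).eq).symm
  rw [e1]
  nlinarith [R.le_opNorm (π y ξ), norm_nonneg (π y ξ)]

instance : CompleteSpace (normalSpace M π) := isClosed_normalSpace.completeSpace_coe

theorem commute_starProjection {W : Submodule ℂ K} [W.HasOrthogonalProjection] {T : K →L[ℂ] K}
    (h1 : ∀ v ∈ W, T v ∈ W) (h2 : ∀ v ∈ W, star T v ∈ W) : Commute W.starProjection T := by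
  set P := W.starProjection with hP
  have hPsa : IsSelfAdjoint P := isStarProjection_starProjection.isSelfAdjoint
  have k : ∀ S : K →L[ℂ] K, (∀ v ∈ W, S v ∈ W) → P * S * P = S * P := fun S hS => by
    ext v
    exact Submodule.starProjection_eq_self_iff.2 (hS _ (Submodule.starProjection_apply_mem W v))
  have e2 := congrArg star (k _ h2)
  simp only [star_mul, star_star, hPsa.star_eq, ← mul_assoc] at e2
  exact e2.symm.trans (k T h1)

theorem commute_rep_normalSpace {z : H →L[ℂ] H} (hz : z ∈ M) :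
    Commute (normalSpace M π).starProjection (π z) :=
  commute_starProjection (fun _ hv => rep_mem_normalSpace hz hv) fun _ hv => by
    rw [← map_star]
    exact rep_mem_normalSpace (star_mem hz) hv

theorem commute_comm_normalSpace {R : K →L[ℂ] K} (hsa : IsSelfAdjoint R)
    (hR : ∀ y ∈ M, Commute R (π y)) : Commute (normalSpace M π).starProjection R :=
  commute_starProjection (fun _ hv => mem_normalSpace_of_commute hR hv) fun _ hv => by
    rw [hsa.star_eq]
    exact mem_normalSpace_of_commute hR hv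

end NormalPart

/-- A centralised functional carrying no normal part: the GNS vector is orthogonal to the
normal space. -/
theorem normal_part_eq_zero (hA : IsMasa M A) (heA : e ∈ A) (he : IsStarProjection e)
    (hno : NoCentralised M A e) (ψ : (H →L[ℂ] H) →ₚ[ℂ] ℂ)
    (hcen : ∀ g ∈ A, IsStarProjection g → ∀ y, ψ (g * y) = ψ (y * g)) (he1 : ψ (1 - e) = 0) :
    (normalSpace M ψ.gnsStarAlgHom).starProjection
      (ψ.toPreGNS 1 : ψ.GNS) = 0 := by
  set π := ψ.gnsStarAlgHom with hπ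
  set Ω : ψ.GNS := (ψ.toPreGNS 1 : ψ.GNS) with hΩ
  set P := (normalSpace M π).starProjection with hP
  have hPsa : IsSelfAdjoint P := isStarProjection_starProjection.isSelfAdjoint
  have hrep : ∀ z, π z Ω = (ψ.toPreGNS z : ψ.GNS) := fun z => by
    simp [hπ, hΩ]
  -- the right multiplication by a projection of `A`
  have hright : ∀ g ∈ A, IsStarProjection g → ∃ R : ψ.GNS →L[ℂ] ψ.GNS, IsSelfAdjoint R ∧
      (∀ y, Commute R (π y)) ∧ R Ω = π g Ω := by
    intro g hg hgp
    have hpos : ∀ (p : H →L[ℂ] H), p ∈ A → IsStarProjection p → ∀ z : H →L[ℂ] H,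
        0 ≤ ψ (star z * z * p) := by
      intro p hp hpp z
      have h1 := hcen p hp hpp (star z * z * p)
      rw [mul_assoc (star z * z) p p, hpp.isIdempotentElem.eq] at h1
      rw [← h1]
      have h2 : p * (star z * z * p) = star (z * p) * (z * p) := by
        rw [star_mul, hpp.isSelfAdjoint.star_eq]; simp [mul_assoc]
      rw [h2]
      exact map_nonneg ψ (star_mul_self_nonneg _)
    have hle : ∀ z : H →L[ℂ] H, (ψ (star (z * g) * (z * g))).re ≤ (ψ (star z * z)).re := by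
      intro z
      have h1 := hcen g hg hgp (star z * z * g)
      rw [mul_assoc (star z * z) g g, hgp.isIdempotentElem.eq] at h1
      have h2 : star (z * g) * (z * g) = g * (star z * z * g) := by
        rw [star_mul, hgp.isSelfAdjoint.star_eq]; simp [mul_assoc]
      have h3 := (Complex.nonneg_iff.1 (hpos (1 - g) (sub_mem (one_mem A) hg) hgp.one_sub z)).1
      rw [mul_sub, mul_one, map_sub, Complex.sub_re] at h3
      rw [h2, h1]
      linarith
    let R0 : ψ.PreGNS →L[ℂ] ψ.PreGNS :=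
      ((ψ.toPreGNS.toLinearMap ∘ₗ (LinearMap.mulRight ℂ g) ∘ₗ ψ.ofPreGNS.toLinearMap)).mkContinuous
        1 fun z => by
          rw [one_mul, ψ.preGNS_norm_def, ψ.preGNS_norm_def]
          exact Real.sqrt_le_sqrt (hle (ψ.ofPreGNS z))
    have hR0 : ∀ z, R0 z = ψ.toPreGNS (ψ.ofPreGNS z * g) := fun z => rfl
    refine ⟨R0.completion, ?_, fun y => ?_, ?_⟩
    · refine LinearMap.IsSymmetric.isSelfAdjoint fun v w => ?_
      show ⟪R0.completion v, w⟫_ℂ = ⟪v, R0.completion w⟫_ℂ
      induction v, w using UniformSpace.Completion.induction_on₂ with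
      | hp => apply isClosed_eq <;> fun_prop
      | ih a b =>
        simp only [ContinuousLinearMap.completion_apply_coe, UniformSpace.Completion.inner_coe,
          ψ.preGNS_inner_def, hR0, ψ.ofPreGNS_toPreGNS]
        rw [star_mul, hgp.isSelfAdjoint.star_eq, mul_assoc, hcen g hg hgp, mul_assoc]
    · refine ContinuousLinearMap.ext fun v => ?_
      induction v using UniformSpace.Completion.induction_on with
      | hp => apply isClosed_eq <;> fun_prop
      | ih a =>
        simp [hπ, hR0, mul_apply_eq_comp, mul_assoc]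
    · rw [hrep, hΩ, ContinuousLinearMap.completion_apply_coe, hR0]
      simp
  -- the normal part of `ψ`
  let φ : (H →L[ℂ] H) →ₗ[ℂ] ℂ :=
    { toFun := fun y => ⟪P Ω, π y (P Ω)⟫_ℂ
      map_add' := fun a b => by simp [inner_add_right]
      map_smul' := fun c a => by simp [inner_smul_right] }
  have hφb : ∀ T, ‖φ T‖ ≤ ‖P Ω‖ ^ 2 * ‖T‖ := fun T => by
    show ‖⟪P Ω, π T (P Ω)⟫_ℂ‖ ≤ _
    refine (norm_inner_le_norm _ _).trans ?_
    rw [pow_two, mul_assoc, mul_comm ‖P Ω‖ ‖T‖]
    exact mul_le_mul_of_nonneg_left (norm_rep_apply_le π T _) (norm_nonneg _)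
  have hcont : StronglyContinuous M φ := by
    intro δ hδ
    obtain ⟨F, η, hη, h⟩ := (Submodule.starProjection_apply_mem (normalSpace M π) Ω :
      P Ω ∈ normalSpace M π) 1 (δ / (‖P Ω‖ + 1)) (by positivity)
    refine ⟨F, η, hη, fun y hy h1 hv => ?_⟩
    have h2 := h y hy h1 hv
    rw [le_div_iff₀ (by positivity)] at h2
    have h3 : ‖φ y‖ ≤ ‖P Ω‖ * ‖π y (P Ω)‖ :=
      norm_inner_le_norm (𝕜 := ℂ) (P Ω) (π y (P Ω))
    nlinarith [norm_nonneg (π y (P Ω))]
  have hφpos : ∀ y ∈ M, 0 ≤ φ (star y * y) := fun y _ => by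
    show 0 ≤ ⟪P Ω, π (star y * y) (P Ω)⟫_ℂ
    rw [map_mul, map_star, mul_apply_eq_comp, ContinuousLinearMap.star_eq_adjoint,
      ContinuousLinearMap.adjoint_inner_right]
    exact inner_self_nonneg (𝕜 := ℂ) (x := π y (P Ω)) |> fun h => Complex.nonneg_iff.2
      ⟨h, (inner_self_im (𝕜 := ℂ) (π y (P Ω))).symm⟩
  have hφg : ∀ y : H →L[ℂ] H, ∀ g ∈ A, IsStarProjection g → φ (g * y) = φ (y * g) := by
    intro y g hg hgp
    obtain ⟨R, hRsa, hRc, hRΩ⟩ := hright g hg hgp
    have hPg : π g (P Ω) = P (π g Ω) :=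
      (congrArg (fun T : ψ.GNS →L[ℂ] ψ.GNS => T Ω)
        (commute_rep_normalSpace (π := π) (hA.le g hg)).eq).symm
    have hPR : R (P Ω) = P (R Ω) :=
      (congrArg (fun T : ψ.GNS →L[ℂ] ψ.GNS => T Ω)
        (commute_comm_normalSpace hRsa fun y _ => hRc y).eq).symm
    have hgR : π g (P Ω) = R (P Ω) := by rw [hPg, hPR, hRΩ]
    have hgsa : IsSelfAdjoint (π g) := by
      rw [IsSelfAdjoint, ← map_star, hgp.isSelfAdjoint.star_eq]
    show ⟪P Ω, π (g * y) (P Ω)⟫_ℂ = ⟪P Ω, π (y * g) (P Ω)⟫_ℂ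
    rw [map_mul, map_mul, mul_apply_eq_comp, mul_apply_eq_comp, ← inner_sa hgsa, hgR,
      inner_sa hRsa]
    congr 1
    exact congrArg (fun T : ψ.GNS →L[ℂ] ψ.GNS => T (P Ω)) (hRc y).eq
  have hφcen : ∀ a ∈ A, ∀ y ∈ M, φ (a * y) = φ (y * a) := fun a ha y _ =>
    central_of_proj φ (sq_nonneg _) hφb (fun g hg hgp => hφg y g hg hgp) ha
  have heΩ : π e Ω = Ω := by
    rw [← sub_eq_zero]
    have h1 : ‖π (1 - e) Ω‖ ^ 2 = 0 := by
      rw [hrep, UniformSpace.Completion.norm_coe]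
      have h2 := ψ.preGNS_norm_sq (ψ.toPreGNS (1 - e))
      rw [ψ.ofPreGNS_toPreGNS, he.one_sub.isSelfAdjoint.star_eq, he.one_sub.isIdempotentElem.eq,
        he1] at h2
      exact_mod_cast h2
    have h3 : π (1 - e) Ω = 0 := by simpa using h1
    rw [map_sub, map_one, sub_apply, one_apply_eq_self, sub_eq_zero] at h3
    rw [← h3, sub_self]
  have hPe : π e (P Ω) = P Ω := by
    have : π e (P Ω) = P (π e Ω) :=
      (congrArg (fun T : ψ.GNS →L[ℂ] ψ.GNS => T Ω) (commute_rep_normalSpace (π := π) (hA.le e heA)).eq).symm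
    rw [this, heΩ]
  have hφe : ∀ y ∈ M, φ (e * y * e) = φ y := fun y _ => by
    show ⟪P Ω, π (e * y * e) (P Ω)⟫_ℂ = ⟪P Ω, π y (P Ω)⟫_ℂ
    have hesa : IsSelfAdjoint (π e) := by
      rw [IsSelfAdjoint, ← map_star, he.isSelfAdjoint.star_eq]
    rw [map_mul, map_mul, mul_apply_eq_comp, mul_apply_eq_comp, hPe, ← inner_sa hesa, hPe]
  have h0 : ⟪P Ω, π 1 (P Ω)⟫_ℂ = 0 := hno φ hcont hφpos hφcen hφe 1 (one_mem M)
  rw [map_one, one_apply_eq_self] at h0
  exact inner_self_eq_zero.1 h0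

/-- A vector of the normal space representing `z ↦ ∑ ⟪w, z w⟫`. -/
theorem eq_zero_of_dominated {K : Type*} [NormedAddCommGroup K] [InnerProductSpace ℂ K]
    [CompleteSpace K] (π : (H →L[ℂ] H) →⋆ₐ[ℂ] (K →L[ℂ] K)) (ξ₀ : K) (W : Finset H)
    (hdom : ∀ z ∈ M, ∑ w ∈ W, ‖z w‖ ^ 2 ≤ ‖π z ξ₀‖ ^ 2)
    (hperp : (normalSpace M π).starProjection ξ₀ = 0) : ∀ w ∈ W, w = 0 := by
  classical
  let Ms := Subalgebra.toSubmodule M.toStarSubalgebra.toSubalgebra
  let J : Ms →ₗ[ℂ] K :=
    { toFun := fun z => π z.1 ξ₀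
      map_add' := fun a b => by simp
      map_smul' := fun c a => by simp }
  let L : Ms →ₗ[ℂ] ℂ :=
    { toFun := fun z => ∑ w ∈ W, ⟪w, z.1 w⟫_ℂ
      map_add' := fun a b => by simp [inner_add_right, Finset.sum_add_distrib]
      map_smul' := fun c a => by simp [inner_smul_right, Finset.mul_sum] }
  set B := ∑ w ∈ W, ‖w‖ ^ 2 with hB
  have hcs : ∀ (s z : H →L[ℂ] H), z ∈ M →
      ‖∑ w ∈ W, ⟪s w, z w⟫_ℂ‖ ≤ √(∑ w ∈ W, ‖s w‖ ^ 2) * ‖π z ξ₀‖ := by
    intro s z hz
    refine (norm_sum_le _ _).trans ((Finset.sum_le_sum fun w _ => norm_inner_le_norm _ _).trans ?_)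
    refine (Real.sum_mul_le_sqrt_mul_sqrt _ _ _).trans ?_
    exact mul_le_mul_of_nonneg_left ((Real.sqrt_le_left (norm_nonneg _)).2 (hdom z hz))
      (Real.sqrt_nonneg _)
  have hLJ : ∀ z : Ms, ‖L z‖ ≤ √B * ‖J z‖ := fun z => by simpa [L, J] using hcs 1 z.1 z.2
  have hker : LinearMap.ker J ≤ LinearMap.ker L := fun z hz => by
    rw [LinearMap.mem_ker] at hz ⊢
    have := hLJ z
    rw [hz, norm_zero, mul_zero] at this
    exact norm_le_zero_iff.1 this
  let L' : LinearMap.range J →ₗ[ℂ] ℂ :=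
    ((LinearMap.ker J).liftQ L hker).comp J.quotKerEquivRange.symm.toLinearMap
  have hL' : ∀ z : Ms, L' ⟨J z, LinearMap.mem_range_self J z⟩ = L z := fun z => by
    have : (⟨J z, LinearMap.mem_range_self J z⟩ : LinearMap.range J) =
        J.quotKerEquivRange (Submodule.Quotient.mk z) :=
      Subtype.ext (LinearMap.quotKerEquivRange_apply_mk J z).symm
    simp only [L', LinearMap.comp_apply, LinearEquiv.coe_coe, this, LinearEquiv.symm_apply_apply,
      Submodule.liftQ_apply]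
  have hLb : ∀ v, ‖L' v‖ ≤ √B * ‖v‖ := fun v => by
    obtain ⟨_, z, rfl⟩ := v
    rw [hL']
    exact hLJ z
  obtain ⟨g, hg, -⟩ := exists_extension_norm_eq (LinearMap.range J) (L'.mkContinuous _ hLb)
  set u' := (InnerProductSpace.toDual ℂ K).symm g with hu'
  set K₀ := (LinearMap.range J).topologicalClosure with hK₀
  haveI : CompleteSpace K₀ := (Submodule.isClosed_topologicalClosure _).completeSpace_coe
  set u := K₀.starProjection u' with hu
  have hK₀sa : IsSelfAdjoint K₀.starProjection := isStarProjection_starProjection.isSelfAdjoint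
  have hmem : ∀ z ∈ M, π z ξ₀ ∈ K₀ := fun z hz =>
    Submodule.le_topologicalClosure _ ⟨⟨z, hz⟩, rfl⟩
  have huz : ∀ z ∈ M, ⟪u, π z ξ₀⟫_ℂ = ∑ w ∈ W, ⟪w, z w⟫_ℂ := fun z hz => by
    rw [hu, inner_sa hK₀sa, Submodule.starProjection_eq_self_iff.2 (hmem z hz), hu',
      InnerProductSpace.toDual_symm_apply]
    exact (hg ⟨_, ⟨⟨z, hz⟩, rfl⟩⟩).trans (hL' ⟨z, hz⟩)
  have hyu : ∀ y ∈ M, ‖π y u‖ ≤ √(∑ w ∈ W, ‖y w‖ ^ 2) := fun y hy => by
    set c := √(∑ w ∈ W, ‖y w‖ ^ 2) with hc
    have hinv : π y u ∈ K₀ := by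
      have hle : LinearMap.range J ≤ K₀.comap (π y).toLinearMap := by
        rintro _ ⟨z, rfl⟩
        show π y (π z.1 ξ₀) ∈ K₀
        rw [← mul_apply_eq_comp, ← map_mul]
        exact hmem _ (mul_mem hy z.2)
      exact Submodule.topologicalClosure_minimal _ hle
        ((Submodule.isClosed_topologicalClosure _).preimage (π y).continuous)
        (Submodule.starProjection_apply_mem K₀ u')
    have hb : ∀ v ∈ K₀, ‖⟪π y u, v⟫_ℂ‖ ≤ c * ‖v‖ := by
      intro v hv
      refine closure_minimal (t := {v | ‖⟪π y u, v⟫_ℂ‖ ≤ c * ‖v‖}) ?_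
        (isClosed_le (by fun_prop) (by fun_prop)) hv
      rintro _ ⟨z, rfl⟩
      have e1 : ⟪π y u, π z.1 ξ₀⟫_ℂ = ⟪u, π (star y * z.1) ξ₀⟫_ℂ := by
        rw [map_mul, map_star, mul_apply_eq_comp, ContinuousLinearMap.star_eq_adjoint,
          ContinuousLinearMap.adjoint_inner_right]
      show ‖⟪π y u, π z.1 ξ₀⟫_ℂ‖ ≤ c * ‖π z.1 ξ₀‖
      rw [e1, huz _ (mul_mem (star_mem hy) z.2)]
      simp only [mul_apply_eq_comp, ContinuousLinearMap.star_eq_adjoint,
        ContinuousLinearMap.adjoint_inner_right]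
      exact hcs y z.1 z.2
    have h1 := hb _ hinv
    rw [inner_self_eq_norm_sq_to_K] at h1
    simp only [norm_pow, Complex.coe_algebraMap, Complex.norm_real, norm_norm] at h1
    nlinarith [norm_nonneg (π y u), Real.sqrt_nonneg (∑ w ∈ W, ‖y w‖ ^ 2)]
  have huN : u ∈ normalSpace M π := by
    intro C δ hδ
    refine ⟨W, δ / (W.card + 1), by positivity, fun y hy _ hv => (hyu y hy).trans ?_⟩
    rw [Real.sqrt_le_left hδ.le]
    refine (Finset.sum_le_card_nsmul W _ ((δ / (W.card + 1)) ^ 2) fun w hw =>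
      pow_le_pow_left₀ (norm_nonneg _) (hv w hw) 2).trans ?_
    rw [nsmul_eq_mul, div_pow, ← mul_div_assoc, div_le_iff₀ (by positivity)]
    have hn : (0 : ℝ) ≤ (W.card : ℝ) := Nat.cast_nonneg _
    nlinarith [sq_nonneg δ, mul_nonneg (sq_nonneg δ) hn,
      mul_nonneg (sq_nonneg δ) (mul_nonneg hn hn)]
  have h0 := huz 1 (one_mem M)
  simp only [map_one, one_apply_eq_self] at h0
  rw [← Submodule.starProjection_eq_self_iff.2 huN,
    inner_sa isStarProjection_starProjection.isSelfAdjoint, hperp, inner_zero_right] at h0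
  have h1 := congrArg Complex.re h0.symm
  simp only [Complex.re_sum, Complex.zero_re] at h1
  have h2 : ∑ w ∈ W, ‖w‖ ^ 2 = 0 :=
    (Finset.sum_congr rfl fun w _ => (inner_self_eq_norm_sq (𝕜 := ℂ) w).symm).trans h1
  intro w hw
  have := (Finset.sum_eq_zero_iff_of_nonneg fun w _ => sq_nonneg ‖w‖).1 h2 w hw
  simpa using this

/-- A bounded real functional nonnegative on projections is nonnegative on positives. -/
theorem nonneg_of_proj_nonneg (M : VonNeumannAlgebra H) {p₀ T : H →L[ℂ] H} (hTM : T ∈ M)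
    (hT0 : 0 ≤ T) (hc : Commute p₀ T) (h : (H →L[ℂ] H) → ℝ) {C : ℝ} (hC : 0 ≤ C)
    (hadd : ∀ S S', h (S + S') = h S + h S') (hsmul : ∀ (r : ℝ) S, h ((r : ℂ) • S) = r * h S)
    (hb : ∀ S, |h S| ≤ C * ‖S‖)
    (hproj : ∀ g ∈ M, IsStarProjection g → Commute p₀ g → 0 ≤ h g) : 0 ≤ h T := by
  have hTsa : IsSelfAdjoint T := IsSelfAdjoint.of_nonneg hT0
  refine le_of_forall_pos_le_add fun ε hε => ?_
  set κ := ε / (2 * C + 1) with hκ
  have hκ0 : 0 < κ := by positivity
  obtain ⟨N, d, c, hd, hdc, hn⟩ := exists_step_approx' M hTM hTsa hκ0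
  set s := ∑ j, (c j : ℂ) • d j with hs
  let hL : (H →L[ℂ] H) →+ ℝ := AddMonoidHom.mk' h hadd
  have hd0 : ∀ j, 0 ≤ h (d j) := fun j =>
    hproj _ (hd.mem j) (hd.proj j) (hdc p₀ hc j)
  have hsplit : h T = ∑ j, c j * h (d j) + h (T - s) := by
    have e1 : hL (s + (T - s)) = hL T := by rw [add_sub_cancel]
    rw [map_add, hs, map_sum] at e1
    simp only [hL, AddMonoidHom.mk'_apply, hsmul] at e1
    rw [← e1]
  have hneg : ∀ j, c j < -κ → d j = 0 := by
    intro j hcj
    refine ContinuousLinearMap.ext fun v => ?_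
    set w := d j v with hw
    have hsw : s w = (c j : ℂ) • w := by
      simp only [hs, sum_apply, smul_apply]
      rw [Finset.sum_eq_single j]
      · congr 1
        exact congrArg (fun S : H →L[ℂ] H => S v) (hd.proj j).isIdempotentElem.eq
      · intro i _ hij
        have : d i (d j v) = 0 := congrArg (fun S : H →L[ℂ] H => S v) (hd.orth i j hij)
        rw [hw, this, smul_zero]
      · exact fun h => absurd (Finset.mem_univ j) h
    have h1 : 0 ≤ (⟪T w, w⟫_ℂ).re := re_inner_nonneg_of_nonneg hT0 w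
    have h2 : |(⟪(T - s) w, w⟫_ℂ).re| ≤ κ * ‖w‖ ^ 2 :=
      (abs_re_inner_le _ w).trans (mul_le_mul_of_nonneg_right hn (sq_nonneg _))
    have h3 : (⟪w, w⟫_ℂ).re = ‖w‖ ^ 2 := inner_self_eq_norm_sq (𝕜 := ℂ) w
    rw [sub_apply, inner_sub_left, hsw, inner_smul_left, Complex.sub_re, Complex.conj_ofReal,
      Complex.re_ofReal_mul, h3] at h2
    have h4 : ‖w‖ ^ 2 = 0 := by nlinarith [(abs_le.1 h2).2, sq_nonneg ‖w‖]
    simpa using h4
  have h5 : ∀ j, -κ * h (d j) ≤ c j * h (d j) := fun j => by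
    rcases lt_or_ge (c j) (-κ) with hcj | hcj
    · have h0 : h 0 = 0 := by simpa using hadd 0 0
      rw [hneg j hcj, h0, mul_zero, mul_zero]
    · exact mul_le_mul_of_nonneg_right hcj (hd0 j)
  have hsum : -(κ * C) ≤ ∑ j, c j * h (d j) := by
    refine le_trans ?_ (Finset.sum_le_sum fun j _ => h5 j)
    have e2 : ∑ j, h (d j) = h 1 := by
      rw [← hd.sum_eq]
      exact (map_sum hL d _).symm
    rw [← Finset.mul_sum, e2]
    have h6 : h 1 ≤ C := ((le_abs_self _).trans (hb 1)).trans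
      (mul_le_of_le_one_right hC ContinuousLinearMap.norm_id_le)
    nlinarith
  have hres : -(κ * C) ≤ h (T - s) := by
    have := (abs_le.1 ((hb (T - s)).trans (mul_le_mul_of_nonneg_left hn hC))).1
    linarith
  have hκC : κ * (2 * C) ≤ ε := by
    rw [hκ, div_mul_eq_mul_div, div_le_iff₀ (by positivity)]
    nlinarith
  linarith

/-- Without centralised normal functionals, some projection near `e` has small pinchings. -/
theorem exists_small_pinch_of_noCentralised (hA : IsMasa M A) (heA : e ∈ A)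
    (he : IsStarProjection e) (hno : NoCentralised M A e) (F : Finset H) (δ : ℝ) (hδ : 0 < δ) :
    ∃ (f : H →L[ℂ] H) (P : Part A e), f ∈ M ∧ IsStarProjection f ∧ f * e = f ∧
      ∀ v ∈ F, ‖e v - f v‖ ≤ δ ∧ ‖pinch P.p f v‖ ≤ δ := by
  classical
  obtain ⟨ψ₀, U, hU, hψlim, hψb, hψ0, hψc, hψe⟩ := exists_psi hA.comm heA he F
  let ψ : (H →L[ℂ] H) →ₚ[ℂ] ℂ := PositiveLinearMap.mk₀ ψ₀ hψ0
  have hψv : ∀ T, ψ T = ψ₀ T := fun T => rfl
  have hperp := normal_part_eq_zero hA heA he hno ψ hψc hψe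
  set π := ψ.gnsStarAlgHom with hπ
  set B := 1 + ∑ v ∈ F, ‖v‖ ^ 2 with hB
  have hB0 : 0 < B := by positivity
  set η := δ ^ 2 / (4 * B) with hη
  have hη0 : 0 < η := by positivity
  set ω : (H →L[ℂ] H) → ℝ := fun p => ∑ v ∈ F, ‖p v‖ ^ 2 with hω
  obtain ⟨z, hzM, hz, hze, hmax, happ⟩ :=
    exists_max_family M (fun p => (ψ p).re ≤ η * ω p) e he
  have heM := hA.le e heA
  set p₀ := e - z with hp₀def
  have hez : e * z = z := by
    have := congrArg star hze
    simpa only [star_mul, he.isSelfAdjoint.star_eq, hz.isSelfAdjoint.star_eq] using this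
  have hp₀ : IsStarProjection p₀ := hz.sub_of_mul_eq_left he hze
  have hp₀M : p₀ ∈ M := sub_mem heM hzM
  have hlow : ∀ g ∈ M, IsStarProjection g → g * p₀ = g → η * ω g ≤ (ψ g).re := by
    intro g hgM hg hgp
    rcases le_or_gt ((ψ g).re) (η * ω g) with h | h
    · have hge : g * e = g := by
        rw [← hgp, mul_assoc, hp₀def, sub_mul, he.isIdempotentElem.eq, hze]
      have hgz : g * z = 0 := by
        rw [← hgp, mul_assoc, hp₀def, sub_mul, hz.isIdempotentElem.eq, hez, sub_self, mul_zero]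
      have := hmax g hgM hg hge h hgz
      subst this
      simp [hω]
    · exact h.le
  have hpos : ∀ b ∈ M, η * ∑ v ∈ F, ‖b (p₀ v)‖ ^ 2 ≤
      (ψ (star (b * p₀) * (b * p₀))).re := by
    intro b hb
    set T := star (b * p₀) * (b * p₀) with hT
    have hTM : T ∈ M := mul_mem (star_mem (mul_mem hb hp₀M)) (mul_mem hb hp₀M)
    have hTsa : IsSelfAdjoint T := IsSelfAdjoint.star_mul_self _
    have hTp : T * p₀ = T := by rw [hT]; simp [mul_assoc, hp₀.isIdempotentElem.eq]
    have hpT : p₀ * T = T := by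
      rw [hT, star_mul, hp₀.isSelfAdjoint.star_eq]
      simp [← mul_assoc, hp₀.isIdempotentElem.eq]
    -- work with the compressions `p₀ d_j p₀`
    set h : (H →L[ℂ] H) → ℝ :=
      fun S => (ψ (p₀ * S * p₀)).re - η * ∑ v ∈ F, (⟪p₀ v, S (p₀ v)⟫_ℂ).re with hh
    have hb2 : ∀ S, |h S| ≤ (1 + η) * B * ‖S‖ := by
      intro S
      have h1 : |(ψ (p₀ * S * p₀)).re| ≤ B * ‖S‖ := by
        refine (Complex.abs_re_le_norm _).trans ((hψb _).trans ?_)
        refine mul_le_mul (by rw [hB]; linarith) ((norm_mul₃_le).trans ?_) (norm_nonneg _) hB0.le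
        calc ‖p₀‖ * ‖S‖ * ‖p₀‖ ≤ 1 * ‖S‖ * 1 := by
              gcongr <;> exact opNorm_proj_le_one hp₀
          _ = ‖S‖ := by ring
      have h2 : |η * ∑ v ∈ F, (⟪p₀ v, S (p₀ v)⟫_ℂ).re| ≤ η * (B * ‖S‖) := by
        rw [abs_mul, abs_of_pos hη0]
        refine mul_le_mul_of_nonneg_left ?_ hη0.le
        refine (Finset.abs_sum_le_sum_abs _ _).trans ?_
        refine le_trans ?_ (mul_le_mul_of_nonneg_right
          (show ∑ v ∈ F, ‖v‖ ^ 2 ≤ B by rw [hB]; linarith) (norm_nonneg S))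
        rw [Finset.sum_mul]
        refine Finset.sum_le_sum fun v _ => ?_
        refine (Complex.abs_re_le_norm _).trans ((norm_inner_le_norm _ _).trans ?_)
        rw [pow_two, mul_assoc, mul_comm ‖v‖ ‖S‖]
        exact mul_le_mul (norm_proj_le hp₀ v)
          ((S.le_opNorm _).trans (mul_le_mul_of_nonneg_left (norm_proj_le hp₀ v) (norm_nonneg _)))
          (norm_nonneg _) (norm_nonneg _)
      refine (abs_sub _ _).trans ?_
      nlinarith
    have hadd : ∀ S S', h (S + S') = h S + h S' := fun S S' => by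
      simp [hh, mul_add, add_mul, inner_add_right, Finset.sum_add_distrib]
      ring
    have hsmul : ∀ (r : ℝ) S, h ((r : ℂ) • S) = r * h S := fun r S => by
      simp [hh, inner_smul_right, Finset.mul_sum, mul_sub, mul_left_comm]
    have hproj : ∀ g ∈ M, IsStarProjection g → Commute p₀ g → 0 ≤ h g := by
      intro g hgM hg hpg
      have e1 : p₀ * g * p₀ = p₀ * g := by
        rw [mul_assoc, ← hpg.eq, ← mul_assoc, hp₀.isIdempotentElem.eq]
      have hgp : IsStarProjection (p₀ * g) := hp₀.mul hg hpg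
      have h7 := hlow _ (mul_mem hp₀M hgM) hgp e1
      simp only [hh, e1, sub_nonneg]
      refine le_trans (le_of_eq ?_) h7
      simp only [hω]
      congr 1
      refine Finset.sum_congr rfl fun v _ => ?_
      rw [star_proj_apply_norm_sq hgp, inner_sa hgp.isSelfAdjoint]
      congr 1
      rw [inner_sa hp₀.isSelfAdjoint]
      exact congrArg (fun S : H →L[ℂ] H => ⟪v, S v⟫_ℂ) e1
    have h0T := nonneg_of_proj_nonneg M hTM (star_mul_self_nonneg _)
      (hpT.trans hTp.symm : Commute p₀ T) h (by positivity) hadd hsmul hb2 hproj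
    have hT1 : h T = (ψ T).re - η * ∑ v ∈ F, ‖b (p₀ v)‖ ^ 2 := by
      simp only [hh, hpT, hTp]
      congr 2
      refine Finset.sum_congr rfl fun v _ => ?_
      have e3 : T (p₀ v) = star (b * p₀) (b (p₀ v)) := by
        show (star (b * p₀) * (b * p₀)) (p₀ v) = _
        rw [mul_apply_eq_comp, mul_apply_eq_comp]
        congr 2
        exact congrArg (fun S : H →L[ℂ] H => S v) hp₀.isIdempotentElem.eq
      rw [e3, ContinuousLinearMap.star_eq_adjoint, ContinuousLinearMap.adjoint_inner_right,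
        mul_apply_eq_comp, show p₀ (p₀ v) = p₀ v from
          congrArg (fun S : H →L[ℂ] H => S v) hp₀.isIdempotentElem.eq]
      exact inner_self_eq_norm_sq (𝕜 := ℂ) (b (p₀ v))
    linarith
  have hdom : ∀ y ∈ M, ∑ w ∈ F.image p₀, ‖((√η : ℝ) : ℂ) • y w‖ ^ 2 ≤
      ‖π y (π p₀ (ψ.toPreGNS 1 : ψ.GNS))‖ ^ 2 := by
    intro y hy
    have e1 : π y (π p₀ (ψ.toPreGNS 1 : ψ.GNS)) = ((ψ.toPreGNS (y * p₀) : ψ.PreGNS) : ψ.GNS) := by
      simp [hπ]
    rw [e1, UniformSpace.Completion.norm_coe]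
    have e2 := congrArg Complex.re (ψ.preGNS_norm_sq (ψ.toPreGNS (y * p₀)))
    simp only [ψ.ofPreGNS_toPreGNS] at e2
    norm_cast at e2
    rw [e2]
    simp only [norm_smul, Complex.norm_real, Real.norm_of_nonneg (Real.sqrt_nonneg η), mul_pow,
      Real.sq_sqrt hη0.le, ← Finset.mul_sum]
    refine le_trans (mul_le_mul_of_nonneg_left ?_ hη0.le) (hpos y hy)
    exact Finset.sum_image_le_of_nonneg fun w _ => sq_nonneg _
  have hzero : ∀ v ∈ F, p₀ v = 0 := by
    intro v hv
    have hperp' : (normalSpace M π).starProjection (π p₀ (ψ.toPreGNS 1 : ψ.GNS)) = 0 := by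
      have := congrArg (fun S : ψ.GNS →L[ℂ] ψ.GNS => S (ψ.toPreGNS 1 : ψ.GNS))
        (commute_rep_normalSpace (π := π) hp₀M).eq
      simp only [mul_apply_eq_comp] at this
      rw [this, hperp, map_zero]
    have h := eq_zero_of_dominated π _ ((F.image p₀).image fun w => ((√η : ℝ) : ℂ) • w)
      (fun y hy => ?_) hperp' _
      (Finset.mem_image_of_mem _ (Finset.mem_image_of_mem p₀ hv))
    · simpa [Real.sqrt_eq_zero', not_le.2 hη0] using h
    · refine le_trans (Finset.sum_image_le_of_nonneg fun w _ => sq_nonneg _) ?_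
      simpa only [map_smul] using hdom y hy
  obtain ⟨t, ht, hto, htz, htapp⟩ := happ F (δ / 2) (half_pos hδ)
  set f := ∑ g ∈ t, g with hfdef
  have hf : IsStarProjection f := isStarProjection_sum t _ (fun g hg => (ht g hg).2.1) hto
  have hfe : f * e = f := by
    rw [hfdef, Finset.sum_mul]
    refine Finset.sum_congr rfl fun g hg => ?_
    rw [← htz g hg, mul_assoc, hze]
  have hψf : (ψ f).re ≤ η * B := by
    have h1 : (ψ f).re ≤ η * ∑ g ∈ t, ω g := by
      rw [hfdef, map_sum, Complex.re_sum, Finset.mul_sum]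
      exact Finset.sum_le_sum fun g hg => (ht g hg).2.2
    refine h1.trans (mul_le_mul_of_nonneg_left ?_ hη0.le)
    simp only [hω]
    rw [Finset.sum_comm, hB]
    refine le_trans (Finset.sum_le_sum fun v _ => ?_) (le_add_of_nonneg_left zero_le_one)
    calc ∑ g ∈ t, ‖g v‖ ^ 2 = ‖∑ g ∈ t, g v‖ ^ 2 := (norm_sq_sum_of_orth t _ fun g hg g' hg' h =>
          inner_proj_orth (ht g hg).2.1 (hto g hg g' hg' h) _ _).symm
      _ ≤ ‖v‖ ^ 2 := by
          rw [← sum_apply]
          exact pow_le_pow_left₀ (norm_nonneg _) (norm_proj_le hf v) 2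
  have hev : ∀ᶠ Q in (U : Filter (Part A e)),
      (∑ v ∈ F, ⟪v, pinch Q.p f v⟫_ℂ).re < 2 * (η * B) := by
    refine ((Complex.continuous_re.tendsto _).comp (hψlim f)).eventually_lt_const ?_
    rw [← hψv]
    nlinarith
  obtain ⟨Q, hQ⟩ := hev.exists
  refine ⟨f, Q, sum_mem fun g hg => (ht g hg).1, hf, hfe, fun v hv => ⟨?_, ?_⟩⟩
  · have h1 : e v = z v := by
      have := hzero v hv
      rwa [hp₀def, sub_apply, sub_eq_zero] at this
    rw [h1]
    linarith [htapp v hv]
  · have hform : ∀ w, (⟪w, pinch Q.p f w⟫_ℂ).re = ∑ k, ‖f (Q.p k w)‖ ^ 2 := fun w => by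
      rw [inner_pinch, Complex.re_sum]
      exact Finset.sum_congr rfl fun k _ => by
        rw [← inner_sa hf.isSelfAdjoint, ← star_proj_apply_norm_sq hf]
    have h2 : ‖pinch Q.p f v‖ ^ 2 ≤ ∑ w ∈ F, ∑ k, ‖f (Q.p k w)‖ ^ 2 := by
      rw [Q.isPart.norm_pinch_apply_sq]
      refine le_trans (Finset.sum_le_sum fun k _ => ?_) (Finset.single_le_sum
        (f := fun w => ∑ k, ‖f (Q.p k w)‖ ^ 2)
        (fun w _ => Finset.sum_nonneg fun k _ => sq_nonneg _) hv)
      exact pow_le_pow_left₀ (norm_nonneg _) (norm_proj_le (Q.isPart.proj k) _) 2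
    rw [Complex.re_sum, Finset.sum_congr rfl fun w _ => hform w] at hQ
    have h4 : η * B = δ ^ 2 / 4 := by rw [hη]; field_simp
    refine le_of_pow_le_pow_left₀ two_ne_zero hδ.le ?_
    nlinarith [sq_nonneg δ]

/-- Every MASA, of an algebra of any type, without centralised normal functionals is so-paved
with `r ≥ 3/ε` pieces. -/
theorem soPavable_of_noCentralised (hA : IsMasa M A) (hno : NoCentralised M A 1) {ε : ℝ}
    (hε : 0 < ε) {r : ℕ} (hr : 3 / ε ≤ r) {x : H →L[ℂ] H} (hxM : x ∈ M) (hx : IsSelfAdjoint x) :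
    SoPavable M A ε r x := by
  refine soPavable_of_contractions (fun y hy hys hy1 F δ hδ => ?_) hxM hx
  have hex := exists_thin_of_pinch hA (one_mem A) (IsStarProjection.one _)
    (exists_small_pinch_of_noCentralised hA (one_mem A) (IsStarProjection.one _) hno)
  obtain ⟨p, a, q, hp, haA, has, -, han, hqM, hq, -, hqF, hn⟩ :=
    paving_of_thin hA (one_mem A) (IsStarProjection.one _) hex hy hys hy1 hε hr F (half_pos hδ)
  refine ⟨p, a, q, hp, haA, has, han.trans hy1, hqM, hq, fun v hv => ?_, hn⟩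
  rw [sub_apply]
  linarith [hqF v hv]

end Vale.Agent.P078.General
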