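import Vale.Agent.P078.General.Weak

/-!
# Traces given by families of vectors, and maximal orthogonal families of projections
-/

namespace Vale.Agent.P078.General

open scoped InnerProductSpace Topology ENNReal
open Filter

universe u

variable {H : Type u} [NormedAddCommGroup H] [InnerProductSpace ℂ H] [CompleteSpace H]
variable {ι : Type u}

omit [CompleteSpace H] in
theorem tau_le_of_norm_le (ξ : ι → H) {y w : H →L[ℂ] H} {c : ℝ}
    (h : ∀ i, ‖y (ξ i)‖ ≤ c * ‖w (ξ i)‖) : tau ξ y ≤ ENNReal.ofReal (c ^ 2) * tau ξ w := by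
  unfold tau
  rw [← ENNReal.tsum_mul_left]
  refine ENNReal.tsum_le_tsum fun i => ?_
  rw [← ENNReal.ofReal_mul (sq_nonneg c), ← mul_pow]
  exact ENNReal.ofReal_le_ofReal (pow_le_pow_left₀ (norm_nonneg _) (h i) 2)

omit [CompleteSpace H] in
theorem tau_mul_left (ξ : ι → H) (a y : H →L[ℂ] H) :
    tau ξ (a * y) ≤ ENNReal.ofReal (‖a‖ ^ 2) * tau ξ y :=
  tau_le_of_norm_le ξ fun _ => a.le_opNorm _

omit [CompleteSpace H] in
theorem tau_zero (ξ : ι → H) : tau ξ (0 : H →L[ℂ] H) = 0 := by simp [tau]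

theorem tau_proj_mul (ξ : ι → H) {p : H →L[ℂ] H} (hp : IsStarProjection p) (y : H →L[ℂ] H) :
    tau ξ (p * y) ≤ tau ξ y := by
  refine (tau_le_of_norm_le ξ (w := y) (c := 1) fun i => ?_).trans (by simp)
  rw [one_mul]
  exact norm_proj_le hp _

omit [CompleteSpace H] in
theorem tau_add_le (ξ : ι → H) (y w : H →L[ℂ] H) :
    tau ξ (y + w) ≤ 2 * (tau ξ y + tau ξ w) := by
  unfold tau
  rw [← ENNReal.tsum_add, ← ENNReal.tsum_mul_left]
  refine ENNReal.tsum_le_tsum fun i => ?_
  rw [← ENNReal.ofReal_add (sq_nonneg _) (sq_nonneg _),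
    show (2 : ℝ≥0∞) = ENNReal.ofReal 2 from (ENNReal.ofReal_ofNat 2).symm,
    ← ENNReal.ofReal_mul zero_le_two]
  refine ENNReal.ofReal_le_ofReal ?_
  have h := norm_add_le (y (ξ i)) (w (ξ i))
  rw [add_apply]
  nlinarith [pow_le_pow_left₀ (norm_nonneg _) h 2, sq_nonneg (‖y (ξ i)‖ - ‖w (ξ i)‖)]

theorem tau_sum_orth (ξ : ι → H) {κ : Type*} (s : Finset κ) (p u : κ → H →L[ℂ] H)
    (hp : ∀ k ∈ s, IsStarProjection (p k)) (ho : ∀ k ∈ s, ∀ l ∈ s, k ≠ l → p k * p l = 0) :
    tau ξ (∑ k ∈ s, p k * u k) = ∑ k ∈ s, tau ξ (p k * u k) := by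
  unfold tau
  rw [← Summable.tsum_finsetSum fun k _ => ENNReal.summable]
  refine tsum_congr fun i => ?_
  rw [← ENNReal.ofReal_sum_of_nonneg fun k _ => sq_nonneg _, sum_apply,
    norm_sq_sum_of_orth]
  intro k hk l hl hkl
  exact inner_proj_orth (hp k hk) (ho k hk l hl hkl) _ _

namespace IsTraceFamily

variable {M : VonNeumannAlgebra H} {ξ : ι → H}

theorem tau_mul_right (hξ : IsTraceFamily M ξ) {y a : H →L[ℂ] H} (hy : y ∈ M) (ha : a ∈ M) :
    tau ξ (y * a) ≤ ENNReal.ofReal (‖a‖ ^ 2) * tau ξ y := by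
  rw [hξ.tracial _ (mul_mem hy ha), star_mul, hξ.tracial y hy]
  refine (tau_mul_left ξ _ _).trans ?_
  rw [norm_star]

theorem tau_mul_proj (hξ : IsTraceFamily M ξ) {y p : H →L[ℂ] H} (hy : y ∈ M) (hp : p ∈ M)
    (hpp : IsStarProjection p) : tau ξ (y * p) ≤ tau ξ y := by
  rw [hξ.tracial _ (mul_mem hy hp), star_mul, hpp.isSelfAdjoint.star_eq, hξ.tracial y hy]
  exact tau_proj_mul ξ hpp _

/-- The vectors `y' (ξ i)`, `y'` in the commutant, span a dense subspace. -/
theorem dense_span (hξ : IsTraceFamily M ξ) :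
    (Submodule.span ℂ {v : H | ∃ y' ∈ M.commutant, ∃ i, y' (ξ i) = v}).topologicalClosure = ⊤ := by
  set K := (Submodule.span ℂ {v : H | ∃ y' ∈ M.commutant, ∃ i, y' (ξ i) = v}).topologicalClosure
    with hK
  haveI : CompleteSpace K := (Submodule.isClosed_topologicalClosure _).completeSpace_coe
  have inv : ∀ y ∈ M.commutant, ∀ v ∈ K, y v ∈ K := by
    intro y hy v hv
    have hs : Submodule.span ℂ {v : H | ∃ y' ∈ M.commutant, ∃ i, y' (ξ i) = v} ≤
        K.comap (y : H →ₗ[ℂ] H) := by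
      refine Submodule.span_le.2 ?_
      rintro w ⟨y', hy', i, rfl⟩
      refine Submodule.le_topologicalClosure _ (Submodule.subset_span ?_)
      exact ⟨y * y', mul_mem hy hy', i, rfl⟩
    have hcl : IsClosed ((K.comap (y : H →ₗ[ℂ] H) : Submodule ℂ H) : Set H) :=
      (Submodule.isClosed_topologicalClosure _).preimage y.continuous
    exact Submodule.topologicalClosure_minimal _ hs hcl hv
  set P := K.starProjection with hP
  have hPsa : IsSelfAdjoint P := isStarProjection_starProjection.isSelfAdjoint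
  have hPM : P ∈ M := mem_of_commute_commutant M fun y hy => by
    have k : ∀ z ∈ M.commutant, P * z * P = z * P := by
      intro z hz
      ext v
      exact Submodule.starProjection_eq_self_iff.2 (inv z hz _ (Submodule.starProjection_apply_mem K v))
    have e2 := congrArg star (k _ (star_mem hy))
    simp only [star_mul, star_star, hPsa.star_eq, ← mul_assoc] at e2
    exact (k y hy).symm.trans e2
  have h0 : 1 - P = 0 := by
    refine hξ.faithful _ (sub_mem (one_mem M) hPM) (ENNReal.tsum_eq_zero.2 fun i => ?_)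
    have hi : ξ i ∈ K :=
      Submodule.le_topologicalClosure _ (Submodule.subset_span ⟨1, one_mem _, i, rfl⟩)
    simp [hP, Submodule.starProjection_eq_self_iff.2 hi]
  rw [eq_top_iff]
  intro v _
  have : P v = v := (congrArg (fun T : H →L[ℂ] H => T v) (sub_eq_zero.1 h0)).symm
  rw [← this]
  exact Submodule.starProjection_apply_mem K v

/-- Elements of the unit ball of `M` of small `tau` are strongly small. -/
theorem small (hξ : IsTraceFamily M ξ) (v : H) {δ : ℝ} (hδ : 0 < δ) :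
    ∃ η : ℝ, 0 < η ∧ ∀ y ∈ M, ‖y‖ ≤ 1 → tau ξ y ≤ ENNReal.ofReal η → ‖y v‖ ≤ δ := by
  let S : Submodule ℂ H :=
    { carrier := {v | ∀ δ : ℝ, 0 < δ → ∃ η : ℝ, 0 < η ∧
        ∀ y ∈ M, ‖y‖ ≤ 1 → tau ξ y ≤ ENNReal.ofReal η → ‖y v‖ ≤ δ}
      zero_mem' := fun δ hδ => ⟨1, one_pos, fun y _ _ _ => by simp [hδ.le]⟩
      add_mem' := fun {v w} hv hw δ hδ => by
        obtain ⟨a, ha, ha'⟩ := hv (δ / 2) (half_pos hδ)
        obtain ⟨b, hb, hb'⟩ := hw (δ / 2) (half_pos hδ)
        refine ⟨min a b, lt_min ha hb, fun y hy h1 ht => ?_⟩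
        have h2 := ha' y hy h1 (ht.trans (ENNReal.ofReal_le_ofReal (min_le_left _ _)))
        have h3 := hb' y hy h1 (ht.trans (ENNReal.ofReal_le_ofReal (min_le_right _ _)))
        rw [map_add]
        linarith [norm_add_le (y v) (y w)]
      smul_mem' := fun c v hv δ hδ => by
        obtain ⟨a, ha, ha'⟩ := hv (δ / (‖c‖ + 1)) (by positivity)
        refine ⟨a, ha, fun y hy h1 ht => ?_⟩
        have h2 := ha' y hy h1 ht
        rw [le_div_iff₀ (by positivity)] at h2
        rw [map_smul, norm_smul]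
        nlinarith [norm_nonneg (y v), norm_nonneg c] }
  have hcl : IsClosed (S : Set H) := by
    refine isClosed_of_closure_subset fun v hv δ hδ => ?_
    obtain ⟨w, hw, hvw⟩ := Metric.mem_closure_iff.1 hv (δ / 2) (half_pos hδ)
    obtain ⟨a, ha, ha'⟩ := hw (δ / 2) (half_pos hδ)
    refine ⟨a, ha, fun y hy h1 ht => ?_⟩
    have h2 := ha' y hy h1 ht
    have h3 : ‖y (v - w)‖ ≤ 1 * dist v w := by
      rw [dist_eq_norm]
      exact (y.le_opNorm _).trans (mul_le_mul_of_nonneg_right h1 (norm_nonneg _))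
    rw [map_sub] at h3
    linarith [norm_le_norm_add_norm_sub' (y v) (y w)]
  have hle : Submodule.span ℂ {v : H | ∃ y' ∈ M.commutant, ∃ i, y' (ξ i) = v} ≤ S := by
    refine Submodule.span_le.2 ?_
    rintro w ⟨y', hy', i, rfl⟩ δ hδ
    refine ⟨(δ / (‖y'‖ + 1)) ^ 2, by positivity, fun y hy _ ht => ?_⟩
    have h2 : ‖y (ξ i)‖ ≤ δ / (‖y'‖ + 1) := by
      have := (ENNReal.le_tsum i).trans ht
      rw [ENNReal.ofReal_le_ofReal_iff (by positivity)] at this
      exact le_of_pow_le_pow_left₀ two_ne_zero (by positivity) this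
    rw [le_div_iff₀ (by positivity)] at h2
    have e : y (y' (ξ i)) = y' (y (ξ i)) :=
      congrArg (fun T : H →L[ℂ] H => T (ξ i)) (VonNeumannAlgebra.mem_commutant_iff.1 hy' y hy)
    rw [e]
    nlinarith [y'.le_opNorm (y (ξ i)), norm_nonneg (y (ξ i))]
  have := Submodule.topologicalClosure_minimal _ hle hcl
  rw [hξ.dense_span] at this
  exact this (Submodule.mem_top (x := v)) δ hδ

/-- Uniform version of `small` on finite sets. -/
theorem small_finset (hξ : IsTraceFamily M ξ) (F : Finset H) {δ : ℝ} (hδ : 0 < δ) :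
    ∃ η : ℝ, 0 < η ∧ ∀ y ∈ M, ‖y‖ ≤ 1 → tau ξ y ≤ ENNReal.ofReal η → ∀ v ∈ F, ‖y v‖ ≤ δ := by
  classical
  induction F using Finset.induction_on with
  | empty => exact ⟨1, one_pos, by simp⟩
  | insert v F _ ih =>
    obtain ⟨a, ha, ha'⟩ := hξ.small v hδ
    obtain ⟨b, hb, hb'⟩ := ih
    refine ⟨min a b, lt_min ha hb, fun y hy h1 ht w hw => ?_⟩
    rcases Finset.mem_insert.1 hw with rfl | hw
    · exact ha' y hy h1 (ht.trans (ENNReal.ofReal_le_ofReal (min_le_left _ _)))
    · exact hb' y hy h1 (ht.trans (ENNReal.ofReal_le_ofReal (min_le_right _ _))) w hw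

end IsTraceFamily

theorem isStarProjection_sum {κ : Type*} (s : Finset κ) (p : κ → H →L[ℂ] H)
    (hp : ∀ k ∈ s, IsStarProjection (p k)) (ho : ∀ k ∈ s, ∀ l ∈ s, k ≠ l → p k * p l = 0) :
    IsStarProjection (∑ k ∈ s, p k) := by
  classical
  refine ⟨?_, isSelfAdjoint_sum _ fun k hk => (hp k hk).isSelfAdjoint⟩
  show (∑ k ∈ s, p k) * (∑ k ∈ s, p k) = ∑ k ∈ s, p k
  rw [Finset.sum_mul]
  refine Finset.sum_congr rfl fun k hk => ?_
  rw [Finset.mul_sum, Finset.sum_eq_single k]
  · exact (hp k hk).isIdempotentElem.eq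
  · exact fun l hl h => ho k hk l hl h.symm
  · exact fun h => absurd hk h

/-- A maximal orthogonal family of good projections below `e`, with its supremum. -/
theorem exists_max_family (N : VonNeumannAlgebra H) (good : (H →L[ℂ] H) → Prop) (e : H →L[ℂ] H)
    (he : IsStarProjection e) :
    ∃ z ∈ N, IsStarProjection z ∧ z * e = z ∧
      (∀ g ∈ N, IsStarProjection g → g * e = g → good g → g * z = 0 → g = 0) ∧
      ∀ (F : Finset H) (δ : ℝ), 0 < δ → ∃ t : Finset (H →L[ℂ] H),
        (∀ g ∈ t, g ∈ N ∧ IsStarProjection g ∧ good g) ∧ (∀ g ∈ t, ∀ g' ∈ t, g ≠ g' → g * g' = 0) ∧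
        (∀ g ∈ t, g * z = g) ∧ ∀ v ∈ F, ‖z v - (∑ g ∈ t, g) v‖ < δ := by
  classical
  set S : Set (Set (H →L[ℂ] H)) := {s | (∀ g ∈ s, g ∈ N ∧ IsStarProjection g ∧ g * e = g ∧ good g) ∧
    ∀ g ∈ s, ∀ g' ∈ s, g ≠ g' → g * g' = 0} with hS
  obtain ⟨s, ⟨hs1, hs2⟩, hmax⟩ := zorn_subset S (fun c hc hchain => by
    refine ⟨⋃₀ c, ⟨?_, ?_⟩, fun a ha => Set.subset_sUnion_of_mem ha⟩
    · rintro g ⟨a, ha, hg⟩
      exact (hc ha).1 g hg
    · rintro g ⟨a, ha, hg⟩ g' ⟨b, hb, hg'⟩ hne
      rcases hchain.total ha hb with h | h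
      · exact (hc hb).2 g (h hg) g' hg' hne
      · exact (hc ha).2 g hg g' (h hg') hne)
  set W := Submodule.span ℂ {v : H | ∃ g ∈ s, g v = v} with hW
  set K := W.topologicalClosure with hK
  haveI : CompleteSpace K := (Submodule.isClosed_topologicalClosure _).completeSpace_coe
  set z := K.starProjection with hz
  have hzp : IsStarProjection z := isStarProjection_starProjection
  have hgK : ∀ g ∈ s, ∀ v, g v ∈ K := fun g hg v =>
    Submodule.le_topologicalClosure _ (Submodule.subset_span ⟨g, hg,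
      congrArg (fun T : H →L[ℂ] H => T v) (hs1 g hg).2.1.isIdempotentElem.eq⟩)
  have hzg : ∀ g ∈ s, z * g = g := fun g hg => ContinuousLinearMap.ext fun v =>
    Submodule.starProjection_eq_self_iff.2 (hgK g hg v)
  have hgz : ∀ g ∈ s, g * z = g := fun g hg => by
    have := congrArg star (hzg g hg)
    simpa only [star_mul, hzp.isSelfAdjoint.star_eq, (hs1 g hg).2.1.isSelfAdjoint.star_eq] using this
  have inv : ∀ y ∈ N.commutant, ∀ v ∈ K, y v ∈ K := by
    intro y hy v hv
    have hs' : W ≤ K.comap (y : H →ₗ[ℂ] H) := by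
      refine Submodule.span_le.2 ?_
      rintro w ⟨g, hg, hw⟩
      have e1 : y w = g (y w) := by
        conv_lhs => rw [← hw]
        exact (congrArg (fun T : H →L[ℂ] H => T w)
          (VonNeumannAlgebra.mem_commutant_iff.1 hy g (hs1 g hg).1)).symm
      show y w ∈ K
      rw [e1]
      exact hgK g hg _
    exact Submodule.topologicalClosure_minimal _ hs'
      ((Submodule.isClosed_topologicalClosure _).preimage y.continuous) hv
  have hzN : z ∈ N := mem_of_commute_commutant N fun y hy => by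
    have k : ∀ w ∈ N.commutant, z * w * z = w * z := by
      intro w hw
      ext v
      exact Submodule.starProjection_eq_self_iff.2
        (inv w hw _ (Submodule.starProjection_apply_mem K v))
    have e2 := congrArg star (k _ (star_mem hy))
    simp only [star_mul, star_star, hzp.isSelfAdjoint.star_eq, ← mul_assoc] at e2
    exact (k y hy).symm.trans e2
  have hze : z * e = z := by
    have hW' : W ≤ (1 - e : H →L[ℂ] H).ker := by
      refine Submodule.span_le.2 ?_
      rintro w ⟨g, hg, hw⟩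
      have heg : e * g = g := by
        have := congrArg star (hs1 g hg).2.2.1
        simpa only [star_mul, he.isSelfAdjoint.star_eq, (hs1 g hg).2.1.isSelfAdjoint.star_eq]
          using this
      have : e w = w := by
        conv_lhs => rw [← hw]
        exact (congrArg (fun T : H →L[ℂ] H => T w) heg).trans hw
      simp [this]
    have h1 : e * z = z := ContinuousLinearMap.ext fun v => by
      have h2 := Submodule.topologicalClosure_minimal _ hW'
        (ContinuousLinearMap.isClosed_ker _) (Submodule.starProjection_apply_mem K v)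
      simp only [LinearMap.mem_ker, ContinuousLinearMap.coe_coe, sub_apply, one_apply_eq_self,
        sub_eq_zero] at h2
      exact h2.symm
    have := congrArg star h1
    simpa only [star_mul, he.isSelfAdjoint.star_eq, hzp.isSelfAdjoint.star_eq] using this
  refine ⟨z, hzN, hzp, hze, fun g hgN hgp hge hgood hgz0 => ?_, fun F δ hδ => ?_⟩
  · by_contra hne
    have horth : ∀ g' ∈ s, g * g' = 0 ∧ g' * g = 0 := fun g' hg' => by
      have h1 : g * g' = 0 := by rw [← hzg g' hg', ← mul_assoc, hgz0, zero_mul]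
      refine ⟨h1, ?_⟩
      have := congrArg star h1
      simpa only [star_mul, hgp.isSelfAdjoint.star_eq, (hs1 g' hg').2.1.isSelfAdjoint.star_eq,
        star_zero] using this
    have hin : insert g s ∈ S := by
      refine ⟨?_, ?_⟩
      · rintro a (rfl | ha)
        exacts [⟨hgN, hgp, hge, hgood⟩, hs1 a ha]
      · rintro a (rfl | ha) b (rfl | hb) hab
        exacts [absurd rfl hab, (horth b hb).1, (horth a ha).2, hs2 a ha b hb hab]
    have hgs : g ∈ s := hmax hin (Set.subset_insert g s) (Set.mem_insert g s)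
    exact hne ((hgz g hgs).symm.trans hgz0)
  · have hproj : ∀ t : Finset (H →L[ℂ] H), ↑t ⊆ s → IsStarProjection (∑ g ∈ t, g) := fun t ht =>
      isStarProjection_sum t _ (fun g hg => (hs1 g (ht hg)).2.1) fun g hg g' hg' h =>
        hs2 g (ht hg) g' (ht hg') h
    have hspan : ∀ w ∈ W, ∃ t : Finset (H →L[ℂ] H), ↑t ⊆ s ∧
        ∀ t' : Finset (H →L[ℂ] H), t ⊆ t' → ↑t' ⊆ s → (∑ g ∈ t', g) w = w := by
      intro w hw
      refine Submodule.span_induction (p := fun w _ => ∃ t : Finset (H →L[ℂ] H), ↑t ⊆ s ∧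
        ∀ t' : Finset (H →L[ℂ] H), t ⊆ t' → ↑t' ⊆ s → (∑ g ∈ t', g) w = w) ?_ ?_ ?_ ?_ hw
      · rintro w ⟨g, hg, hgw⟩
        refine ⟨{g}, by simpa using hg, fun t' h1 h2 => ?_⟩
        rw [sum_apply, Finset.sum_eq_single g]
        · exact hgw
        · intro b hb hbg
          rw [← hgw]
          exact congrArg (fun T : H →L[ℂ] H => T w) (hs2 b (h2 hb) g hg hbg)
        · exact fun h => absurd (h1 (Finset.mem_singleton_self g)) h
      · exact ⟨∅, by simp, fun _ _ _ => map_zero _⟩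
      · rintro a b _ _ ⟨t, ht, ha⟩ ⟨t', ht', hb⟩
        refine ⟨t ∪ t', by simp [ht, ht'], fun u h1 h2 => ?_⟩
        rw [map_add, ha u (Finset.union_subset_left h1) h2,
          hb u (Finset.union_subset_right h1) h2]
      · rintro c a _ ⟨t, ht, ha⟩
        exact ⟨t, ht, fun u h1 h2 => by rw [map_smul, ha u h1 h2]⟩
    have happ : ∀ v : H, ∃ t : Finset (H →L[ℂ] H), ↑t ⊆ s ∧
        ∀ t' : Finset (H →L[ℂ] H), t ⊆ t' → ↑t' ⊆ s → ‖z v - (∑ g ∈ t', g) v‖ < δ := by
      intro v
      obtain ⟨w, hw, hd⟩ := Metric.mem_closure_iff.1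
        (Submodule.starProjection_apply_mem K v : z v ∈ closure (W : Set H)) (δ / 2) (half_pos hδ)
      obtain ⟨t, ht, hfix⟩ := hspan w hw
      refine ⟨t, ht, fun t' h1 h2 => ?_⟩
      have hPz : (∑ g ∈ t', g) (z v) = (∑ g ∈ t', g) v := by
        simp only [sum_apply]
        exact Finset.sum_congr rfl fun g hg =>
          congrArg (fun T : H →L[ℂ] H => T v) (hgz g (h2 hg))
      rw [← hPz]
      have h3 := norm_proj_le (hproj t' h2) (z v - w)
      rw [map_sub, hfix t' h1 h2] at h3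
      rw [dist_eq_norm] at hd
      calc ‖z v - (∑ g ∈ t', g) (z v)‖
          = ‖(z v - w) - ((∑ g ∈ t', g) (z v) - w)‖ := by rw [sub_sub_sub_cancel_right]
        _ ≤ ‖z v - w‖ + ‖(∑ g ∈ t', g) (z v) - w‖ := norm_sub_le _ _
        _ < δ := by linarith
    choose t ht happ using happ
    refine ⟨F.biUnion t, fun g hg => ?_, fun g hg g' hg' => ?_, fun g hg => ?_, fun v hv => ?_⟩
    all_goals have hU : ↑(F.biUnion t) ⊆ s := by simpa [Set.iUnion_subset_iff] using fun v _ => ht v
    · exact ⟨(hs1 g (hU hg)).1, (hs1 g (hU hg)).2.1, (hs1 g (hU hg)).2.2.2⟩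
    · exact hs2 g (hU hg) g' (hU hg')
    · exact hgz g (hU hg)
    · exact happ v _ (Finset.subset_biUnion_of_mem t hv) hU

end Vale.Agent.P078.General
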