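import Vale.Agent.P078.Defs
import Vale.Agent.P078.General.Trace

/-!
# Corners of finite trace as tracial algebras in standard form
-/

namespace Vale.Agent.P078.General

open scoped InnerProductSpace Topology ENNReal
open Filter

universe u

variable {H : Type u} [NormedAddCommGroup H] [InnerProductSpace ℂ H] [CompleteSpace H]
variable {ι : Type u}

omit [InnerProductSpace ℂ H] [CompleteSpace H] in
theorem lp_hasSum_sq (f : lp (fun _ : ι => H) 2) : HasSum (fun i => ‖f i‖ ^ 2) (‖f‖ ^ 2) := by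
  simpa using lp.hasSum_norm (p := 2) (by norm_num) f

omit [InnerProductSpace ℂ H] [CompleteSpace H] in
theorem lp_mem_of_summable (g : ι → H) (h : Summable fun i => ‖g i‖ ^ 2) :
    Memℓp g (2 : ℝ≥0∞) := by
  refine memℓp_gen ?_
  simpa using h

omit [CompleteSpace H] in
theorem tau_eq_of_vector (ξ : ι → H) (y : H →L[ℂ] H) (f : lp (fun _ : ι => H) 2)
    (h : ∀ i, f i = y (ξ i)) : tau ξ y = ENNReal.ofReal (‖f‖ ^ 2) := by
  have hs := lp_hasSum_sq f
  simp only [h] at hs
  rw [tau, ← ENNReal.ofReal_tsum_of_nonneg (fun i => sq_nonneg _) hs.summable, hs.tsum_eq]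

/-- The diagonal action of `y` on `H`-valued square summable families. -/
noncomputable def diag (y : H →L[ℂ] H) : lp (fun _ : ι => H) 2 →L[ℂ] lp (fun _ : ι => H) 2 :=
  LinearMap.mkContinuous
    { toFun := fun f => ⟨fun i => y (f i), lp_mem_of_summable _
        (Summable.of_nonneg_of_le (fun i => sq_nonneg _)
          (fun i => (pow_le_pow_left₀ (norm_nonneg _) (y.le_opNorm (f i)) 2).trans_eq (mul_pow _ _ 2))
          ((lp_hasSum_sq f).summable.mul_left _))⟩
      map_add' := fun f g => by ext i; exact map_add y (f i) (g i)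
      map_smul' := fun c f => by ext i; exact map_smul y c (f i) }
    ‖y‖ fun f => by
      refine le_of_pow_le_pow_left₀ two_ne_zero (by positivity) ?_
      rw [mul_pow]
      refine hasSum_le (fun i => ?_) (lp_hasSum_sq _) ((lp_hasSum_sq f).mul_left (‖y‖ ^ 2))
      rw [← mul_pow]
      exact pow_le_pow_left₀ (norm_nonneg _) (y.le_opNorm (f i)) 2

theorem diag_apply (y : H →L[ℂ] H) (f : lp (fun _ : ι => H) 2) (i : ι) : diag y f i = y (f i) :=
  rfl

/-- A projection of finite trace. -/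
structure FinCorner (M : VonNeumannAlgebra H) (ξ : ι → H) (e : H →L[ℂ] H) : Prop where
  trace : IsTraceFamily M ξ
  mem : e ∈ M
  proj : IsStarProjection e
  fin : tau ξ e ≠ ⊤

/-- The elements of `N` living on the corner of `e`. -/
def InCorner (N : VonNeumannAlgebra H) (e y : H →L[ℂ] H) : Prop := y ∈ N ∧ e * y * e = y

namespace InCorner

variable {N : VonNeumannAlgebra H} {e y w : H →L[ℂ] H}

theorem left (hy : InCorner N e y) (he : IsStarProjection e) : e * y = y := by
  calc e * y = e * (e * y * e) := by rw [hy.2]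
    _ = e * y * e := by simp [← mul_assoc, he.isIdempotentElem.eq]
    _ = y := hy.2

theorem right (hy : InCorner N e y) (he : IsStarProjection e) : y * e = y := by
  calc y * e = e * y * e * e := by rw [hy.2]
    _ = e * y * e := by simp [mul_assoc, he.isIdempotentElem.eq]
    _ = y := hy.2

theorem of_left_right (h : y ∈ N) (h1 : e * y = y) (h2 : y * e = y) : InCorner N e y :=
  ⟨h, by rw [h1, h2]⟩

theorem add (hy : InCorner N e y) (hw : InCorner N e w) : InCorner N e (y + w) :=
  ⟨add_mem hy.1 hw.1, by rw [mul_add, add_mul, hy.2, hw.2]⟩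

theorem sub (hy : InCorner N e y) (hw : InCorner N e w) : InCorner N e (y - w) :=
  ⟨sub_mem hy.1 hw.1, by rw [mul_sub, sub_mul, hy.2, hw.2]⟩

theorem zero : InCorner N e 0 := ⟨zero_mem N, by simp⟩

theorem smul (hy : InCorner N e y) (c : ℂ) : InCorner N e (c • y) :=
  ⟨smul_mem' N hy.1 c, by rw [mul_smul_comm, smul_mul_assoc, hy.2]⟩

theorem mul (hy : InCorner N e y) (hw : InCorner N e w) (he : IsStarProjection e) :
    InCorner N e (y * w) :=
  of_left_right (mul_mem hy.1 hw.1) (by rw [← mul_assoc, hy.left he])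
    (by rw [mul_assoc, hw.right he])

theorem unit (heN : e ∈ N) (he : IsStarProjection e) : InCorner N e e :=
  ⟨heN, by rw [he.isIdempotentElem.eq, he.isIdempotentElem.eq]⟩

theorem star' (hy : InCorner N e y) (he : IsStarProjection e) : InCorner N e (star y) := by
  refine ⟨star_mem hy.1, ?_⟩
  have := congrArg star hy.2
  simpa [star_mul, he.isSelfAdjoint.star_eq, mul_assoc] using this

theorem sum {κ : Type*} (s : Finset κ) (f : κ → H →L[ℂ] H)
    (h : ∀ i ∈ s, InCorner N e (f i)) : InCorner N e (∑ i ∈ s, f i) :=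
  ⟨sum_mem fun i hi => (h i hi).1, by
    rw [Finset.mul_sum, Finset.sum_mul]; exact Finset.sum_congr rfl fun i hi => (h i hi).2⟩

theorem mono {N' : VonNeumannAlgebra H} (hy : InCorner N e y) (h : ∀ z ∈ N, z ∈ N') :
    InCorner N' e y := ⟨h _ hy.1, hy.2⟩

end InCorner

variable {M : VonNeumannAlgebra H} {ξ : ι → H} {e : H →L[ℂ] H}

/-- The vectors `(y ξ_i)_i`, `y` in the corner, before closing up. -/
noncomputable def cornerVec (M : VonNeumannAlgebra H) (ξ : ι → H) (e : H →L[ℂ] H) :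
    Submodule ℂ (lp (fun _ : ι => H) 2) where
  carrier := {f | ∃ y, InCorner M e y ∧ ∀ i, f i = y (ξ i)}
  zero_mem' := ⟨0, InCorner.zero, fun _ => rfl⟩
  add_mem' := fun {f g} ⟨y, hy, hf⟩ ⟨w, hw, hg⟩ => ⟨y + w, hy.add hw, fun i => by simp [hf, hg]⟩
  smul_mem' := fun c f ⟨y, hy, hf⟩ => ⟨c • y, hy.smul c, fun i => by simp [hf]⟩

/-- The standard space of the corner. -/
noncomputable def cornerK (M : VonNeumannAlgebra H) (ξ : ι → H) (e : H →L[ℂ] H) :
    Submodule ℂ (lp (fun _ : ι => H) 2) := (cornerVec M ξ e).topologicalClosure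

instance : CompleteSpace (cornerK M ξ e) :=
  (Submodule.isClosed_topologicalClosure _).completeSpace_coe

/-- `T` acts on the corner space as `y` coordinatewise. -/
def Acts (T : cornerK M ξ e →L[ℂ] cornerK M ξ e) (y : H →L[ℂ] H) : Prop :=
  ∀ (k : cornerK M ξ e) (i : ι), (T k).1 i = y (k.1 i)

namespace Acts

variable {T U : cornerK M ξ e →L[ℂ] cornerK M ξ e} {y w : H →L[ℂ] H}

theorem norm_apply_le' (hT : Acts T y) (k : cornerK M ξ e) : ‖T k‖ ≤ ‖y‖ * ‖k‖ := by
  refine le_of_pow_le_pow_left₀ two_ne_zero (by positivity) ?_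
  rw [mul_pow]
  refine hasSum_le (fun i => ?_) (lp_hasSum_sq (T k).1)
    ((lp_hasSum_sq k.1).mul_left (‖y‖ ^ 2))
  rw [hT k i, ← mul_pow]
  exact pow_le_pow_left₀ (norm_nonneg _) (y.le_opNorm _) 2

theorem norm_le (hT : Acts T y) : ‖T‖ ≤ ‖y‖ :=
  T.opNorm_le_bound (norm_nonneg _) hT.norm_apply_le'

theorem add (hT : Acts T y) (hU : Acts U w) : Acts (T + U) (y + w) := fun k i => by
  simp [hT k i, hU k i]

theorem sub (hT : Acts T y) (hU : Acts U w) : Acts (T - U) (y - w) := fun k i => by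
  simp [hT k i, hU k i]

theorem smul (hT : Acts T y) (c : ℂ) : Acts (c • T) (c • y) := fun k i => by simp [hT k i]

theorem mul (hT : Acts T y) (hU : Acts U w) : Acts (T * U) (y * w) := fun k i => by
  simp [hT _ i, hU k i]

theorem zero : Acts (0 : cornerK M ξ e →L[ℂ] cornerK M ξ e) 0 := fun _ _ => rfl

theorem sum {κ : Type*} (s : Finset κ) (f : κ → cornerK M ξ e →L[ℂ] cornerK M ξ e)
    (g : κ → H →L[ℂ] H) (h : ∀ i ∈ s, Acts (f i) (g i)) : Acts (∑ i ∈ s, f i) (∑ i ∈ s, g i) := by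
  classical
  induction s using Finset.induction_on with
  | empty => simpa using zero
  | insert a t ha ih =>
    rw [Finset.sum_insert ha, Finset.sum_insert ha]
    exact (h a (Finset.mem_insert_self a t)).add
      (ih fun i hi => h i (Finset.mem_insert_of_mem hi))

theorem eq_of (hT : Acts T y) (hU : Acts U y) : T = U := by
  ext k i
  rw [hT k i, hU k i]

end Acts

namespace FinCorner

theorem tau_ne_top (hC : FinCorner M ξ e) {y : H →L[ℂ] H} (hy : InCorner M e y) :
    tau ξ y ≠ ⊤ := by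
  refine ne_top_of_le_ne_top (ENNReal.mul_ne_top ENNReal.ofReal_ne_top hC.fin)
    (le_of_eq_of_le ?_ (tau_mul_left ξ y e))
  rw [hy.right hC.proj]

/-- The vector of `y` in the corner space. -/
noncomputable def vec (hC : FinCorner M ξ e) {y : H →L[ℂ] H} (hy : InCorner M e y) :
    cornerK M ξ e :=
  ⟨⟨fun i => y (ξ i), lp_mem_of_summable _ (by
      have := ENNReal.summable_toReal (hC.tau_ne_top hy)
      simpa [ENNReal.toReal_ofReal (sq_nonneg _)] using this)⟩,
    Submodule.le_topologicalClosure _ ⟨y, hy, fun _ => rfl⟩⟩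

theorem vec_apply (hC : FinCorner M ξ e) {y : H →L[ℂ] H} (hy : InCorner M e y) (i : ι) :
    (hC.vec hy).1 i = y (ξ i) := rfl

theorem tau_eq (hC : FinCorner M ξ e) {y : H →L[ℂ] H} (hy : InCorner M e y) :
    tau ξ y = ENNReal.ofReal (‖hC.vec hy‖ ^ 2) :=
  tau_eq_of_vector ξ y (hC.vec hy).1 fun _ => rfl

theorem norm_vec_star (hC : FinCorner M ξ e) {y : H →L[ℂ] H} (hy : InCorner M e y) :
    ‖hC.vec (hy.star' hC.proj)‖ = ‖hC.vec hy‖ := by
  have h := hC.trace.tracial y hy.1
  rw [hC.tau_eq hy, hC.tau_eq (hy.star' hC.proj),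
    ENNReal.ofReal_eq_ofReal_iff (sq_nonneg _) (sq_nonneg _),
    pow_left_inj₀ (norm_nonneg _) (norm_nonneg _) two_ne_zero] at h
  exact h.symm

theorem unit_apply (hC : FinCorner M ξ e) (k : cornerK M ξ e) (i : ι) : e (k.1 i) = k.1 i := by
  let G : Submodule ℂ (lp (fun _ : ι => H) 2) :=
    (diag e - 1 : lp (fun _ : ι => H) 2 →L[ℂ] lp (fun _ : ι => H) 2).ker
  have hle : cornerVec M ξ e ≤ G := by
    rintro f ⟨y, hy, hf⟩
    simp only [G, LinearMap.mem_ker, ContinuousLinearMap.coe_coe, sub_apply, one_apply_eq_self,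
      sub_eq_zero]
    ext j
    rw [diag_apply, hf]
    exact congrArg (fun T : H →L[ℂ] H => T (ξ j)) (hy.left hC.proj)
  have := Submodule.topologicalClosure_minimal _ hle (ContinuousLinearMap.isClosed_ker _) k.2
  simp only [G, LinearMap.mem_ker, ContinuousLinearMap.coe_coe, sub_apply, one_apply_eq_self,
    sub_eq_zero] at this
  exact congrArg (fun f : lp (fun _ : ι => H) 2 => f i) this

theorem diag_mem (hC : FinCorner M ξ e) {y : H →L[ℂ] H} (hy : InCorner M e y)
    (k : cornerK M ξ e) : diag y k.1 ∈ cornerK M ξ e := by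
  have hle : cornerVec M ξ e ≤ (cornerK M ξ e).comap
      (diag y).toLinearMap := by
    rintro f ⟨w, hw, hf⟩
    refine Submodule.le_topologicalClosure _ ⟨y * w, hy.mul hw hC.proj, fun i => ?_⟩
    show y (f i) = _
    rw [hf]
    rfl
  exact Submodule.topologicalClosure_minimal _ hle
    ((Submodule.isClosed_topologicalClosure _).preimage (diag y).continuous) k.2

/-- The action of a corner element. -/
noncomputable def op (hC : FinCorner M ξ e) {y : H →L[ℂ] H} (hy : InCorner M e y) :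
    cornerK M ξ e →L[ℂ] cornerK M ξ e :=
  ((diag y).comp (cornerK M ξ e).subtypeL).codRestrict _ fun k => hC.diag_mem hy k

theorem acts_op (hC : FinCorner M ξ e) {y : H →L[ℂ] H} (hy : InCorner M e y) :
    Acts (hC.op hy) y := fun _ _ => rfl

theorem acts_one (hC : FinCorner M ξ e) :
    Acts (1 : cornerK M ξ e →L[ℂ] cornerK M ξ e) e := fun k i => (hC.unit_apply k i).symm

theorem acts_star (hC : FinCorner M ξ e) {T : cornerK M ξ e →L[ℂ] cornerK M ξ e}
    {y : H →L[ℂ] H} (hy : InCorner M e y) (hT : Acts T y) : Acts (star T) (star y) := by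
  have h : hC.op (hy.star' hC.proj) = ContinuousLinearMap.adjoint T := by
    refine (ContinuousLinearMap.eq_adjoint_iff _ _).2 ?_
    intro k l
    simp only [Submodule.coe_inner, lp.inner_eq_tsum, hT l, hC.acts_op (hy.star' hC.proj) k]
    refine tsum_congr fun i => ?_
    rw [ContinuousLinearMap.star_eq_adjoint, ContinuousLinearMap.adjoint_inner_left]
  rw [← ContinuousLinearMap.star_eq_adjoint] at h
  rw [← h]
  exact hC.acts_op _

/-- Corner elements are determined, with their norm, by their action. -/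
theorem norm_le_of_acts (hC : FinCorner M ξ e) {T : cornerK M ξ e →L[ℂ] cornerK M ξ e}
    {y : H →L[ℂ] H} (hy : InCorner M e y) (hT : Acts T y) : ‖y‖ ≤ ‖T‖ := by
  refine le_of_forall_gt_imp_ge_of_dense fun s hs => ?_
  have hs0 : 0 < s := T.opNorm_nonneg.trans_lt hs
  set g := 1 - cut (star y * y) (s ^ 2) with hg
  have hgp : IsStarProjection g := (isStarProjection_cut _ _).one_sub
  have hgM : g ∈ M := sub_mem (one_mem M)
    (cut_mem M (mul_mem (star_mem hy.1) hy.1) (IsSelfAdjoint.star_mul_self y) _)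
  have hge : g * e = g := by
    ext w
    have h2 : ‖g (e w - w)‖ ≤ ‖y (e w - w)‖ / s := norm_sub_cut_le hs0 _
    have h3 : y (e w - w) = 0 := by
      rw [map_sub, sub_eq_zero]
      exact congrArg (fun T : H →L[ℂ] H => T w) (hy.right hC.proj)
    rw [h3, norm_zero, zero_div, map_sub] at h2
    exact sub_eq_zero.1 (norm_le_zero_iff.1 h2)
  have heg : e * g = g := by
    have := congrArg star hge
    simpa only [star_mul, hC.proj.isSelfAdjoint.star_eq, hgp.isSelfAdjoint.star_eq] using this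
  have hgc : InCorner M e g := InCorner.of_left_right hgM heg hge
  have hlow : (s * ‖hC.vec hgc‖) ^ 2 ≤ ‖T (hC.vec hgc)‖ ^ 2 := by
    rw [mul_pow]
    refine hasSum_le (fun i => ?_) ((lp_hasSum_sq (hC.vec hgc).1).mul_left (s ^ 2))
      (lp_hasSum_sq (T (hC.vec hgc)).1)
    rw [hT, hC.vec_apply]
    have hz : cut (star y * y) (s ^ 2) (g (ξ i)) = 0 := by
      have := congrArg (fun T : H →L[ℂ] H => T (ξ i))
        (isStarProjection_cut (star y * y) (s ^ 2)).isIdempotentElem.eq
      simp only [mul_apply_eq_comp] at this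
      simp [hg, map_sub, this]
    refine (le_re_inner_of_cut_eq_zero (IsSelfAdjoint.star_mul_self y) hz).trans_eq ?_
    rw [mul_apply_eq_comp, ContinuousLinearMap.star_eq_adjoint,
      ContinuousLinearMap.adjoint_inner_left]
    exact inner_self_eq_norm_sq (𝕜 := ℂ) (y (g (ξ i)))
  have h4 := (le_of_pow_le_pow_left₀ two_ne_zero (norm_nonneg _) hlow).trans (T.le_opNorm _)
  have h5 : ‖hC.vec hgc‖ = 0 := by nlinarith [norm_nonneg (hC.vec hgc)]
  have h6 : g = 0 := hC.trace.faithful g hgM (by rw [hC.tau_eq hgc, h5]; simp)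
  refine ContinuousLinearMap.opNorm_le_bound _ hs0.le fun v => ?_
  have hc : cut (star y * y) (s ^ 2) v = v :=
    (congrArg (fun T : H →L[ℂ] H => T v) (sub_eq_zero.1 h6)).symm
  have h7 := norm_cut_sq_le (W := y) hs0.le v
  rwa [hc] at h7

theorem eq_of_acts (hC : FinCorner M ξ e) {T : cornerK M ξ e →L[ℂ] cornerK M ξ e}
    {y w : H →L[ℂ] H} (hy : InCorner M e y) (hw : InCorner M e w) (hTy : Acts T y)
    (hTw : Acts T w) : y = w := by
  have := hC.norm_le_of_acts (hy.sub hw) (hTy.sub hTw)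
  rw [sub_self, ContinuousLinearMap.opNorm_zero, norm_le_zero_iff, sub_eq_zero] at this
  exact this

/-- The operators on the corner space coming from `N`. -/
noncomputable def alg (hC : FinCorner M ξ e) (N : VonNeumannAlgebra H) (hNM : ∀ y ∈ N, y ∈ M)
    (heN : e ∈ N) : StarSubalgebra ℂ (cornerK M ξ e →L[ℂ] cornerK M ξ e) where
  carrier := {T | ∃ y, InCorner N e y ∧ Acts T y}
  mul_mem' := fun ⟨y, hy, hT⟩ ⟨w, hw, hU⟩ => ⟨y * w, hy.mul hw hC.proj, hT.mul hU⟩
  one_mem' := ⟨e, InCorner.unit heN hC.proj, hC.acts_one⟩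
  add_mem' := fun ⟨y, hy, hT⟩ ⟨w, hw, hU⟩ => ⟨y + w, hy.add hw, hT.add hU⟩
  zero_mem' := ⟨0, InCorner.zero, Acts.zero⟩
  algebraMap_mem' := fun c => by
    refine ⟨c • e, (InCorner.unit heN hC.proj).smul c, ?_⟩
    rw [Algebra.algebraMap_eq_smul_one]
    exact hC.acts_one.smul c
  star_mem' := fun ⟨y, hy, hT⟩ => ⟨star y, hy.star' hC.proj, hC.acts_star (hy.mono hNM) hT⟩

theorem inner_vec_star (hC : FinCorner M ξ e) {a b : H →L[ℂ] H} (ha : InCorner M e a)
    (hb : InCorner M e b) :
    ⟪hC.vec ha, hC.vec hb⟫_ℂ = ⟪hC.vec (hb.star' hC.proj), hC.vec (ha.star' hC.proj)⟫_ℂ := by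
  have key : ∀ (c : ℂ), RCLike.re ⟪hC.vec ha, c • hC.vec hb⟫_ℂ =
      RCLike.re ⟪hC.vec (ha.star' hC.proj), (starRingEnd ℂ c) • hC.vec (hb.star' hC.proj)⟫_ℂ := by
    intro c
    have e1 : hC.vec ha + c • hC.vec hb = hC.vec (ha.add (hb.smul c)) := by
      ext i; rfl
    have e2 : hC.vec (ha.star' hC.proj) + (starRingEnd ℂ c) • hC.vec (hb.star' hC.proj) =
        hC.vec ((ha.add (hb.smul c)).star' hC.proj) := by
      ext i
      show star a (ξ i) + (starRingEnd ℂ) c • star b (ξ i) = star (a + c • b) (ξ i)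
      simp [star_smul]
    have h := hC.norm_vec_star (ha.add (hb.smul c))
    rw [← e1, ← e2] at h
    have h2 := congrArg (fun t : ℝ => t ^ 2) h
    simp only [norm_add_sq (𝕜 := ℂ), hC.norm_vec_star ha, norm_smul, hC.norm_vec_star hb,
      RCLike.norm_conj] at h2
    linarith
  rw [← inner_conj_symm (hC.vec (hb.star' hC.proj))]
  apply Complex.ext
  · rw [Complex.conj_re]
    simpa using key 1
  · have h := key Complex.I
    simp [inner_smul_right] at h
    rw [Complex.conj_im]
    simp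
    linarith

end FinCorner

variable {A : VonNeumannAlgebra H}

/-- The corner as a tracial algebra in standard form. -/
noncomputable def FinCorner.std (hC : FinCorner M ξ e) (hA : IsMasa M A) (heA : e ∈ A)
    (he0 : e ≠ 0) : Std (cornerK M ξ e) where
  M := hC.alg M (fun _ h => h) hC.mem
  A := hC.alg A hA.le heA
  Ω := ((‖hC.vec (InCorner.unit hC.mem hC.proj)‖⁻¹ : ℝ) : ℂ) •
    hC.vec (InCorner.unit hC.mem hC.proj)
  norm_Ω := by
    rw [norm_smul, Complex.norm_real, norm_inv, norm_norm, inv_mul_cancel₀]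
    intro h
    exact he0 (hC.trace.faithful e hC.mem (by rw [hC.tau_eq (InCorner.unit hC.mem hC.proj), h]; simp))
  A_le := fun T ⟨y, hy, hT⟩ => ⟨y, hy.mono hA.le, hT⟩
  A_comm := fun a ⟨y, hy, ha⟩ b ⟨w, hw, hb⟩ => by
    refine (ha.mul hb).eq_of ?_
    rw [(hA.comm y hy.1 w hw.1).eq]
    exact hb.mul ha
  A_max := fun T ⟨y, hy, hT⟩ hcomm => by
    refine ⟨y, ⟨hA.max y hy.1 fun a ha => ?_, hy.2⟩, hT⟩
    have hae : InCorner A e (a * e) := InCorner.of_left_right (mul_mem ha heA)
      (by rw [← mul_assoc, (hA.comm e heA a ha).eq, mul_assoc, hC.proj.isIdempotentElem.eq])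
      (by rw [mul_assoc, hC.proj.isIdempotentElem.eq])
    have haeM := hae.mono hA.le
    have h := hcomm _ ⟨a * e, hae, hC.acts_op haeM⟩
    have h2 := hC.eq_of_acts (haeM.mul hy hC.proj) (hy.mul haeM hC.proj)
      ((hC.acts_op haeM).mul hT) (by rw [h]; exact hT.mul (hC.acts_op haeM))
    have h3 : a * e = e * a := (hA.comm a ha e heA).eq
    calc a * y = a * e * y := by rw [mul_assoc, hy.left hC.proj]
      _ = y * (a * e) := h2
      _ = y * a := by rw [h3, ← mul_assoc, hy.right hC.proj]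
  tracial := fun X ⟨x, hx, hX⟩ Y ⟨y, hy, hY⟩ => by
    have key : ∀ (U V : cornerK M ξ e →L[ℂ] cornerK M ξ e) (a b : H →L[ℂ] H) (ha : InCorner M e a)
        (hb : InCorner M e b), Acts U a → Acts V b →
        ⟪hC.vec (InCorner.unit hC.mem hC.proj), (U * V) (hC.vec (InCorner.unit hC.mem hC.proj))⟫_ℂ =
          ⟪hC.vec (ha.star' hC.proj), hC.vec hb⟫_ℂ := by
      intro U V a b ha hb hU hV
      rw [Submodule.coe_inner, Submodule.coe_inner, lp.inner_eq_tsum, lp.inner_eq_tsum]
      refine tsum_congr fun i => ?_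
      rw [(hU.mul hV) _ i]
      simp only [FinCorner.vec_apply, mul_apply_eq_comp]
      rw [← ContinuousLinearMap.adjoint_inner_left, ← ContinuousLinearMap.star_eq_adjoint]
      have e1 : star a (e (ξ i)) = star a (ξ i) :=
        congrArg (fun T : H →L[ℂ] H => T (ξ i)) ((ha.star' hC.proj).right hC.proj)
      have e2 : b (e (ξ i)) = b (ξ i) :=
        congrArg (fun T : H →L[ℂ] H => T (ξ i)) (hb.right hC.proj)
      rw [e1, e2]
    have hs : ∀ (c : ℂ) (v w : cornerK M ξ e),
        ⟪c • v, c • w⟫_ℂ = (starRingEnd ℂ) c * (c * ⟪v, w⟫_ℂ) := fun c v w =>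
      (inner_smul_left v (c • w) c).trans (congrArg _ (inner_smul_right v w c))
    rw [map_smul, map_smul, hs, hs]
    rw [key X Y x y hx hy hX hY, key Y X y x hy hx hY hX, hC.inner_vec_star (hx.star' hC.proj) hy]
    congr 2
    congr 1
    ext i
    simp [FinCorner.vec_apply]
  cyclic := by
    intro v
    rw [Metric.mem_closure_iff]
    intro ε hε
    obtain ⟨f, ⟨y, hy, hf⟩, hd⟩ := Metric.mem_closure_iff.1
      (v.2 : v.1 ∈ closure (cornerVec M ξ e : Set _)) ε hε
    set c : ℂ := ((‖hC.vec (InCorner.unit hC.mem hC.proj)‖ : ℝ) : ℂ) with hc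
    refine ⟨hC.vec hy, ⟨hC.op (hy.smul c), ⟨c • y, hy.smul c, hC.acts_op _⟩, ?_⟩, ?_⟩
    · ext i
      have hne : ‖hC.vec (InCorner.unit hC.mem hC.proj)‖ ≠ 0 := by
        intro h
        exact he0 (hC.trace.faithful e hC.mem (by rw [hC.tau_eq (InCorner.unit hC.mem hC.proj), h]; simp))
      rw [map_smul]
      show ((‖hC.vec (InCorner.unit hC.mem hC.proj)‖⁻¹ : ℝ) : ℂ) • (c • y) (e (ξ i)) = y (ξ i)
      have e2 : y (e (ξ i)) = y (ξ i) :=
        congrArg (fun T : H →L[ℂ] H => T (ξ i)) (hy.right hC.proj)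
      rw [smul_apply, e2, smul_smul, hc, Complex.ofReal_inv,
        inv_mul_cancel₀ (Complex.ofReal_ne_zero.2 hne), one_smul]
    · have : (hC.vec hy).1 = f := by ext i; rw [FinCorner.vec_apply, hf]
      show dist v.1 (hC.vec hy).1 < ε
      rw [this]
      exact hd
  strong_closed := fun T ⟨C, hC'⟩ => by
    classical
    have hpick : ∀ α : Finset (cornerK M ξ e) × ℕ, ∃ y, InCorner M e y ∧ ‖y‖ ≤ C ∧
        ∀ k ∈ α.1, ∀ i, ‖y (k.1 i) - (T k).1 i‖ ≤ 1 / ((α.2 : ℝ) + 1) := by
      intro α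
      obtain ⟨U, ⟨y, hy, hU⟩, hn, hclose⟩ := hC' α.1 (1 / ((α.2 : ℝ) + 1)) (by positivity)
      refine ⟨y, hy, (hC.norm_le_of_acts hy hU).trans hn, fun k hk i => ?_⟩
      rw [← hU k i]
      have h := lp.norm_apply_le_norm (p := 2) (by norm_num) (U k - T k).1 i
      exact h.trans (hclose k hk).le
    choose f hf hfC hfT using hpick
    let U : Ultrafilter (Finset (cornerK M ξ e) × ℕ) := Ultrafilter.of atTop
    obtain ⟨y, hlim, -⟩ := exists_wot_limit U f hfC
    have htrans : ∀ z ∈ M.commutant, z * y = y * z := by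
      intro z hz
      refine ContinuousLinearMap.ext fun v => ext_inner_right ℂ fun w => ?_
      simp only [mul_apply_eq_comp]
      have h3 : Tendsto (fun α => ⟪z (f α v), w⟫_ℂ) (U : Filter _) (𝓝 ⟪z (y v), w⟫_ℂ) := by
        simpa only [← ContinuousLinearMap.adjoint_inner_right] using
          hlim v (ContinuousLinearMap.adjoint z w)
      refine (tendsto_nhds_unique ((hlim (z v) w).congr' (.of_forall fun α => ?_)) h3).symm
      have e1 := congrArg (fun S : H →L[ℂ] H => S v)
        (VonNeumannAlgebra.mem_commutant_iff.1 hz _ (hf α).1)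
      simp only [mul_apply_eq_comp] at e1
      rw [e1]
    have hye : e * y * e = y := by
      refine ContinuousLinearMap.ext fun v => ext_inner_right ℂ fun w => ?_
      simp only [mul_apply_eq_comp, inner_sa hC.proj.isSelfAdjoint]
      refine tendsto_nhds_unique ((hlim (e v) (e w)).congr' (.of_forall fun α => ?_)) (hlim v w)
      rw [← inner_sa hC.proj.isSelfAdjoint]
      exact congrArg (fun S : H →L[ℂ] H => ⟪S v, w⟫_ℂ) (hf α).2
    refine ⟨y, ⟨mem_of_commute_commutant M htrans, hye⟩, fun k i => ext_inner_right ℂ fun w => ?_⟩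
    refine tendsto_nhds_unique ?_ (hlim (k.1 i) w)
    have hn : Tendsto (fun α : Finset (cornerK M ξ e) × ℕ => f α (k.1 i)) (U : Filter _)
        (𝓝 ((T k).1 i)) := by
      refine Tendsto.mono_left (Metric.tendsto_atTop.2 fun ε hε => ?_) (Ultrafilter.of_le atTop)
      obtain ⟨n, hn⟩ := exists_nat_one_div_lt hε
      refine ⟨({k}, n), fun α hα => ?_⟩
      rw [dist_eq_norm]
      refine (hfT α k (hα.1 (Finset.mem_singleton_self k)) i).trans_lt (lt_of_le_of_lt ?_ hn)
      gcongr
      exact_mod_cast hα.2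
    exact ((continuous_id.inner continuous_const).tendsto _).comp hn

/-- Paving of a corner of finite trace from the tracial statement. -/
theorem paving_corner (hA : IsMasa M A) (hξ : IsTraceFamily M ξ) (heA : e ∈ A)
    (he : IsStarProjection e) (het : tau ξ e ≠ ⊤) {ε : ℝ} (hε : 0 < ε) {r : ℕ}
    (hcore : ∀ (K : Type u) [NormedAddCommGroup K] [InnerProductSpace ℂ K] [CompleteSpace K]
      (S : Std K), S.Paves ε r)
    {x : H →L[ℂ] H} (hxM : x ∈ M) (hx : IsSelfAdjoint x) (hx1 : ‖x‖ ≤ 1) (F : Finset H)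
    {δ : ℝ} (hδ : 0 < δ) :
    ∃ (p : Fin r → H →L[ℂ] H) (a q : H →L[ℂ] H), IsPart A e p ∧ a ∈ A ∧ IsSelfAdjoint a ∧
      a * e = a ∧ ‖a‖ ≤ 1 ∧ q ∈ M ∧ IsStarProjection q ∧ q * e = q ∧
      (∀ v ∈ F, ‖e v - q v‖ ≤ δ) ∧ ‖q * (pinch p x - a) * q‖ ≤ ε := by
  rcases eq_or_ne e 0 with he0 | he0
  · refine ⟨fun _ => 0, 0, 0, ⟨fun _ => zero_mem A, fun _ => IsStarProjection.zero _,
      fun _ _ _ => zero_mul _, by simp [he0]⟩, zero_mem A, IsSelfAdjoint.zero _, by simp,
      by simp, zero_mem M, IsStarProjection.zero _, by simp, fun v _ => by simp [he0, hδ.le],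
      by simp [hε.le]⟩
  have hC : FinCorner M ξ e := ⟨hξ, hA.le e heA, he, het⟩
  obtain ⟨η, hη, hsm⟩ := hξ.small_finset F hδ
  set n := ‖hC.vec (InCorner.unit hC.mem hC.proj)‖ with hn
  have hxe : InCorner M e (e * x * e) :=
    ⟨mul_mem (mul_mem hC.mem hxM) hC.mem, by
      simp only [← mul_assoc, he.isIdempotentElem.eq]
      rw [mul_assoc, he.isIdempotentElem.eq]⟩
  have hxK := hC.acts_op hxe
  have hxsa : IsSelfAdjoint (hC.op hxe) := by
    refine (hC.acts_star hxe hxK).eq_of ?_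
    rwa [star_mul, star_mul, hx.star_eq, he.isSelfAdjoint.star_eq, ← mul_assoc]
  have hx1' : ‖hC.op hxe‖ ≤ 1 := by
    refine hxK.norm_le.trans ((norm_mul₃_le).trans ?_)
    calc ‖e‖ * ‖x‖ * ‖e‖ ≤ 1 * 1 * 1 := by
          gcongr <;> exact opNorm_proj_le_one he
      _ = 1 := by norm_num
  obtain ⟨pK, aK, qK, ⟨hp1, hp2, hp3⟩, ⟨a, ha, haK⟩, haKsa, haKn, ⟨q, hq, hqK⟩, hqKp, hqn, hW⟩ :=
    hcore (cornerK M ξ e) (hC.std hA heA he0) (hC.op hxe) ⟨_, hxe, hxK⟩ hxsa hx1'
      (Real.sqrt η / (n + 1)) (by positivity)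
  choose hp1m hp1p using hp1
  choose p hp hpK using hp1m
  have hpM : ∀ i, InCorner M e (p i) := fun i => (hp i).mono hA.le
  have hproj : ∀ {T : cornerK M ξ e →L[ℂ] cornerK M ξ e} {y}, InCorner M e y → Acts T y →
      IsStarProjection T → IsStarProjection y := by
    intro T y hy hT hTp
    refine ⟨hC.eq_of_acts (hy.mul hy he) hy (hT.mul hT) ?_,
      hC.eq_of_acts (hy.star' he) hy (hC.acts_star hy hT) ?_⟩
    · rwa [hTp.isIdempotentElem.eq]
    · rwa [hTp.isSelfAdjoint.star_eq]
  have haM : InCorner M e a := ha.mono hA.le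
  have hasa : IsSelfAdjoint a :=
    hC.eq_of_acts (haM.star' he) haM (hC.acts_star haM haK) (by rwa [haKsa.star_eq])
  refine ⟨p, a, q, ⟨fun i => (hp i).1, fun i => hproj (hpM i) (hpK i) (hp1p i), fun i j hij => ?_,
    ?_⟩, ha.1, hasa, haM.right he, (hC.norm_le_of_acts haM haK).trans haKn, hq.1,
    hproj hq hqK hqKp, hq.right he, ?_, ?_⟩
  · refine hC.eq_of_acts ((hpM i).mul (hpM j) he) InCorner.zero ((hpK i).mul (hpK j)) ?_
    rw [hp2 i j hij]
    exact Acts.zero
  · refine hC.eq_of_acts (InCorner.sum _ _ fun i _ => hpM i) (InCorner.unit hC.mem he)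
      (Acts.sum _ _ _ fun i _ => hpK i) ?_
    rw [hp3]
    exact hC.acts_one
  · have hd : InCorner M e (e - q) := (InCorner.unit hC.mem he).sub hq
    have hdp : IsStarProjection (e - q) :=
      (hproj hq hqK hqKp).sub_of_mul_eq_left he (hq.right he)
    have hnd : ‖hC.vec hd‖ ≤ Real.sqrt η := by
      have hv : (1 - qK) (hC.vec (InCorner.unit hC.mem hC.proj)) = hC.vec hd := by
        ext i
        rw [(hC.acts_one.sub hqK) _ i, FinCorner.vec_apply, FinCorner.vec_apply]
        exact congrArg (fun S : H →L[ℂ] H => S (ξ i)) (hd.right he)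
      have hn0 : n ≠ 0 := fun h => he0 (hξ.faithful e hC.mem (by
        rw [hC.tau_eq (InCorner.unit hC.mem hC.proj), ← hn, h]; simp))
      have hnpos : 0 < n := lt_of_le_of_ne (norm_nonneg _) (Ne.symm hn0)
      have h1 : ‖(1 - qK) (((n⁻¹ : ℝ) : ℂ) • hC.vec (InCorner.unit hC.mem hC.proj))‖ <
          Real.sqrt η / (n + 1) := hqn
      rw [map_smul, hv, norm_smul, Complex.norm_real, Real.norm_of_nonneg (by positivity),
        inv_mul_eq_div, div_lt_div_iff₀ hnpos (by positivity)] at h1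
      nlinarith [norm_nonneg (hC.vec hd), Real.sqrt_nonneg η]
    intro v hv
    have h := hsm (e - q) hd.1 (opNorm_proj_le_one hdp) ?_ v hv
    · simpa using h
    · rw [hC.tau_eq hd]
      exact ENNReal.ofReal_le_ofReal
        ((pow_le_pow_left₀ (norm_nonneg _) hnd 2).trans_eq (Real.sq_sqrt hη.le))
  · have hpx : pinch p x = pinch p (e * x * e) := by
      refine Finset.sum_congr rfl fun i _ => ?_
      calc p i * x * p i = (p i * e) * x * (e * p i) := by
            rw [(hpM i).right he, (hpM i).left he]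
        _ = p i * (e * x * e) * p i := by simp [mul_assoc]
    have hpc : InCorner M e (pinch p (e * x * e)) :=
      InCorner.sum _ _ fun i _ => ((hpM i).mul hxe he).mul (hpM i) he
    have hpa : Acts (P078.pinch pK (hC.op hxe)) (pinch p (e * x * e)) :=
      Acts.sum _ _ _ fun i _ => ((hpK i).mul hxK).mul (hpK i)
    rw [hpx]
    exact (hC.norm_le_of_acts ((hq.mul (hpc.sub haM) he).mul hq he)
      ((hqK.mul (hpa.sub haK)).mul hqK)).trans hW

end Vale.Agent.P078.General
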