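import Vale.Agent.P078.General.Core
import Vale.Agent.P078.General.Transport

/-!
# Joining the finite trace corners and the thin part
-/

namespace Vale.Agent.P078.General

open scoped InnerProductSpace Topology ENNReal
open Filter

universe u

variable {H : Type u} [NormedAddCommGroup H] [InnerProductSpace ℂ H] [CompleteSpace H]
variable {ι : Type u} {M A : VonNeumannAlgebra H} {ξ : ι → H}

theorem norm_add_orth_le {p q u w : H →L[ℂ] H} (hp : IsStarProjection p) (hq : IsStarProjection q)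
    (hpq : p * q = 0) (hu : p * u = u) (hu' : u * p = u) (hw : q * w = w) (hw' : w * q = w)
    {c : ℝ} (hc : 0 ≤ c) (hnu : ‖u‖ ≤ c) (hnw : ‖w‖ ≤ c) : ‖u + w‖ ≤ c := by
  refine ContinuousLinearMap.opNorm_le_bound _ hc fun v => ?_
  refine le_of_pow_le_pow_left₀ two_ne_zero (by positivity) ?_
  have hu1 : u v = u (p v) := (congrArg (fun T : H →L[ℂ] H => T v) hu').symm
  have hw1 : w v = w (q v) := (congrArg (fun T : H →L[ℂ] H => T v) hw').symm
  have horth : ⟪u v, w v⟫_ℂ = 0 := by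
    rw [← hu, ← hw]
    exact inner_proj_orth hp hpq (u v) (w v)
  rw [add_apply, norm_sq_add_of_inner horth, hu1, hw1]
  have h1 : ‖u (p v)‖ ≤ c * ‖p v‖ :=
    (u.le_opNorm _).trans (mul_le_mul_of_nonneg_right hnu (norm_nonneg _))
  have h2 : ‖w (q v)‖ ≤ c * ‖q v‖ :=
    (w.le_opNorm _).trans (mul_le_mul_of_nonneg_right hnw (norm_nonneg _))
  have hqp : q * p = 0 := by
    have := congrArg star hpq
    simpa only [star_mul, hp.isSelfAdjoint.star_eq, hq.isSelfAdjoint.star_eq, star_zero] using this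
  have hpqp : IsStarProjection (p + q) := by
    refine ⟨?_, hp.isSelfAdjoint.add hq.isSelfAdjoint⟩
    show (p + q) * (p + q) = p + q
    simp only [add_mul, mul_add, hpq, hqp, hp.isIdempotentElem.eq, hq.isIdempotentElem.eq,
      add_zero, zero_add]
  have h3 : ‖p v‖ ^ 2 + ‖q v‖ ^ 2 ≤ ‖v‖ ^ 2 := by
    rw [← norm_sq_add_of_inner (inner_proj_orth hp hpq v v), ← add_apply]
    exact pow_le_pow_left₀ (norm_nonneg _) (norm_proj_le hpqp v) 2
  calc ‖u (p v)‖ ^ 2 + ‖w (q v)‖ ^ 2 ≤ (c * ‖p v‖) ^ 2 + (c * ‖q v‖) ^ 2 :=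
        add_le_add (pow_le_pow_left₀ (norm_nonneg _) h1 2) (pow_le_pow_left₀ (norm_nonneg _) h2 2)
    _ = c ^ 2 * (‖p v‖ ^ 2 + ‖q v‖ ^ 2) := by ring
    _ ≤ c ^ 2 * ‖v‖ ^ 2 := mul_le_mul_of_nonneg_left h3 (sq_nonneg c)
    _ = (c * ‖v‖) ^ 2 := by ring

/-- A partition of `e` and one of `1 - z`, `e ≤ z`, together with `z - e` added to one colour. -/
theorem exists_join {e z : H →L[ℂ] H} (he : IsStarProjection e) (hz : IsStarProjection z)
    (heA : e ∈ A) (hzA : z ∈ A) (hez : e * z = e) {r₁ r₂ : ℕ} (hr₂ : 0 < r₂)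
    {p₁ : Fin r₁ → H →L[ℂ] H} {p₂ : Fin r₂ → H →L[ℂ] H} (h₁ : IsPart A e p₁)
    (h₂ : IsPart A (1 - z) p₂) {q₁ q₂ a₁ a₂ x : H →L[ℂ] H} (hq₁ : IsStarProjection q₁)
    (hq₂ : IsStarProjection q₂) (hq₁e : q₁ * e = q₁) (hq₂z : q₂ * (1 - z) = q₂)
    (ha₁s : IsSelfAdjoint a₁) (ha₂s : IsSelfAdjoint a₂) (ha₁ : a₁ * e = a₁)
    (ha₂ : a₂ * (1 - z) = a₂) {c : ℝ} (hc : 0 ≤ c) (h1 : ‖q₁ * (pinch p₁ x - a₁) * q₁‖ ≤ c)
    (h2 : ‖q₂ * (pinch p₂ x - a₂) * q₂‖ ≤ c) {d : ℝ} (hd : 0 ≤ d) (hn₁ : ‖a₁‖ ≤ d)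
    (hn₂ : ‖a₂‖ ≤ d) :
    ∃ p : Fin (r₁ + r₂) → H →L[ℂ] H, IsPart A 1 p ∧ IsStarProjection (q₁ + q₂) ∧
      ‖a₁ + a₂‖ ≤ d ∧ ‖(q₁ + q₂) * (pinch p x - (a₁ + a₂)) * (q₁ + q₂)‖ ≤ c := by
  classical
  have hze : z * e = e := by
    have := congrArg star hez
    simpa only [star_mul, he.isSelfAdjoint.star_eq, hz.isSelfAdjoint.star_eq] using this
  have hf : IsStarProjection (1 - z) := hz.one_sub
  have hd' : IsStarProjection (z - e) := he.sub_of_mul_eq_left hz hez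
  have zero_of : ∀ {u v s t : H →L[ℂ] H}, u * s = u → t * v = v → s * t = 0 → u * v = 0 :=
    fun {u v s t} hu hv hst => by
      rw [← hu, ← hv, mul_assoc, ← mul_assoc s, hst, zero_mul, mul_zero]
  have st : ∀ {u v : H →L[ℂ] H}, IsSelfAdjoint u → IsSelfAdjoint v → u * v = u → v * u = u :=
    fun {u v} hu hv h => by
      have := congrArg star h
      rwa [star_mul, hu.star_eq, hv.star_eq] at this
  have hef : e * (1 - z) = 0 := by rw [mul_sub, mul_one, hez, sub_self]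
  have hfe : (1 - z) * e = 0 := by rw [sub_mul, one_mul, hze, sub_self]
  have hed : e * (z - e) = 0 := by rw [mul_sub, hez, he.isIdempotentElem.eq, sub_self]
  have hde : (z - e) * e = 0 := by rw [sub_mul, hze, he.isIdempotentElem.eq, sub_self]
  have hdf : (z - e) * (1 - z) = 0 := by
    rw [sub_mul, mul_sub, mul_one, hz.isIdempotentElem.eq, sub_self, hef, sub_self]
  have hfd : (1 - z) * (z - e) = 0 := by
    rw [mul_sub, sub_mul 1 z z, one_mul, hz.isIdempotentElem.eq, sub_self, hfe, sub_self]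
  let c₀ : Fin r₂ := ⟨0, hr₂⟩
  let p₂' : Fin r₂ → H →L[ℂ] H := Function.update p₂ c₀ (p₂ c₀ + (z - e))
  have hp₂' : ∀ j, p₂' j = p₂ j + if j = c₀ then z - e else 0 := fun j => by
    rcases eq_or_ne j c₀ with rfl | h <;> simp [p₂', *]
  let p : Fin (r₁ + r₂) → H →L[ℂ] H := fun i => Sum.elim p₁ p₂' (finSumFinEquiv.symm i)
  have hdp : ∀ j, (z - e) * p₂ j = 0 ∧ p₂ j * (z - e) = 0 := fun j =>
    ⟨zero_of hd'.isIdempotentElem.eq (h₂.unit_mul j) hdf,
      zero_of (h₂.mul_unit j) hd'.isIdempotentElem.eq hfd⟩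
  have h12 : ∀ i j, p₁ i * p₂' j = 0 ∧ p₂' j * p₁ i = 0 := fun i j => by
    rw [hp₂']
    refine ⟨?_, ?_⟩ <;> split_ifs
    · rw [mul_add, zero_of (h₁.mul_unit i) (h₂.unit_mul j) hef,
        zero_of (h₁.mul_unit i) hd'.isIdempotentElem.eq hed, add_zero]
    · rw [add_zero, zero_of (h₁.mul_unit i) (h₂.unit_mul j) hef]
    · rw [add_mul, zero_of (h₂.mul_unit j) (h₁.unit_mul i) hfe,
        zero_of hd'.isIdempotentElem.eq (h₁.unit_mul i) hde, add_zero]
    · rw [add_zero, zero_of (h₂.mul_unit j) (h₁.unit_mul i) hfe]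
  have hproj₂ : ∀ j, IsStarProjection (p₂' j) := fun j => by
    rw [hp₂']
    split_ifs
    · refine ⟨?_, (h₂.proj j).isSelfAdjoint.add hd'.isSelfAdjoint⟩
      show (p₂ j + (z - e)) * (p₂ j + (z - e)) = p₂ j + (z - e)
      rw [add_mul, mul_add, mul_add, (h₂.proj j).isIdempotentElem.eq, hd'.isIdempotentElem.eq,
        (hdp j).1, (hdp j).2]
      abel
    · rw [add_zero]; exact h₂.proj j
  have horth₂ : ∀ i j, i ≠ j → p₂' i * p₂' j = 0 := fun i j hij => by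
    rw [hp₂', hp₂']
    split_ifs with hi hj hj
    · exact absurd (hi.trans hj.symm) hij
    · rw [add_zero, add_mul, h₂.orth i j hij, (hdp j).1, add_zero]
    · rw [add_zero, mul_add, h₂.orth i j hij, (hdp i).2, add_zero]
    · rw [add_zero, add_zero, h₂.orth i j hij]
  have hp : IsPart A 1 p := by
    refine ⟨fun i => ?_, fun i => ?_, fun i j hij => ?_, ?_⟩
    · obtain ⟨s, rfl⟩ := finSumFinEquiv.surjective i
      rcases s with a | b <;> simp only [p, Equiv.symm_apply_apply, Sum.elim_inl, Sum.elim_inr]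
      · exact h₁.mem a
      · rw [hp₂']
        split_ifs
        · exact add_mem (h₂.mem b) (sub_mem hzA heA)
        · rw [add_zero]; exact h₂.mem b
    · obtain ⟨s, rfl⟩ := finSumFinEquiv.surjective i
      rcases s with a | b <;> simp only [p, Equiv.symm_apply_apply, Sum.elim_inl, Sum.elim_inr]
      · exact h₁.proj a
      · exact hproj₂ b
    · obtain ⟨s, rfl⟩ := finSumFinEquiv.surjective i
      obtain ⟨t, rfl⟩ := finSumFinEquiv.surjective j
      rcases s with a | b <;> rcases t with a' | b' <;>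
        simp only [p, Equiv.symm_apply_apply, Sum.elim_inl, Sum.elim_inr]
      · exact h₁.orth a a' (fun h => hij (by rw [h]))
      · exact (h12 a b').1
      · exact (h12 a' b).2
      · exact horth₂ b b' (fun h => hij (by rw [h]))
    · rw [Fintype.sum_equiv finSumFinEquiv.symm p (Sum.elim p₁ p₂') fun _ => rfl,
        Fintype.sum_sum_type]
      simp only [Sum.elim_inl, Sum.elim_inr, hp₂', Finset.sum_add_distrib, Finset.sum_ite_eq',
        Finset.mem_univ, if_true, h₁.sum_eq, h₂.sum_eq]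
      abel
  have hq12 : q₁ * q₂ = 0 ∧ q₂ * q₁ = 0 :=
    ⟨zero_of hq₁e (st hq₂.isSelfAdjoint hf.isSelfAdjoint hq₂z) hef,
      zero_of hq₂z (st hq₁.isSelfAdjoint he.isSelfAdjoint hq₁e) hfe⟩
  have hq : IsStarProjection (q₁ + q₂) := by
    refine ⟨?_, hq₁.isSelfAdjoint.add hq₂.isSelfAdjoint⟩
    show (q₁ + q₂) * (q₁ + q₂) = q₁ + q₂
    simp only [add_mul, mul_add, hq₁.isIdempotentElem.eq, hq₂.isIdempotentElem.eq, hq12.1, hq12.2,
      add_zero, zero_add]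
  have eq₁ : e * q₁ = q₁ := st hq₁.isSelfAdjoint he.isSelfAdjoint hq₁e
  have eq₂ : (1 - z) * q₂ = q₂ := st hq₂.isSelfAdjoint hf.isSelfAdjoint hq₂z
  have ea₁ : e * a₁ = a₁ := st ha₁s he.isSelfAdjoint ha₁
  have ea₂ : (1 - z) * a₂ = a₂ := st ha₂s hf.isSelfAdjoint ha₂
  have k1 : ∀ i, (q₁ + q₂) * p₁ i = q₁ * p₁ i ∧ p₁ i * (q₁ + q₂) = p₁ i * q₁ := fun i =>
    ⟨by rw [add_mul, zero_of hq₂z (h₁.unit_mul i) hfe, add_zero],
      by rw [mul_add, zero_of (h₁.mul_unit i) eq₂ hef, add_zero]⟩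
  have k2 : ∀ j, (q₁ + q₂) * p₂' j = q₂ * p₂ j ∧ p₂' j * (q₁ + q₂) = p₂ j * q₂ := fun j => by
    rw [hp₂']
    refine ⟨?_, ?_⟩ <;> split_ifs
    · rw [add_mul, mul_add, mul_add, zero_of hq₁e (h₂.unit_mul j) hef,
        zero_of hq₁e hd'.isIdempotentElem.eq hed, zero_of hq₂z hd'.isIdempotentElem.eq hfd]
      abel
    · rw [add_zero, add_mul, zero_of hq₁e (h₂.unit_mul j) hef, zero_add]
    · rw [mul_add, add_mul, add_mul, zero_of (h₂.mul_unit j) eq₁ hfe,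
        zero_of hd'.isIdempotentElem.eq eq₁ hde, zero_of hd'.isIdempotentElem.eq eq₂ hdf]
      abel
    · rw [add_zero, mul_add, zero_of (h₂.mul_unit j) eq₁ hfe, zero_add]
  refine ⟨p, hp, hq, norm_add_orth_le he hf hef ea₁ ha₁ ea₂ ha₂ hd hn₁ hn₂, ?_⟩
  have hS : (q₁ + q₂) * (pinch p x - (a₁ + a₂)) * (q₁ + q₂) =
      q₁ * (pinch p₁ x - a₁) * q₁ + q₂ * (pinch p₂ x - a₂) * q₂ := by
    have l1 : (q₁ + q₂) * a₁ * (q₁ + q₂) = q₁ * a₁ * q₁ := by
      rw [add_mul q₁ q₂ a₁, zero_of hq₂z ea₁ hfe, add_zero, mul_assoc, mul_add,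
        zero_of ha₁ eq₂ hef, add_zero, ← mul_assoc]
    have l2 : (q₁ + q₂) * a₂ * (q₁ + q₂) = q₂ * a₂ * q₂ := by
      rw [add_mul q₁ q₂ a₂, zero_of hq₁e ea₂ hef, zero_add, mul_assoc, mul_add,
        zero_of ha₂ eq₁ hfe, zero_add, ← mul_assoc]
    have hP : (q₁ + q₂) * pinch p x * (q₁ + q₂) =
        q₁ * pinch p₁ x * q₁ + q₂ * pinch p₂ x * q₂ := by
      simp only [pinch, Finset.mul_sum, Finset.sum_mul]
      rw [Fintype.sum_equiv finSumFinEquiv.symm _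
        (fun s => (q₁ + q₂) * (Sum.elim p₁ p₂' s * x * Sum.elim p₁ p₂' s) * (q₁ + q₂))
        fun _ => rfl, Fintype.sum_sum_type]
      simp only [Sum.elim_inl, Sum.elim_inr]
      congr 1 <;> refine Finset.sum_congr rfl fun i _ => ?_
      · calc (q₁ + q₂) * (p₁ i * x * p₁ i) * (q₁ + q₂)
            = ((q₁ + q₂) * p₁ i) * x * (p₁ i * (q₁ + q₂)) := by simp only [mul_assoc]
          _ = q₁ * p₁ i * x * (p₁ i * q₁) := by rw [(k1 i).1, (k1 i).2]
          _ = _ := by simp only [mul_assoc]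
      · calc (q₁ + q₂) * (p₂' i * x * p₂' i) * (q₁ + q₂)
            = ((q₁ + q₂) * p₂' i) * x * (p₂' i * (q₁ + q₂)) := by simp only [mul_assoc]
          _ = q₂ * p₂ i * x * (p₂ i * q₂) := by rw [(k2 i).1, (k2 i).2]
          _ = _ := by simp only [mul_assoc]
    rw [mul_sub, sub_mul, hP, mul_add _ a₁ a₂, add_mul _ _ (q₁ + q₂), l1, l2]
    simp only [mul_sub, sub_mul]
    abel
  rw [hS]
  refine norm_add_orth_le he hf hef ?_ ?_ ?_ ?_ hc h1 h2
  · simp only [← mul_assoc, eq₁]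
  · rw [mul_assoc, hq₁e]
  · simp only [← mul_assoc, eq₂]
  · rw [mul_assoc, hq₂z]

/-- So-paving of contractions in every semifinite algebra from the tracial statement. -/
theorem paving_of_paves (hA : IsMasa M A) (hξ : IsTraceFamily M ξ) {ε : ℝ} (hε : 0 < ε)
    {r₁ r₂ : ℕ} (hr₂ : 3 / ε ≤ r₂)
    (hcore : ∀ (K : Type u) [NormedAddCommGroup K] [InnerProductSpace ℂ K] [CompleteSpace K]
      (S : Std K), S.Paves ε r₁)
    {x : H →L[ℂ] H} (hxM : x ∈ M) (hx : IsSelfAdjoint x) (hx1 : ‖x‖ ≤ 1) (F : Finset H)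
    {δ : ℝ} (hδ : 0 < δ) :
    ∃ (p : Fin (r₁ + r₂) → H →L[ℂ] H) (a q : H →L[ℂ] H), IsPart A 1 p ∧ a ∈ A ∧
      IsSelfAdjoint a ∧ ‖a‖ ≤ 1 ∧ q ∈ M ∧ IsStarProjection q ∧
      (∀ v ∈ F, ‖(1 - q) v‖ < δ) ∧ ‖q * (pinch p x - a) * q‖ ≤ ε := by
  obtain ⟨z, hzA, hz, -, hzmax, hzapp⟩ :=
    exists_max_family A (fun g => tau ξ g ≠ ⊤) 1 (IsStarProjection.one _)
  obtain ⟨T, hT, hTo, hTz, hTapp⟩ := hzapp F (δ / 4) (by positivity)
  set e := ∑ g ∈ T, g with he'
  have he : IsStarProjection e := isStarProjection_sum T _ (fun g hg => (hT g hg).2.1) hTo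
  have heA : e ∈ A := sum_mem fun g hg => (hT g hg).1
  have hez : e * z = e := by
    rw [he', Finset.sum_mul]
    exact Finset.sum_congr rfl hTz
  have het : tau ξ e ≠ ⊤ := by
    have h1 := tau_sum_orth ξ T id (fun _ => (1 : H →L[ℂ] H)) (fun g hg => (hT g hg).2.1) hTo
    simp only [id, mul_one] at h1
    rw [he', h1]
    exact ENNReal.sum_ne_top.2 fun g hg => (hT g hg).2.2
  have hr0 : 0 < r₂ := by
    have : (0 : ℝ) < r₂ := lt_of_lt_of_le (by positivity) hr₂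
    exact_mod_cast this
  obtain ⟨p₁, a₁, q₁, hp₁, ha₁A, ha₁s, ha₁e, ha₁n, hq₁M, hq₁, hq₁e, hq₁F, h1⟩ :=
    paving_corner hA hξ heA he het hε hcore hxM hx hx1 F (δ := δ / 4) (by positivity)
  have hthin : ∀ g ∈ A, IsStarProjection g → g * (1 - z) = g → tau ξ g ≠ ⊤ → g = 0 := by
    intro g hg hgp hge hgt
    refine hzmax g hg hgp (mul_one g) hgt ?_
    rw [← hge, mul_assoc, sub_mul, one_mul, hz.isIdempotentElem.eq, sub_self, mul_zero]
  obtain ⟨p₂, a₂, q₂, hp₂, ha₂A, ha₂s, ha₂z, ha₂n, hq₂M, hq₂, hq₂z, hq₂F, h2⟩ :=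
    paving_thin hA hξ (sub_mem (one_mem A) hzA) hz.one_sub hthin hxM hx hx1 hε hr₂ F
      (δ := δ / 4) (by positivity)
  obtain ⟨p, hp, hq, ha, hpq⟩ := exists_join (x := x) he hz heA hzA hez hr0 hp₁ hp₂ hq₁ hq₂ hq₁e
    hq₂z ha₁s ha₂s ha₁e ha₂z hε.le h1 h2 zero_le_one ha₁n (ha₂n.trans hx1)
  refine ⟨p, a₁ + a₂, q₁ + q₂, hp, add_mem ha₁A ha₂A, ha₁s.add ha₂s, ha, add_mem hq₁M hq₂M, hq,
    fun v hv => ?_, hpq⟩
  have e1 : (1 - (q₁ + q₂)) v = (z v - e v) + (e v - q₁ v) + ((1 - z) v - q₂ v) := by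
    simp only [sub_apply, add_apply, one_apply_eq_self]
    abel
  rw [e1]
  have h3 : ‖z v - e v‖ < δ / 4 := hTapp v hv
  linarith [norm_add_le ((z v - e v) + (e v - q₁ v)) ((1 - z) v - q₂ v),
    norm_add_le (z v - e v) (e v - q₁ v), hq₁F v hv, hq₂F v hv]

/-- It is enough to pave contractions. -/
theorem soPavable_of_contractions {ε : ℝ} {r : ℕ}
    (h : ∀ y ∈ M, IsSelfAdjoint y → ‖y‖ ≤ 1 → ∀ (F : Finset H) (δ : ℝ), 0 < δ →
      ∃ (p : Fin r → H →L[ℂ] H) (a q : H →L[ℂ] H), IsPart A 1 p ∧ a ∈ A ∧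
        IsSelfAdjoint a ∧ ‖a‖ ≤ 1 ∧ q ∈ M ∧ IsStarProjection q ∧
        (∀ v ∈ F, ‖(1 - q) v‖ < δ) ∧ ‖q * (pinch p y - a) * q‖ ≤ ε)
    {x : H →L[ℂ] H} (hxM : x ∈ M) (hx : IsSelfAdjoint x) : SoPavable M A ε r x := by
  intro F δ hδ
  set c : ℂ := ((‖x‖ : ℝ) : ℂ) with hc
  have hn : ‖c‖ = ‖x‖ := by rw [hc, Complex.norm_real, norm_norm]
  set x' := c⁻¹ • x with hx'
  have hxx : c • x' = x := by
    rcases eq_or_ne x 0 with h | h
    · simp [hx', h]
    · rw [hx', smul_smul, mul_inv_cancel₀ (by simp [hc, h]), one_smul]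
  have hx's : IsSelfAdjoint x' := by
    rw [IsSelfAdjoint, hx', star_smul, hx.star_eq]
    simp [hc]
  have hx'1 : ‖x'‖ ≤ 1 := by
    rw [hx', norm_smul, norm_inv, hn]
    rcases eq_or_ne ‖x‖ 0 with h | h
    · simp [h]
    · rw [inv_mul_cancel₀ h]
  obtain ⟨p, a, q, hp, haA, has, han, hqM, hq, hF, hnorm⟩ :=
    h x' (smul_mem' M hxM c⁻¹) hx's hx'1 F δ hδ
  refine ⟨p, c • a, q, hp, smul_mem' A haA c, ?_, ?_, hqM, hq, hF, ?_⟩
  · rw [IsSelfAdjoint, star_smul, has.star_eq]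
    simp [hc]
  · rw [norm_smul, hn]
    exact mul_le_of_le_one_right (norm_nonneg _) han
  · have hS : pinch p x = c • pinch p x' := by
      conv_lhs => rw [← hxx]
      simp only [pinch, mul_smul_comm, smul_mul_assoc, Finset.smul_sum]
    rw [hS, ← smul_sub, mul_smul_comm, smul_mul_assoc, norm_smul, hn, mul_comm ε]
    exact mul_le_mul_of_nonneg_left hnorm (norm_nonneg _)

/-- Every selfadjoint element of a semifinite algebra is so-pavable with `r₁ + r₂` pieces, when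
tracial algebras in standard form pave with `r₁` pieces and `r₂ ≥ 3/ε`. -/
theorem soPavable_of_paves (hA : IsMasa M A) (hξ : IsTraceFamily M ξ) {ε : ℝ} (hε : 0 < ε)
    {r₁ r₂ : ℕ} (hr₂ : 3 / ε ≤ r₂)
    (hcore : ∀ (K : Type u) [NormedAddCommGroup K] [InnerProductSpace ℂ K] [CompleteSpace K]
      (S : Std K), S.Paves ε r₁)
    {x : H →L[ℂ] H} (hxM : x ∈ M) (hx : IsSelfAdjoint x) : SoPavable M A ε (r₁ + r₂) x :=
  soPavable_of_contractions (fun _ hy hys hy1 F _ hδ =>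
    paving_of_paves hA hξ hε hr₂ hcore hy hys hy1 F hδ) hxM hx

/-- Empty colours can be added. -/
theorem paves_mono {K : Type u} [NormedAddCommGroup K] [InnerProductSpace ℂ K] [CompleteSpace K]
    {S : Std K} {ε : ℝ} {r r' : ℕ} (hr : r ≤ r') (h : S.Paves ε r) : S.Paves ε r' := by
  obtain ⟨d, rfl⟩ := Nat.exists_eq_add_of_le hr
  intro x hx hs h1 δ hδ
  obtain ⟨p, a, q, ⟨hp1, hp2, hp3⟩, ha, has, han, hqM, hq, hqn, hW⟩ := h x hx hs h1 δ hδ
  refine ⟨Fin.append p fun _ => 0, a, q, ⟨fun i => ?_, fun i j hij => ?_, ?_⟩, ha, has, han, hqM,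
    hq, hqn, ?_⟩
  · refine Fin.addCases (fun k => ?_) (fun k => ?_) i
    · rw [Fin.append_left]; exact hp1 k
    · rw [Fin.append_right]; exact ⟨S.A.zero_mem, IsStarProjection.zero _⟩
  · revert hij
    refine Fin.addCases (fun k => ?_) (fun k => ?_) i <;>
      refine Fin.addCases (fun l => ?_) (fun l => ?_) j <;>
      simp only [Fin.append_left, Fin.append_right, zero_mul, mul_zero, implies_true]
    exact fun hij => hp2 k l fun h => hij (by rw [h])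
  · rw [Fin.sum_univ_add]
    simpa using hp3
  · have : P078.pinch (Fin.append p fun _ : Fin d => (0 : Op K)) x = P078.pinch p x := by
      simp [P078.pinch, Fin.sum_univ_add]
    rw [this]
    exact hW

/-- A polynomial bound for semifinite algebras from the tracial core. -/
theorem exists_bound_of_core (h : TracialCore.{u}) :
    ∃ (C : ℝ) (k : ℕ), ∀ (H : Type u) [NormedAddCommGroup H] [InnerProductSpace ℂ H]
      [CompleteSpace H] (M A : VonNeumannAlgebra H) (ι : Type u) (ξ : ι → H),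
      IsMasa M A → IsTraceFamily M ξ → ∀ ε : ℝ, 0 < ε → ε ≤ 1 →
        ∃ r : ℕ, 0 < r ∧ (r : ℝ) ≤ C / ε ^ k ∧
          ∀ x ∈ M, IsSelfAdjoint x → SoPavable M A ε r x := by
  obtain ⟨C, k, hC⟩ := h
  refine ⟨max C 0 + 4, max k 1, fun H _ _ _ M A ι ξ hA hξ ε hε hε1 => ?_⟩
  set r₁ := ⌊max C 0 / ε ^ k⌋₊ with hr₁
  set r₂ := ⌈3 / ε⌉₊ with hr₂
  have hcore : ∀ (K : Type u) [NormedAddCommGroup K] [InnerProductSpace ℂ K] [CompleteSpace K]
      (S : Std K), S.Paves ε r₁ := by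
    intro K _ _ _ S
    obtain ⟨r, hr, hp⟩ := hC K S ε hε hε1
    refine paves_mono (Nat.le_floor (hr.trans ?_)) hp
    exact div_le_div_of_nonneg_right (le_max_left _ _) (by positivity)
  refine ⟨r₁ + r₂, ?_, ?_, fun x hx hxs =>
    soPavable_of_paves hA hξ hε (Nat.le_ceil _) hcore hx hxs⟩
  · have : 0 < r₂ := Nat.ceil_pos.2 (by positivity)
    omega
  · have hk : ε ^ max k 1 ≤ ε ^ k := pow_le_pow_of_le_one hε.le hε1 (le_max_left _ _)
    have h1 : ε ^ max k 1 ≤ ε := by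
      simpa using pow_le_pow_of_le_one hε.le hε1 (le_max_right k 1)
    push_cast
    rw [add_div]
    refine add_le_add ?_ ?_
    · exact (Nat.floor_le (by positivity)).trans
        (div_le_div_of_nonneg_left (le_max_right _ _) (by positivity) hk)
    · refine (Nat.ceil_lt_add_one (by positivity)).le.trans ?_
      have h2 : 3 / ε + 1 ≤ 4 / ε := by
        rw [div_add_one hε.ne', div_le_div_iff_of_pos_right hε]
        linarith
      exact h2.trans (div_le_div_of_nonneg_left (by norm_num) (by positivity) h1)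

end Vale.Agent.P078.General
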