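import Vale.Agent.P078.General.Trace

/-!
# The part of the MASA without projections of finite trace
-/

namespace Vale.Agent.P078.General

open scoped InnerProductSpace Topology ENNReal
open Filter

universe u

variable {H : Type u} [NormedAddCommGroup H] [InnerProductSpace ℂ H] [CompleteSpace H]
variable {ι : Type u} {M A : VonNeumannAlgebra H} {ξ : ι → H} {e : H →L[ℂ] H}

theorem tau_add_orth (ξ : ι → H) {p q : H →L[ℂ] H} (hp : IsStarProjection p) (hpq : p * q = 0)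
    (a b : H →L[ℂ] H) : tau ξ (p * a + q * b) = tau ξ (p * a) + tau ξ (q * b) := by
  unfold tau
  rw [← ENNReal.tsum_add]
  refine tsum_congr fun i => ?_
  rw [← ENNReal.ofReal_add (sq_nonneg _) (sq_nonneg _), add_apply, norm_sq_add_of_inner]
  exact inner_proj_orth hp hpq _ _

theorem IsTraceFamily.tau_pinch_le (hξ : IsTraceFamily M ξ) (hle : ∀ a ∈ A, a ∈ M)
    (Q : Part A e) {y : H →L[ℂ] H} (hy : y ∈ M) : tau ξ (pinch Q.p y) ≤ tau ξ y := by
  have h1 : tau ξ (pinch Q.p y) = ∑ k, tau ξ (Q.p k * (y * Q.p k)) := by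
    simp only [pinch, mul_assoc]
    exact tau_sum_orth ξ _ _ _ (fun k _ => Q.isPart.proj k) fun k _ l _ h => Q.isPart.orth k l h
  rw [h1]
  calc ∑ k, tau ξ (Q.p k * (y * Q.p k)) ≤ ∑ k, tau ξ (Q.p k * star y) := by
        refine Finset.sum_le_sum fun k _ => (tau_proj_mul ξ (Q.isPart.proj k) _).trans ?_
        rw [hξ.tracial _ (mul_mem hy (hle _ (Q.isPart.mem k))), star_mul,
          (Q.isPart.proj k).isSelfAdjoint.star_eq]
    _ = tau ξ (e * star y) := by
        rw [← tau_sum_orth ξ _ _ (fun _ => star y) (fun k _ => Q.isPart.proj k)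
          fun k _ l _ h => Q.isPart.orth k l h, ← Finset.sum_mul, Q.isPart.sum_eq]
    _ ≤ tau ξ y := by
        rw [hξ.tracial y hy]
        exact tau_proj_mul ξ Q.isPart.isStarProjection_unit _

theorem IsTraceFamily.tau_split (hξ : IsTraceFamily M ξ) (hle : ∀ a ∈ A, a ∈ M)
    (Q : Part A e) {u : H →L[ℂ] H} (hu : u ∈ M) (h1 : e * u = u) (h2 : u * e = u) :
    tau ξ (u - pinch Q.p u) + tau ξ (pinch Q.p u) = tau ξ u := by
  have hQ := Q.isPart
  have hm : ∀ k, Q.p k ∈ M := fun k => hle _ (hQ.mem k)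
  have heM : e ∈ M := by rw [← hQ.sum_eq]; exact sum_mem fun k _ => hm k
  have hd : u - pinch Q.p u = ∑ k, Q.p k * (u * (e - Q.p k)) := by
    simp only [mul_sub, Finset.sum_sub_distrib, h2, ← Finset.sum_mul, hQ.sum_eq, h1]
    simp [pinch, mul_assoc]
  have hp : pinch Q.p u = ∑ k, Q.p k * (u * Q.p k) := by simp [pinch, mul_assoc]
  have horth : ∀ k ∈ (Finset.univ : Finset (Fin Q.n)), ∀ l ∈ Finset.univ, k ≠ l →
      Q.p k * Q.p l = 0 := fun k _ l _ h => hQ.orth k l h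
  rw [hd, hp, tau_sum_orth ξ _ _ _ (fun k _ => hQ.proj k) horth,
    tau_sum_orth ξ _ _ _ (fun k _ => hQ.proj k) horth, ← Finset.sum_add_distrib]
  conv_rhs => rw [← h1, ← hQ.sum_eq, Finset.sum_mul]
  rw [tau_sum_orth ξ _ _ (fun _ => u) (fun k _ => hQ.proj k) horth]
  refine Finset.sum_congr rfl fun k _ => ?_
  have hc : IsSelfAdjoint (e - Q.p k) := hQ.isStarProjection_unit.isSelfAdjoint.sub
    (hQ.proj k).isSelfAdjoint
  have heus : e * star u = star u := by
    have := congrArg star h2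
    simpa only [star_mul, hQ.isStarProjection_unit.isSelfAdjoint.star_eq] using this
  rw [hξ.tracial _ (mul_mem (hm k) (mul_mem hu (sub_mem heM (hm k)))),
    hξ.tracial _ (mul_mem (hm k) (mul_mem hu (hm k))), hξ.tracial _ (mul_mem (hm k) hu)]
  simp only [star_mul, hc.star_eq, (hQ.proj k).isSelfAdjoint.star_eq, mul_assoc]
  rw [add_comm, ← tau_add_orth ξ (hQ.proj k), ← add_mul, add_sub_cancel, ← mul_assoc, heus]
  rw [mul_sub, hQ.mul_unit, (hQ.proj k).isIdempotentElem.eq, sub_self]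

omit [CompleteSpace H] in
theorem tau_le_of_wot {κ : Type*} (ξ : ι → H) (U : Ultrafilter κ) (g : κ → H →L[ℂ] H)
    (a : H →L[ℂ] H) (c : ℝ≥0∞)
    (hlim : ∀ v w, Tendsto (fun k => ⟪g k v, w⟫_ℂ) (U : Filter κ) (𝓝 ⟪a v, w⟫_ℂ))
    (hc : ∀ᶠ k in (U : Filter κ), tau ξ (g k) ≤ c) : tau ξ a ≤ c := by
  classical
  rcases eq_or_ne c ⊤ with rfl | hct
  · exact le_top
  unfold tau
  rw [ENNReal.tsum_eq_iSup_sum]
  refine iSup_le fun s => ?_
  rw [← ENNReal.ofReal_sum_of_nonneg fun i _ => sq_nonneg _]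
  refine (ENNReal.ofReal_le_ofReal ?_).trans ENNReal.ofReal_toReal_le
  have hT : Tendsto (fun k => ∑ i ∈ s, (⟪g k (ξ i), a (ξ i)⟫_ℂ).re) (U : Filter κ)
      (𝓝 (∑ i ∈ s, ‖a (ξ i)‖ ^ 2)) := by
    refine tendsto_finset_sum _ fun i _ => ?_
    have e : (⟪a (ξ i), a (ξ i)⟫_ℂ).re = ‖a (ξ i)‖ ^ 2 := inner_self_eq_norm_sq (𝕜 := ℂ) _
    rw [← e]
    exact (Complex.continuous_re.tendsto _).comp (hlim _ _)
  have hb : ∀ᶠ k in (U : Filter κ), ∑ i ∈ s, (⟪g k (ξ i), a (ξ i)⟫_ℂ).re ≤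
      (c.toReal + ∑ i ∈ s, ‖a (ξ i)‖ ^ 2) / 2 := by
    filter_upwards [hc] with k hk
    have h1 : ∑ i ∈ s, ‖g k (ξ i)‖ ^ 2 ≤ c.toReal := by
      have h2 := (ENNReal.sum_le_tsum s).trans hk
      rw [← ENNReal.ofReal_sum_of_nonneg fun i _ => sq_nonneg _] at h2
      have h3 := ENNReal.toReal_mono hct h2
      rwa [ENNReal.toReal_ofReal (Finset.sum_nonneg fun i _ => sq_nonneg _)] at h3
    have h4 : ∀ i, 2 * (⟪g k (ξ i), a (ξ i)⟫_ℂ).re ≤ ‖g k (ξ i)‖ ^ 2 + ‖a (ξ i)‖ ^ 2 := fun i => by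
      have h5 := (Complex.re_le_norm _).trans (norm_inner_le_norm (𝕜 := ℂ) (g k (ξ i)) (a (ξ i)))
      nlinarith [sq_nonneg (‖g k (ξ i)‖ - ‖a (ξ i)‖)]
    have h6 := Finset.sum_le_sum fun i (_ : i ∈ s) => h4 i
    rw [← Finset.mul_sum, Finset.sum_add_distrib] at h6
    linarith
  have := le_of_tendsto hT hb
  linarith

theorem pinch_unit_mul (Q : Part A e) (x : H →L[ℂ] H) :
    e * pinch Q.p x = pinch Q.p x ∧ pinch Q.p x * e = pinch Q.p x :=
  ⟨by simp [pinch, Finset.mul_sum, ← mul_assoc, Q.isPart.unit_mul],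
    by simp [pinch, Finset.sum_mul, mul_assoc, Q.isPart.mul_unit]⟩

/-- Pinchings of finite trace projections become strongly small. -/
theorem exists_small_pinch (hA : IsMasa M A) (hξ : IsTraceFamily M ξ) (heA : e ∈ A)
    (he : IsStarProjection e)
    (hthin : ∀ g ∈ A, IsStarProjection g → g * e = g → tau ξ g ≠ ⊤ → g = 0)
    {f : H →L[ℂ] H} (hfM : f ∈ M) (hf : IsStarProjection f) (hft : tau ξ f ≠ ⊤)
    (F : Finset H) {δ : ℝ} (hδ : 0 < δ) :
    ∃ P : Part A e, ∀ v ∈ F, ‖pinch P.p f v‖ ≤ δ := by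
  obtain ⟨η, hη, hsm⟩ := hξ.small_finset F hδ
  obtain ⟨U, hU⟩ := exists_refining_ultrafilter hA.comm heA he
  obtain ⟨b, hbA, hbsa, hbe, -, hlim⟩ := exists_pinch_limit hA heA he U hU hfM hf.isSelfAdjoint
  have hSM : ∀ Q : Part A e, pinch Q.p f ∈ M := fun Q => Q.isPart.pinch_mem hA.le hfM
  have hbt : tau ξ b ≠ ⊤ := by
    refine ne_top_of_le_ne_top hft ?_
    exact tau_le_of_wot ξ U _ b _ hlim (.of_forall fun Q => hξ.tau_pinch_le hA.le Q hfM)
  have hb0 : b = 0 := by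
    ext v
    have key : ∀ s : ℝ, 0 < s → ‖b v‖ ≤ s * ‖v‖ := by
      intro s hs
      set g := 1 - cut (star b * b) (s ^ 2) with hg
      have hgp : IsStarProjection g := (isStarProjection_cut _ _).one_sub
      have hgA : g ∈ A := sub_mem (one_mem A)
        (cut_mem A (mul_mem (star_mem hbA) hbA) (IsSelfAdjoint.star_mul_self b) _)
      have hgw : ∀ w, ‖g w‖ ≤ ‖b w‖ / s := fun w => norm_sub_cut_le hs w
      have hge : g * e = g := by
        ext w
        have h2 := hgw (e w - w)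
        have h3 : b (e w - w) = 0 := by
          rw [map_sub, sub_eq_zero]
          exact congrArg (fun T : H →L[ℂ] H => T w) hbe
        rw [h3, norm_zero, zero_div, map_sub] at h2
        exact sub_eq_zero.1 (norm_le_zero_iff.1 h2)
      have hgt : tau ξ g ≠ ⊤ := by
        refine ne_top_of_le_ne_top (ENNReal.mul_ne_top ENNReal.ofReal_ne_top hbt)
          (tau_le_of_norm_le ξ (w := b) (c := 1 / s) fun i => ?_)
        rw [one_div_mul_eq_div]
        exact hgw _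
      have hg0 := hthin g hgA hgp hge hgt
      have hc : cut (star b * b) (s ^ 2) v = v :=
        (congrArg (fun T : H →L[ℂ] H => T v) (sub_eq_zero.1 hg0)).symm
      have := norm_cut_sq_le (W := b) hs.le v
      rwa [hc] at this
    refine norm_le_zero_iff.1 (le_of_forall_pos_le_add fun δ' hδ' => ?_)
    have := key (δ' / (‖v‖ + 1)) (by positivity)
    rw [div_mul_eq_mul_div, le_div_iff₀ (by positivity)] at this
    nlinarith [norm_nonneg (b v), norm_nonneg v]
  have hne : Nonempty (Part A e) := ⟨Part.triv heA he⟩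
  set L := ⨅ P : Part A e, tau ξ (pinch P.p f) with hL
  have hLt : L ≠ ⊤ := by
    refine ne_top_of_le_ne_top hft ((iInf_le _ (Part.triv heA he)).trans ?_)
    exact hξ.tau_pinch_le hA.le _ hfM
  obtain ⟨P, hP⟩ := iInf_lt_iff.1 (ENNReal.lt_add_right hLt
    (ENNReal.ofReal_pos.2 hη).ne' : ⨅ P : Part A e, tau ξ (pinch P.p f) < L + ENNReal.ofReal η)
  refine ⟨P, hsm _ (hSM P) ((P.isPart.norm_pinch_le f).trans (opNorm_proj_le_one hf)) ?_⟩
  have hlim' : ∀ v w, Tendsto (fun Q : Part A e => ⟪(pinch P.p f - pinch Q.p f) v, w⟫_ℂ)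
      (U : Filter (Part A e)) (𝓝 ⟪(pinch P.p f - b) v, w⟫_ℂ) := by
    intro v w
    simp only [sub_apply, inner_sub_left]
    exact tendsto_const_nhds.sub (hlim v w)
  have := tau_le_of_wot ξ U _ _ (ENNReal.ofReal η) hlim' (by
    filter_upwards [hU P] with Q hQ
    have hs := hξ.tau_split hA.le Q (hSM P) (pinch_unit_mul P f).1 (pinch_unit_mul P f).2
    rw [Part.pinch_pinch hA.comm hQ] at hs
    have h2 : L ≤ tau ξ (pinch Q.p f) := iInf_le _ Q
    have hQt : tau ξ (pinch Q.p f) ≠ ⊤ :=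
      ne_top_of_le_ne_top hft (hξ.tau_pinch_le hA.le _ hfM)
    refine ENNReal.le_of_add_le_add_right hQt ?_
    rw [hs]
    exact hP.le.trans ((add_le_add_left h2 _).trans (add_comm _ _).le))
  simpa [hb0] using this

theorem norm_cut_half_le {h : H →L[ℂ] H} (hh : IsSelfAdjoint h) (w : H) :
    ‖cut h (1 / 2) w‖ ≤ 2 * ‖w - h w‖ := by
  set u := cut h (1 / 2) w with hu
  have hle := re_inner_le_of_mem_cutSpace hh (cut_mem_cutSpace h (1 / 2) w)
  have hcomm : h u = cut h (1 / 2) (h w) :=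
    congrArg (fun T : H →L[ℂ] H => T w) (commute_cut_self hh _).eq
  have h5 : ‖u - h u‖ ≤ ‖w - h w‖ := by
    rw [hcomm, hu, ← map_sub]
    exact norm_proj_le (isStarProjection_cut h _) _
  have h6 : (⟪u - h u, u⟫_ℂ).re ≤ ‖u - h u‖ * ‖u‖ :=
    (Complex.re_le_norm _).trans (norm_inner_le_norm _ _)
  have hn2 : (⟪u, u⟫_ℂ).re = ‖u‖ ^ 2 := inner_self_eq_norm_sq (𝕜 := ℂ) u
  rw [inner_sub_left, Complex.sub_re, hn2] at h6
  rcases (norm_nonneg u).eq_or_lt with h0 | h0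
  · rw [← h0]; positivity
  · nlinarith [mul_le_mul_of_nonneg_right h5 (norm_nonneg u)]

theorem re_inner_pinch (Q : Part A e) (x : H →L[ℂ] H) (v : H) :
    (⟪pinch Q.p x v, v⟫_ℂ).re = ∑ k, (⟪x (Q.p k v), Q.p k v⟫_ℂ).re := by
  simp only [pinch, sum_apply, sum_inner, Complex.re_sum]
  exact Finset.sum_congr rfl fun k _ => by
    rw [mul_apply_eq_comp, mul_apply_eq_comp, inner_sa (Q.isPart.proj k).isSelfAdjoint]

theorem pinch_sandwich (P : Part A e) {g0 : H →L[ℂ] H} (hc : ∀ i, Commute (P.p i) g0)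
    (f : H →L[ℂ] H) : pinch P.p (g0 * f * g0) = g0 * pinch P.p f * g0 := by
  simp only [pinch, Finset.mul_sum, Finset.sum_mul]
  refine Finset.sum_congr rfl fun i _ => ?_
  calc P.p i * (g0 * f * g0) * P.p i = (P.p i * g0) * f * (g0 * P.p i) := by simp [mul_assoc]
    _ = (g0 * P.p i) * f * (P.p i * g0) := by rw [(hc i).eq]
    _ = _ := by simp [mul_assoc]

theorem sum_norm_sq_le_of_pinch (Q : Part A e) {q h g0 T : H →L[ℂ] H} (hg0 : IsStarProjection g0)
    {t : ℝ} (ht : 0 ≤ t) (hq : ∀ u, ‖q u‖ ^ 2 ≤ 2 * (⟪h u, u⟫_ℂ).re)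
    (hS : pinch Q.p h = pinch Q.p (g0 * T * g0)) (hT : ∀ a, ‖T (g0 a)‖ ≤ t * ‖g0 a‖) (v : H) :
    ∑ k, ‖q (Q.p k v)‖ ^ 2 ≤ 2 * t * ‖v‖ ^ 2 := by
  calc ∑ k, ‖q (Q.p k v)‖ ^ 2 ≤ ∑ k, 2 * (⟪h (Q.p k v), Q.p k v⟫_ℂ).re :=
        Finset.sum_le_sum fun k _ => hq _
    _ = ∑ k, 2 * (⟪(g0 * T * g0) (Q.p k v), Q.p k v⟫_ℂ).re := by
        rw [← Finset.mul_sum, ← Finset.mul_sum, ← re_inner_pinch, ← re_inner_pinch, hS]
    _ ≤ ∑ k, 2 * (t * ‖Q.p k v‖ ^ 2) := by
        refine Finset.sum_le_sum fun k _ => mul_le_mul_of_nonneg_left ?_ zero_le_two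
        generalize Q.p k v = a
        rw [mul_apply_eq_comp, mul_apply_eq_comp, inner_sa hg0.isSelfAdjoint]
        refine ((Complex.re_le_norm _).trans (norm_inner_le_norm _ _)).trans ?_
        calc ‖T (g0 a)‖ * ‖g0 a‖ ≤ t * ‖g0 a‖ * ‖g0 a‖ :=
              mul_le_mul_of_nonneg_right (hT a) (norm_nonneg _)
          _ = t * ‖g0 a‖ ^ 2 := by ring
          _ ≤ t * ‖a‖ ^ 2 := mul_le_mul_of_nonneg_left
              (pow_le_pow_left₀ (norm_nonneg _) (norm_proj_le hg0 a) 2) ht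
    _ = 2 * t * ∑ k, ‖Q.p k v‖ ^ 2 := by
        rw [Finset.mul_sum]
        exact Finset.sum_congr rfl fun k _ => by ring
    _ ≤ 2 * t * ‖v‖ ^ 2 :=
        mul_le_mul_of_nonneg_left (Q.isPart.sum_norm_sq_le v) (by positivity)

/-- The cut of a small pinching. -/
theorem exists_thin_of_small (hA : IsMasa M A) {z f : H →L[ℂ] H} (heA : z ∈ A)
    (he : IsStarProjection z) (hfM : f ∈ M) (hf : IsStarProjection f) (hfe : f * z = f)
    (F : Finset H) {δ : ℝ} (hδ : 0 < δ) {η : ℝ} (hη : 0 < η) (P : Part A z)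
    (hclose : ∀ v ∈ F, ‖z v - f v‖ ≤ δ / 6)
    (hP : ∀ v ∈ F, ‖pinch P.p f v‖ ≤ η / 2 * (δ / 6)) :
    ∃ (q : H →L[ℂ] H) (P : Part A z), q ∈ M ∧ IsStarProjection q ∧ q * z = q ∧
      (∀ v ∈ F, ‖z v - q v‖ ≤ δ) ∧
      ∀ Q : Part A z, Part.Refines Q P → ∀ v, ∑ k, ‖q (Q.p k v)‖ ^ 2 ≤ η * ‖v‖ ^ 2 := by
  have heM := hA.le z heA
  set t := η / 2 with ht
  have ht0 : 0 < t := half_pos hη
  set T := pinch P.p f with hTdef
  have hTsa : IsSelfAdjoint T := by rw [IsSelfAdjoint, P.isPart.star_pinch, hf.isSelfAdjoint.star_eq]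
  have hTM : T ∈ M := P.isPart.pinch_mem hA.le hfM
  have hcz : Commute z T := ((pinch_unit_mul P f).1).trans ((pinch_unit_mul P f).2).symm
  have hcp : ∀ i, Commute (P.p i) T := fun i => P.isPart.commute_pinch i f
  have hcut : ∀ y, Commute y T → Commute y (cut (star T * T) (t ^ 2)) := fun y hy =>
    commute_cut (IsSelfAdjoint.star_mul_self T) ((by rwa [hTsa.star_eq] :
      Commute y (star T)).mul_right hy) _
  set g := cut (star T * T) (t ^ 2) with hgdef
  have hg : IsStarProjection g := isStarProjection_cut _ _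
  have hgM : g ∈ M := cut_mem M (mul_mem (star_mem hTM) hTM) (IsSelfAdjoint.star_mul_self T) _
  have hzg : Commute z g := hcut z hcz
  set g0 := g * z with hg0def
  have hg0 : IsStarProjection g0 := hg.mul he hzg.symm
  have hg0p : ∀ i, Commute (P.p i) g0 := fun i =>
    (hcut _ (hcp i)).mul_right (hA.comm _ (P.isPart.mem i) _ heA)
  have hg0z : g0 * z = g0 := by rw [hg0def, mul_assoc, he.isIdempotentElem.eq]
  have hzg0 : z * g0 = g0 := by
    rw [hg0def, ← mul_assoc, hzg.eq, mul_assoc, he.isIdempotentElem.eq]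
  set h := g0 * f * g0 with hhdef
  have hh : h = star (f * g0) * (f * g0) := by
    rw [star_mul, hg0.isSelfAdjoint.star_eq, hf.isSelfAdjoint.star_eq, mul_assoc, hhdef,
      ← mul_assoc f, hf.isIdempotentElem.eq, mul_assoc]
  have hh0 : 0 ≤ h := hh ▸ star_mul_self_nonneg _
  have hhsa : IsSelfAdjoint h := IsSelfAdjoint.of_nonneg hh0
  have hhM : h ∈ M := mul_mem (mul_mem (mul_mem hgM heM) hfM) (mul_mem hgM heM)
  have hhz : h * z = h := by rw [hhdef, mul_assoc, hg0z]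
  set q := 1 - cut h (1 / 2) with hqdef
  have hq : IsStarProjection q := (isStarProjection_cut _ _).one_sub
  have hqle : ∀ u, ‖q u‖ ^ 2 ≤ 2 * (⟪h u, u⟫_ℂ).re := fun u => by
    have := norm_sub_cut_sq hhsa hh0 (t := 1 / 2) u
    simp only [hqdef, sub_apply, one_apply_eq_self]
    linarith
  have hqz : q * z = q := by
    ext w
    have h1 := hqle (z w - w)
    have h2 : h (z w - w) = 0 := by
      rw [map_sub, sub_eq_zero]
      exact congrArg (fun T : H →L[ℂ] H => T w) hhz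
    rw [h2, inner_zero_left, Complex.zero_re, mul_zero] at h1
    have h3 : ‖q (z w - w)‖ = 0 := by nlinarith [norm_nonneg (q (z w - w))]
    rw [norm_eq_zero, map_sub, sub_eq_zero] at h3
    exact h3
  refine ⟨q, P, sub_mem (one_mem M) (cut_mem M hhM hhsa _), hq, hqz, fun v hv => ?_,
    fun Q hQ v => ?_⟩
  · set w := z v with hw
    set u := cut h (1 / 2) w with hu
    have hzv : z v - q v = u := by
      have : q v = q w := (congrArg (fun T : H →L[ℂ] H => T v) hqz).symm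
      rw [this, hqdef]
      simp [hu, hw]
    have h7 : ‖u‖ ≤ 2 * ‖w - h w‖ := norm_cut_half_le hhsa w
    have hgv : ‖v - g v‖ ≤ δ / 6 := by
      refine (norm_sub_cut_le ht0 v).trans ?_
      rw [div_le_iff₀ ht0]
      calc ‖T v‖ ≤ t * (δ / 6) := hP v hv
        _ = δ / 6 * t := mul_comm _ _
    have hg0v : g0 v = z (g v) := congrArg (fun T : H →L[ℂ] H => T v) hzg.symm.eq
    have hd1 : ‖z v - g0 v‖ ≤ δ / 6 := by
      rw [hg0v, ← map_sub]
      exact (norm_proj_le he _).trans hgv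
    have hzf : IsStarProjection (z - f) := hf.sub_of_mul_eq_left he hfe
    have hd2 : ‖(z - f) (g0 v)‖ ≤ δ / 3 := by
      have e1 : (z - f) (z v) = (z - f) v := by
        show ((z - f) * z) v = _
        rw [sub_mul, he.isIdempotentElem.eq, hfe]
      have e2 : (z - f) (g0 v) = (z - f) v - (z - f) (z v - g0 v) := by
        rw [map_sub (z - f) (z v), e1]
        abel
      rw [e2]
      have h8 : ‖(z - f) v‖ ≤ δ / 6 := by
        rw [sub_apply]
        exact hclose v hv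
      linarith [norm_sub_le ((z - f) v) ((z - f) (z v - g0 v)),
        norm_proj_le hzf (z v - g0 v)]
    have hhw : w - h w = (z v - g0 v) + g0 ((z - f) (g0 v)) := by
      have e3 : h w = g0 (f (g0 v)) := by
        show (h * z) v = _
        rw [hhz]
        rfl
      have e4 : g0 (z (g0 v)) = g0 v := by
        show (g0 * z * g0) v = _
        rw [hg0z, hg0.isIdempotentElem.eq]
      rw [e3, sub_apply z f, map_sub g0, e4]
      simp [hw]
    rw [hzv]
    rw [hhw] at h7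
    linarith [norm_add_le (z v - g0 v) (g0 ((z - f) (g0 v))), norm_proj_le hg0 ((z - f) (g0 v))]
  · have hS : pinch Q.p h = pinch Q.p (g0 * T * g0) := by
      rw [← Part.pinch_pinch hA.comm hQ h, pinch_sandwich P hg0p]
    refine (sum_norm_sq_le_of_pinch Q hg0 ht0.le hqle hS (fun a => norm_cut_sq_le ht0.le (z a)) v).trans_eq ?_
    rw [ht]
    ring

/-- A projection close to `e` whose pinchings are uniformly small in operator norm. -/
theorem exists_thin (hA : IsMasa M A) (hξ : IsTraceFamily M ξ) (heA : e ∈ A)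
    (he : IsStarProjection e)
    (hthin : ∀ g ∈ A, IsStarProjection g → g * e = g → tau ξ g ≠ ⊤ → g = 0)
    (F : Finset H) {δ : ℝ} (hδ : 0 < δ) {η : ℝ} (hη : 0 < η) :
    ∃ (q : H →L[ℂ] H) (P : Part A e), q ∈ M ∧ IsStarProjection q ∧ q * e = q ∧
      (∀ v ∈ F, ‖e v - q v‖ ≤ δ) ∧
      ∀ Q : Part A e, Part.Refines Q P → ∀ v, ∑ k, ‖q (Q.p k v)‖ ^ 2 ≤ η * ‖v‖ ^ 2 := by
  have heM := hA.le e heA
  obtain ⟨z, hzM, hz, hze, hzmax, hzapp⟩ :=
    exists_max_family M (fun g => tau ξ g ≠ ⊤) e he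
  have hez : e * z = z := by
    have := congrArg star hze
    simpa only [star_mul, he.isSelfAdjoint.star_eq, hz.isSelfAdjoint.star_eq] using this
  have hzeq : z = e := by
    by_contra hne
    have hp : IsStarProjection (e - z) := hz.sub_of_mul_eq_left he hze
    obtain ⟨f, hfM, hf, hf0, hfp, hft⟩ := hξ.semifinite (e - z) (sub_mem heM hzM) hp
      (sub_ne_zero.2 (Ne.symm hne))
    refine hf0 (hzmax f hfM hf ?_ hft ?_)
    · calc f * e = f * ((e - z) * e) := by rw [← mul_assoc, hfp]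
        _ = f := by rw [sub_mul, he.isIdempotentElem.eq, hze, hfp]
    · calc f * z = f * ((e - z) * z) := by rw [← mul_assoc, hfp]
        _ = 0 := by rw [sub_mul, hz.isIdempotentElem.eq, hez, sub_self, mul_zero]
  subst hzeq
  obtain ⟨T₀, hT₀, hTo, hTz, hTapp⟩ := hzapp F (δ / 6) (by positivity)
  set f := ∑ g ∈ T₀, g with hfdef
  have hf : IsStarProjection f := isStarProjection_sum T₀ _ (fun g hg => (hT₀ g hg).2.1) hTo
  have hfM : f ∈ M := sum_mem fun g hg => (hT₀ g hg).1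
  have hfe : f * z = f := by
    rw [hfdef, Finset.sum_mul]
    exact Finset.sum_congr rfl hTz
  have hft : tau ξ f ≠ ⊤ := by
    have h1 := tau_sum_orth ξ T₀ id (fun _ => (1 : H →L[ℂ] H)) (fun g hg => (hT₀ g hg).2.1) hTo
    simp only [id, mul_one] at h1
    rw [hfdef, h1]
    exact ENNReal.sum_ne_top.2 fun g hg => (hT₀ g hg).2.2
  obtain ⟨P, hP⟩ := exists_small_pinch hA hξ heA he hthin hfM hf hft F
    (δ := η / 2 * (δ / 6)) (by positivity)
  exact exists_thin_of_small hA heA he hfM hf hfe F hδ hη P (fun v hv => (hTapp v hv).le) hP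

/-- Projections with strongly small pinchings give projections with uniformly small pinchings. -/
theorem exists_thin_of_pinch (hA : IsMasa M A) (heA : e ∈ A) (he : IsStarProjection e)
    (hsmall : ∀ (F : Finset H) (δ : ℝ), 0 < δ → ∃ (f : H →L[ℂ] H) (P : Part A e), f ∈ M ∧
      IsStarProjection f ∧ f * e = f ∧ ∀ v ∈ F, ‖e v - f v‖ ≤ δ ∧ ‖pinch P.p f v‖ ≤ δ)
    (F : Finset H) (δ η : ℝ) (hδ : 0 < δ) (hη : 0 < η) :
    ∃ (q : H →L[ℂ] H) (P : Part A e), q ∈ M ∧ IsStarProjection q ∧ q * e = q ∧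
      (∀ v ∈ F, ‖e v - q v‖ ≤ δ) ∧
      ∀ Q : Part A e, Part.Refines Q P → ∀ v, ∑ k, ‖q (Q.p k v)‖ ^ 2 ≤ η * ‖v‖ ^ 2 := by
  obtain ⟨f, P, hfM, hf, hfe, hF⟩ :=
    hsmall F (min (δ / 6) (η / 2 * (δ / 6))) (lt_min (by positivity) (by positivity))
  exact exists_thin_of_small hA heA he hfM hf hfe F hδ hη P
    (fun v hv => (hF v hv).1.trans (min_le_left _ _))
    (fun v hv => (hF v hv).2.trans (min_le_right _ _))

end Vale.Agent.P078.General
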