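import Vale.Agent.P078.General.Part

/-!
# Weak limits of pinchings
-/

namespace Vale.Agent.P078.General

open scoped InnerProductSpace Topology
open Filter

universe u

variable {H : Type u} [NormedAddCommGroup H] [InnerProductSpace ℂ H] [CompleteSpace H]

theorem nonneg_of_re_inner {S : H →L[ℂ] H} (hS : IsSelfAdjoint S)
    (h : ∀ v, 0 ≤ (⟪S v, v⟫_ℂ).re) : 0 ≤ S :=
  (ContinuousLinearMap.nonneg_iff_isPositive S).2 (ContinuousLinearMap.isPositive_def'.2 ⟨hS, h⟩)

theorem norm_sa_le {S : H →L[ℂ] H} (hS : IsSelfAdjoint S) {η : ℝ} (hη : 0 ≤ η)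
    (h0 : ∀ v, 0 ≤ (⟪S v, v⟫_ℂ).re) (h1 : ∀ v, (⟪S v, v⟫_ℂ).re ≤ η * ‖v‖ ^ 2) : ‖S‖ ≤ η := by
  have hp : 0 ≤ S := nonneg_of_re_inner hS h0
  have hs : IsSelfAdjoint ((η : ℂ) • (1 : H →L[ℂ] H) - S) := by
    refine IsSelfAdjoint.sub ?_ hS
    simp [IsSelfAdjoint, star_smul]
  have hle : S ≤ (η : ℂ) • (1 : H →L[ℂ] H) := by
    rw [← sub_nonneg]
    refine nonneg_of_re_inner hs fun v => ?_
    have hn2 : (⟪v, v⟫_ℂ).re = ‖v‖ ^ 2 := inner_self_eq_norm_sq (𝕜 := ℂ) v
    simp only [sub_apply, smul_apply, one_apply_eq_self, inner_sub_left, inner_smul_left,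
      Complex.sub_re, Complex.conj_ofReal, Complex.re_ofReal_mul, hn2]
    linarith [h1 v]
  refine (CStarAlgebra.norm_le_norm_of_nonneg_of_le hp hle).trans ?_
  rw [norm_smul, Complex.norm_real, Real.norm_of_nonneg hη]
  exact (mul_le_mul_of_nonneg_left ContinuousLinearMap.norm_id_le hη).trans (mul_one η).le

theorem cut_mul_cut {T : H →L[ℂ] H} (hT : IsSelfAdjoint T) {s t : ℝ} (h : s < t) :
    cut T t * cut T s = cut T s := by
  ext v
  set u := cut T s v with hu
  show cut T t u = u
  set w := u - cut T t u with hw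
  have hidt : cut T t (cut T t u) = cut T t u :=
    congrArg (fun f : H →L[ℂ] H => f u) (isStarProjection_cut T t).isIdempotentElem.eq
  have hwt : cut T t w = 0 := by rw [hw, map_sub, hidt, sub_self]
  have hws : w ∈ cutSpace T s := by
    have hc : cut T s (cut T t u) = cut T t (cut T s u) :=
      congrArg (fun f : H →L[ℂ] H => f u)
        (commute_cut hT (commute_cut_self hT s).symm t).eq
    have hids : cut T s u = u :=
      congrArg (fun f : H →L[ℂ] H => f v) (isStarProjection_cut T s).isIdempotentElem.eq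
    have : cut T s w = w := by rw [hw, map_sub, hc, hids]
    rw [← this]
    exact cut_mem_cutSpace T s w
  have h1 := le_re_inner_of_cut_eq_zero hT hwt
  have h2 := re_inner_le_of_mem_cutSpace hT hws
  have h3 : ‖w‖ ^ 2 ≤ 0 := by nlinarith [sq_nonneg ‖w‖]
  have h4 : ‖w‖ = 0 := by nlinarith [norm_nonneg w]
  exact (sub_eq_zero.1 (norm_eq_zero.1 h4)).symm

omit [CompleteSpace H] in
theorem abs_re_inner_le (T : H →L[ℂ] H) (v : H) : |(⟪T v, v⟫_ℂ).re| ≤ ‖T‖ * ‖v‖ ^ 2 := by
  refine (Complex.abs_re_le_norm _).trans ((norm_inner_le_norm _ _).trans ?_)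
  rw [pow_two, ← mul_assoc]
  exact mul_le_mul_of_nonneg_right (T.le_opNorm v) (norm_nonneg _)

theorem cut_eq_zero {T : H →L[ℂ] H} (hT : IsSelfAdjoint T) {t : ℝ} (h : t < -‖T‖) :
    cut T t = 0 := by
  ext v
  have h1 := re_inner_le_of_mem_cutSpace hT (cut_mem_cutSpace T t v)
  have h2 := (abs_le.1 (abs_re_inner_le T (cut T t v))).1
  have h3 : ‖cut T t v‖ ^ 2 ≤ 0 := by nlinarith [sq_nonneg ‖cut T t v‖]
  have h4 : ‖cut T t v‖ = 0 := by nlinarith [norm_nonneg (cut T t v)]
  simpa using norm_eq_zero.1 h4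

theorem cut_eq_one {T : H →L[ℂ] H} (hT : IsSelfAdjoint T) {t : ℝ} (h : ‖T‖ < t) :
    cut T t = 1 := by
  ext v
  show cut T t v = v
  set w := v - cut T t v with hw
  have hidt : cut T t (cut T t v) = cut T t v :=
    congrArg (fun f : H →L[ℂ] H => f v) (isStarProjection_cut T t).isIdempotentElem.eq
  have hwt : cut T t w = 0 := by rw [hw, map_sub, hidt, sub_self]
  have h1 := le_re_inner_of_cut_eq_zero hT hwt
  have h2 := (abs_le.1 (abs_re_inner_le T w)).2
  have h3 : ‖w‖ ^ 2 ≤ 0 := by nlinarith [sq_nonneg ‖w‖]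
  have h4 : ‖w‖ = 0 := by nlinarith [norm_nonneg w]
  exact (sub_eq_zero.1 (norm_eq_zero.1 h4)).symm

/-- Approximation of a selfadjoint element by combinations of a spectral partition. -/
theorem exists_step_approx' (A : VonNeumannAlgebra H) {b : H →L[ℂ] H} (hb : b ∈ A)
    (hsa : IsSelfAdjoint b) {η : ℝ} (hη : 0 < η) :
    ∃ (N : ℕ) (d : Fin N → H →L[ℂ] H) (c : Fin N → ℝ), IsPart A 1 d ∧
      (∀ y, Commute y b → ∀ j, Commute y (d j)) ∧
      ‖b - ∑ j, (c j : ℂ) • d j‖ ≤ η := by
  obtain ⟨N, hN⟩ := exists_nat_gt ((2 * ‖b‖ + 2) / η)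
  rw [div_lt_iff₀ hη] at hN
  set t : ℕ → ℝ := fun j => -‖b‖ - 1 + j * η with ht
  set g : ℕ → H →L[ℂ] H := fun j => cut b (t j) with hg
  have hmono : ∀ i j : ℕ, i ≤ j → g j * g i = g i ∧ g i * g j = g i := by
    intro i j hij
    have hj : g j * g i = g i := by
      rcases eq_or_lt_of_le hij with rfl | hlt
      · exact (isStarProjection_cut b _).isIdempotentElem.eq
      · refine cut_mul_cut hsa ?_
        simp only [ht]
        have : (i : ℝ) < j := by exact_mod_cast hlt
        nlinarith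
    refine ⟨hj, ?_⟩
    have := congrArg star hj
    simpa only [star_mul, hg, (isStarProjection_cut b _).isSelfAdjoint.star_eq] using this
  have g0 : g 0 = 0 := cut_eq_zero hsa (by simp [ht])
  have gN : g N = 1 := cut_eq_one hsa (by simp only [ht]; linarith)
  have gmem : ∀ j, g j ∈ A := fun j => cut_mem A hb hsa _
  set d : Fin N → H →L[ℂ] H := fun j => g (j + 1) - g j with hd
  have hdsum : ∑ j, d j = 1 := by
    have := Fin.sum_univ_eq_sum_range (fun j => g (j + 1) - g j) N
    rw [hd, this, Finset.sum_range_sub, gN, g0, sub_zero]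
  have hpd : IsPart A 1 d := by
    refine ⟨fun j => sub_mem (gmem _) (gmem _), fun j => ?_, fun i j hij => ?_, hdsum⟩
    · have h1 := hmono j (j + 1) (Nat.le_succ _)
      refine ⟨?_, ((isStarProjection_cut b _).isSelfAdjoint.sub
        (isStarProjection_cut b _).isSelfAdjoint)⟩
      show d j * d j = d j
      have e1 : g (j + 1) * g (j + 1) = g (j + 1) :=
        (isStarProjection_cut b _).isIdempotentElem.eq
      have e2 : g j * g j = g j := (isStarProjection_cut b _).isIdempotentElem.eq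
      simp only [hd, sub_mul, mul_sub, h1.1, h1.2, e1, e2]
      abel
    · rcases lt_or_gt_of_ne hij with h | h
      · have h' : (i : ℕ) + 1 ≤ j := h
        simp only [hd, sub_mul, mul_sub, (hmono _ _ h').2, (hmono _ _ (h'.trans (Nat.le_succ _))).2,
          (hmono _ _ (Nat.le_of_succ_le h')).2,
          (hmono _ _ ((Nat.le_of_succ_le h').trans (Nat.le_succ _))).2]
        abel
      · have h' : (j : ℕ) + 1 ≤ i := h
        simp only [hd, sub_mul, mul_sub, (hmono _ _ h').1, (hmono _ _ (h'.trans (Nat.le_succ _))).1,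
          (hmono _ _ (Nat.le_of_succ_le h')).1,
          (hmono _ _ ((Nat.le_of_succ_le h').trans (Nat.le_succ _))).1]
        abel
  refine ⟨N, d, fun j => t j, hpd,
    fun y hy j => (commute_cut hsa hy _).sub_right (commute_cut hsa hy _), ?_⟩
  refine ContinuousLinearMap.opNorm_le_bound _ hη.le fun v => ?_
  have hcomm : ∀ j, Commute b (d j) := fun j =>
    (commute_cut_self hsa _).sub_right (commute_cut_self hsa _)
  have hblock : ∀ j : Fin N, ‖(b - (t j : ℂ) • 1) (d j v)‖ ≤ η * ‖d j v‖ := by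
    intro j
    set S := d j * (b - (t j : ℂ) • 1) * d j with hS
    have hSsa : IsSelfAdjoint S := by
      have h1 : IsSelfAdjoint (b - (t j : ℂ) • (1 : H →L[ℂ] H)) := isSelfAdjoint_shift hsa _
      have := h1.conjugate (d j)
      rwa [(hpd.proj j).isSelfAdjoint.star_eq] at this
    have form : ∀ w, (⟪S w, w⟫_ℂ).re =
        (⟪b (d j w), d j w⟫_ℂ).re - t j * ‖d j w‖ ^ 2 := by
      intro w
      have hn2 : (⟪d j w, d j w⟫_ℂ).re = ‖d j w‖ ^ 2 := inner_self_eq_norm_sq (𝕜 := ℂ) _
      simp only [hS, mul_apply_eq_comp]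
      rw [inner_sa (hpd.proj j).isSelfAdjoint]
      simp only [sub_apply, smul_apply, one_apply_eq_self, inner_sub_left, inner_smul_left,
        Complex.sub_re, Complex.conj_ofReal, Complex.re_ofReal_mul, hn2]
    have hsub : ∀ w, d j w ∈ cutSpace b (t (j + 1)) ∧ cut b (t j) (d j w) = 0 := by
      intro w
      have h1 := hmono j (j + 1) (Nat.le_succ _)
      have e1 : g (j + 1) * d j = d j := by
        have e1 : g (j + 1) * g (j + 1) = g (j + 1) :=
          (isStarProjection_cut b _).isIdempotentElem.eq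
        simp only [hd, mul_sub, e1, h1.1]
      have e2 : g j * d j = 0 := by
        have e2 : g j * g j = g j := (isStarProjection_cut b _).isIdempotentElem.eq
        simp only [hd, mul_sub, e2, h1.2, sub_self]
      constructor
      · have : d j w = cut b (t (j + 1)) (d j w) :=
          (congrArg (fun f : H →L[ℂ] H => f w) e1).symm
        rw [this]
        exact cut_mem_cutSpace _ _ _
      · exact congrArg (fun f : H →L[ℂ] H => f w) e2
    have ht1 : t ((j : ℕ) + 1) = t j + η := by simp only [ht]; push_cast; ring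
    have hlo : ∀ w, 0 ≤ (⟪S w, w⟫_ℂ).re := fun w => by
      rw [form]
      linarith [le_re_inner_of_cut_eq_zero hsa (hsub w).2]
    have hhi : ∀ w, (⟪S w, w⟫_ℂ).re ≤ η * ‖w‖ ^ 2 := fun w => by
      rw [form]
      have h2 := re_inner_le_of_mem_cutSpace hsa (hsub w).1
      rw [ht1] at h2
      have h3 := pow_le_pow_left₀ (norm_nonneg _) (norm_proj_le (hpd.proj j) w) 2
      nlinarith [mul_le_mul_of_nonneg_left h3 hη.le]
    have hn := norm_sa_le hSsa hη.le hlo hhi
    have hidem : d j (d j v) = d j v :=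
      congrArg (fun f : H →L[ℂ] H => f v) (hpd.proj j).isIdempotentElem.eq
    have hb' : b (d j v) = d j (b v) := congrArg (fun f : H →L[ℂ] H => f v) (hcomm j).eq
    have key : (b - (t j : ℂ) • 1) (d j v) = S (d j v) := by
      simp only [hS, mul_apply_eq_comp, hidem]
      simp only [sub_apply, smul_apply, one_apply_eq_self, map_sub, map_smul, hidem, hb']
      have hidem2 : d j (d j (b v)) = d j (b v) :=
        congrArg (fun f : H →L[ℂ] H => f (b v)) (hpd.proj j).isIdempotentElem.eq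
      rw [hidem2]
    rw [key]
    exact (S.le_opNorm _).trans (mul_le_mul_of_nonneg_right hn (norm_nonneg _))
  have hsplit : (b - ∑ j : Fin N, (t j : ℂ) • d j) v = ∑ j : Fin N, d j ((b - (t j : ℂ) • 1) v) := by
    simp only [sub_apply, sum_apply, smul_apply, one_apply_eq_self, map_sub, map_smul,
      Finset.sum_sub_distrib]
    rw [← sum_apply, hdsum]
    simp
  refine le_of_pow_le_pow_left₀ two_ne_zero (by positivity) ?_
  rw [hsplit, hpd.norm_sq_sum_apply fun j : Fin N => (b - (t j : ℂ) • 1) v, mul_pow]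
  calc ∑ j : Fin N, ‖d j ((b - (t j : ℂ) • 1) v)‖ ^ 2 ≤ ∑ j, η ^ 2 * ‖d j v‖ ^ 2 := by
        refine Finset.sum_le_sum fun j _ => ?_
        rw [← mul_pow]
        refine pow_le_pow_left₀ (norm_nonneg _) ?_ 2
        have hc : d j ((b - (t j : ℂ) • 1) v) = (b - (t j : ℂ) • 1) (d j v) := by
          have := congrArg (fun f : H →L[ℂ] H => f v) (hcomm j).eq
          simp only [mul_apply_eq_comp] at this
          simp [map_sub, this]
        rw [hc]
        exact hblock j
    _ ≤ η ^ 2 * ‖v‖ ^ 2 := by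
        rw [← Finset.mul_sum]
        exact mul_le_mul_of_nonneg_left (hpd.sum_norm_sq_le v) (sq_nonneg _)

theorem exists_step_approx (A : VonNeumannAlgebra H) {b : H →L[ℂ] H} (hb : b ∈ A)
    (hsa : IsSelfAdjoint b) {η : ℝ} (hη : 0 < η) :
    ∃ (N : ℕ) (d : Fin N → H →L[ℂ] H) (c : Fin N → ℝ), IsPart A 1 d ∧
      ‖b - ∑ j, (c j : ℂ) • d j‖ ≤ η :=
  let ⟨N, d, c, hd, _, hn⟩ := exists_step_approx' A hb hsa hη
  ⟨N, d, c, hd, hn⟩

theorem commute_of_commute_proj (A : VonNeumannAlgebra H) {y : H →L[ℂ] H}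
    (h : ∀ g ∈ A, IsStarProjection g → Commute g y) {a : H →L[ℂ] H} (ha : a ∈ A) :
    Commute a y := by
  have key : ∀ b ∈ A, IsSelfAdjoint b → Commute b y := by
    intro b hb hsa
    have hz : ∀ η : ℝ, 0 < η → ‖b * y - y * b‖ ≤ η * (2 * ‖y‖) := by
      intro η hη
      obtain ⟨N, d, c, hd, hn⟩ := exists_step_approx A hb hsa hη
      set s := ∑ j, (c j : ℂ) • d j with hs
      have hsy : Commute s y := Commute.sum_left _ _ _ fun j _ =>
        ((h _ (hd.mem j) (hd.proj j)).smul_left _)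
      have : b * y - y * b = (b - s) * y - y * (b - s) := by
        rw [sub_mul, mul_sub, hsy.eq]; abel
      rw [this]
      refine (norm_sub_le _ _).trans ?_
      calc ‖(b - s) * y‖ + ‖y * (b - s)‖ ≤ ‖b - s‖ * ‖y‖ + ‖y‖ * ‖b - s‖ :=
            add_le_add (norm_mul_le _ _) (norm_mul_le _ _)
        _ ≤ η * (2 * ‖y‖) := by nlinarith [norm_nonneg y]
    have h0 : ‖b * y - y * b‖ = 0 := by
      by_contra hne
      have hpos : 0 < ‖b * y - y * b‖ := lt_of_le_of_ne (norm_nonneg _) (Ne.symm hne)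
      have h2 := hz (‖b * y - y * b‖ / (2 * ‖y‖ + 1) / 2) (by positivity)
      have h3 : ‖b * y - y * b‖ / (2 * ‖y‖ + 1) / 2 * (2 * ‖y‖) ≤ ‖b * y - y * b‖ / 2 := by
        rw [div_div, div_mul_eq_mul_div, div_le_div_iff₀ (by positivity) two_pos]
        nlinarith [norm_nonneg y]
      linarith
    exact sub_eq_zero.1 (norm_eq_zero.1 h0)
  rw [← realPart_add_I_smul_imaginaryPart a]
  refine (key _ ?_ (realPart a).2).add_left ((key _ ?_ (imaginaryPart a).2).smul_left _)
  · rw [realPart_apply_coe, ← Complex.coe_smul]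
    exact smul_mem' A (add_mem ha (star_mem ha)) _
  · rw [imaginaryPart_apply_coe, ← Complex.coe_smul]
    exact smul_mem' A (smul_mem' A (sub_mem ha (star_mem ha)) _) _

theorem exists_wot_limit {ι : Type*} (U : Ultrafilter ι) (f : ι → H →L[ℂ] H) {C : ℝ}
    (hf : ∀ i, ‖f i‖ ≤ C) :
    ∃ a : H →L[ℂ] H, (∀ v w, Tendsto (fun i => ⟪f i v, w⟫_ℂ) (U : Filter ι) (𝓝 ⟪a v, w⟫_ℂ)) ∧
      ‖a‖ ≤ C := by
  have hb : ∀ v w i, ‖⟪f i v, w⟫_ℂ‖ ≤ C * ‖v‖ * ‖w‖ := fun v w i =>
    (norm_inner_le_norm _ _).trans (mul_le_mul_of_nonneg_right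
      (((f i).le_opNorm v).trans (mul_le_mul_of_nonneg_right (hf i) (norm_nonneg _)))
      (norm_nonneg _))
  have hlim : ∀ v w, ∃ L, ‖L‖ ≤ C * ‖v‖ * ‖w‖ ∧
      Tendsto (fun i => ⟪f i v, w⟫_ℂ) (U : Filter ι) (𝓝 L) := by
    intro v w
    obtain ⟨L, hL, hL2⟩ :=
      (isCompact_closedBall (0 : ℂ) (C * ‖v‖ * ‖w‖)).ultrafilter_le_nhds
        (U.map fun i => ⟪f i v, w⟫_ℂ)
        (le_principal_iff.2 (Filter.mem_map.2
          (univ_mem' fun i => mem_closedBall_zero_iff.2 (hb v w i))))
    exact ⟨L, by simpa using hL, hL2⟩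
  choose L hLb hL using hlim
  have uniq : ∀ v w l, Tendsto (fun i => ⟪f i v, w⟫_ℂ) (U : Filter ι) (𝓝 l) → L v w = l :=
    fun v w l hl => tendsto_nhds_unique (hL v w) hl
  let B : H →ₗ⋆[ℂ] H →ₗ[ℂ] ℂ := LinearMap.mk₂'ₛₗ (starRingEnd ℂ) (RingHom.id ℂ) L
    (fun v v' w => uniq _ _ _ (by simpa [inner_add_left] using (hL v w).add (hL v' w)))
    (fun c v w => uniq _ _ _ (by
      simpa [inner_smul_left, mul_comm] using (hL v w).const_mul (starRingEnd ℂ c)))
    (fun v w w' => uniq _ _ _ (by simpa [inner_add_right] using (hL v w).add (hL v w')))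
    (fun c v w => uniq _ _ _ (by simpa [inner_smul_right] using (hL v w).const_mul c))
  let Bc := B.mkContinuous₂ C fun v w => hLb v w
  refine ⟨InnerProductSpace.continuousLinearMapOfBilin Bc, fun v w => ?_, ?_⟩
  · rw [InnerProductSpace.continuousLinearMapOfBilin_apply]
    exact hL v w
  · obtain ⟨i, -⟩ := U.nonempty_of_mem univ_mem
    have hC : 0 ≤ C := (norm_nonneg _).trans (hf i)
    refine ContinuousLinearMap.opNorm_le_bound _ hC fun v => ?_
    set u := InnerProductSpace.continuousLinearMapOfBilin Bc v with hu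
    have h1 : ‖u‖ ^ 2 ≤ C * ‖v‖ * ‖u‖ := by
      have e : ⟪u, u⟫_ℂ = L v u := InnerProductSpace.continuousLinearMapOfBilin_apply Bc v u
      have := hLb v u
      rw [← e, inner_self_eq_norm_sq_to_K] at this
      simpa using this
    rcases (norm_nonneg u).eq_or_lt with h0 | h0
    · rw [← h0]; positivity
    · exact le_of_mul_le_mul_right (by rw [← pow_two]; exact h1) h0

variable {A : VonNeumannAlgebra H} {e : H →L[ℂ] H}

theorem exists_refining_ultrafilter (hc : ∀ a ∈ A, ∀ b ∈ A, Commute a b) (heA : e ∈ A)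
    (he : IsStarProjection e) :
    ∃ U : Ultrafilter (Part A e), ∀ P, {Q | Part.Refines Q P} ∈ U := by
  let F : Filter (Part A e) := ⨅ P, 𝓟 {Q | Part.Refines Q P}
  have : Nonempty (Part A e) := ⟨Part.triv heA he⟩
  have : F.NeBot := by
    refine iInf_neBot_of_directed' (fun P Q => ⟨Part.inf hc P Q, ?_, ?_⟩) fun P => ?_
    · exact le_principal_iff.2 fun R hR =>
        Part.refines_trans hR (Part.inf_refines_left hc P Q)
    · exact le_principal_iff.2 fun R hR =>
        Part.refines_trans hR (Part.inf_refines_right hc P Q)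
    · exact principal_neBot_iff.2 ⟨P, Part.refines_refl P⟩
  exact ⟨Ultrafilter.of F, fun P => Ultrafilter.of_le F (mem_iInf_of_mem P (mem_principal_self _))⟩

theorem exists_pinch_limit {M : VonNeumannAlgebra H} (hA : IsMasa M A) (heA : e ∈ A)
    (he : IsStarProjection e) (U : Ultrafilter (Part A e))
    (hU : ∀ P, {Q | Part.Refines Q P} ∈ U) {x : H →L[ℂ] H} (hxM : x ∈ M)
    (hx : IsSelfAdjoint x) :
    ∃ a ∈ A, IsSelfAdjoint a ∧ a * e = a ∧ ‖a‖ ≤ ‖x‖ ∧
      ∀ v w, Tendsto (fun Q => ⟪pinch Q.p x v, w⟫_ℂ) (U : Filter (Part A e)) (𝓝 ⟪a v, w⟫_ℂ) := by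
  obtain ⟨a, ha, hn⟩ :=
    exists_wot_limit U (fun Q : Part A e => pinch Q.p x) (C := ‖x‖) fun Q =>
      Q.isPart.norm_pinch_le x
  have trans' : ∀ (y : H →L[ℂ] H), (∀ᶠ Q in (U : Filter (Part A e)), Commute y (pinch Q.p x)) →
      Commute y a := by
    intro y hy
    refine ContinuousLinearMap.ext fun v => ext_inner_right ℂ fun w => ?_
    simp only [mul_apply_eq_comp]
    have h2 := ha (y v) w
    have h3 : Tendsto (fun Q : Part A e => ⟪y (pinch Q.p x v), w⟫_ℂ)
        (U : Filter (Part A e)) (𝓝 ⟪y (a v), w⟫_ℂ) := by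
      simpa only [← ContinuousLinearMap.adjoint_inner_right] using
        ha v (ContinuousLinearMap.adjoint y w)
    refine (tendsto_nhds_unique (h2.congr' ?_) h3).symm
    filter_upwards [hy] with Q hQ
    have e1 := congrArg (fun f : H →L[ℂ] H => f v) hQ.eq
    simp only [mul_apply_eq_comp] at e1
    rw [e1]
  have haM : a ∈ M := mem_of_commute_commutant M fun y hy => trans' y <| .of_forall fun Q =>
    (VonNeumannAlgebra.mem_commutant_iff.1 hy _ (Q.isPart.pinch_mem hA.le hxM)).symm
  have hE : ∀ Q : Part A e, e * pinch Q.p x = pinch Q.p x ∧ pinch Q.p x * e = pinch Q.p x :=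
    fun Q => ⟨by simp [pinch, Finset.mul_sum, ← mul_assoc, Q.isPart.unit_mul],
      by simp [pinch, Finset.sum_mul, mul_assoc, Q.isPart.mul_unit]⟩
  have hae : a * e = a := by
    refine ContinuousLinearMap.ext fun v => ext_inner_right ℂ fun w => ?_
    refine tendsto_nhds_unique ((ha (e v) w).congr' (.of_forall fun Q => ?_)) (ha v w)
    exact congrArg (fun T : H →L[ℂ] H => ⟪T v, w⟫_ℂ) (hE Q).2
  have hproj : ∀ g ∈ A, IsStarProjection g → Commute g a := by
    intro g hg hgp
    have hge : Commute g e := hA.comm g hg e heA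
    let P : Part A e :=
      { n := 2
        p := ![g * e, (1 - g) * e]
        isPart := by
          refine ⟨?_, ?_, ?_, ?_⟩
          · intro i; fin_cases i
            · exact mul_mem hg heA
            · exact mul_mem (sub_mem (one_mem A) hg) heA
          · intro i; fin_cases i
            · exact hgp.mul he hge
            · exact hgp.one_sub.mul he ((Commute.one_left e).sub_left hge)
          · have h1 : g * e * ((1 - g) * e) = 0 := by
              rw [mul_assoc, ← mul_assoc e, ((Commute.one_left e).sub_left hge).symm.eq,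
                mul_assoc, ← mul_assoc, mul_sub, mul_one, hgp.isIdempotentElem.eq, sub_self,
                zero_mul]
            have h2 : (1 - g) * e * (g * e) = 0 := by
              rw [mul_assoc, ← mul_assoc e, hge.symm.eq, mul_assoc, ← mul_assoc, sub_mul, one_mul,
                hgp.isIdempotentElem.eq, sub_self, zero_mul]
            intro i j hij
            fin_cases i <;> fin_cases j <;> first | exact absurd rfl hij | exact h1 | exact h2
          · simp [Fin.sum_univ_two, sub_mul] }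
    refine trans' g (by
      filter_upwards [hU P] with Q hQ
      have h1 : Commute (g * e) (pinch Q.p x) := Part.commute_pinch_of_refines hA.comm hQ 0 x
      show g * pinch Q.p x = pinch Q.p x * g
      calc g * pinch Q.p x = g * e * pinch Q.p x := by rw [mul_assoc, (hE Q).1]
        _ = pinch Q.p x * (g * e) := h1.eq
        _ = pinch Q.p x * g := by rw [hge.eq, ← mul_assoc, (hE Q).2])
  have hsa : IsSelfAdjoint a := by
    refine LinearMap.IsSymmetric.isSelfAdjoint fun v w => ?_
    show ⟪a v, w⟫_ℂ = ⟪v, a w⟫_ℂ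
    rw [← inner_conj_symm v (a w)]
    refine tendsto_nhds_unique (ha v w) ?_
    refine ((Complex.continuous_conj.tendsto _).comp (ha w v)).congr' (.of_forall fun Q => ?_)
    have hq : IsSelfAdjoint (pinch Q.p x) := by
      rw [IsSelfAdjoint, Q.isPart.star_pinch, hx.star_eq]
    simp only [Function.comp_apply, inner_conj_symm]
    exact (inner_sa hq v w).symm
  exact ⟨a, hA.max a haM fun b hb => commute_of_commute_proj A hproj hb, hsa, hae, hn, ha⟩

end Vale.Agent.P078.General
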