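import Vale.Agent.P078.General.Singular

/-!
# Witnesses: the hypotheses of the general theorems are satisfiable

* one tracial separating vector gives a trace family (finite algebras);
* `B(ℓ²)`, its diagonal and the standard basis: a semifinite infinite dimensional example;
* `B(L²[0,1])` with a MASA containing all indicator multiplications: no centralised functional.
-/

namespace Vale.Agent.P078.General

open scoped InnerProductSpace Topology ENNReal ComplexOrder
open Filter MeasureTheory

universe u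

section General

variable {H : Type u} [NormedAddCommGroup H] [InnerProductSpace ℂ H] [CompleteSpace H]

/-- A tracial separating vector gives a trace family: the finite case. -/
theorem isTraceFamily_of_tracialVector (M : VonNeumannAlgebra H) (Ω : H)
    (htr : ∀ y ∈ M, ‖y Ω‖ = ‖star y Ω‖) (hsep : ∀ y ∈ M, y Ω = 0 → y = 0) :
    IsTraceFamily M (fun _ : PUnit.{u + 1} => Ω) where
  tracial y hy := by simp [tau, htr y hy]
  faithful y hy h := hsep y hy (by simpa [tau] using h)
  semifinite p hp hpp hp0 := ⟨p, hp, hpp, hp0, hpp.isIdempotentElem.eq, by simp [tau]⟩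

/-- The von Neumann algebra of operators commuting with a set and its adjoints. -/
noncomputable def vnOf (S : Set (H →L[ℂ] H)) : VonNeumannAlgebra H where
  toStarSubalgebra := StarSubalgebra.centralizer ℂ S
  centralizer_centralizer' := Set.centralizer_centralizer_centralizer (S ∪ star S)

theorem mem_vnOf {S : Set (H →L[ℂ] H)} {y : H →L[ℂ] H} :
    y ∈ vnOf S ↔ ∀ s ∈ S ∪ star S, s * y = y * s := Iff.rfl

theorem mem_vnOf_of_isSelfAdjoint {S : Set (H →L[ℂ] H)} (hS : ∀ s ∈ S, IsSelfAdjoint s)
    {y : H →L[ℂ] H} : y ∈ vnOf S ↔ ∀ s ∈ S, Commute s y := by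
  refine ⟨fun h s hs => h s (Or.inl hs), fun h s hs => ?_⟩
  rcases hs with hs | hs
  · exact h s hs
  · have : star s ∈ S := hs
    rw [← star_star s, (hS _ this).star_eq]
    exact h _ this

/-- The algebra of all bounded operators. -/
noncomputable def vnTop : VonNeumannAlgebra H := vnOf (∅ : Set (H →L[ℂ] H))

theorem mem_vnTop (y : H →L[ℂ] H) : y ∈ (vnTop : VonNeumannAlgebra H) :=
  mem_vnOf.2 fun s hs => by simp at hs

/-- A MASA of `B(H)` containing given commuting selfadjoint operators. -/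
theorem exists_masa (S₀ : Set (H →L[ℂ] H)) (hsa : ∀ s ∈ S₀, IsSelfAdjoint s)
    (hc : ∀ s ∈ S₀, ∀ t ∈ S₀, Commute s t) :
    ∃ A : VonNeumannAlgebra H, IsMasa vnTop A ∧ ∀ s ∈ S₀, s ∈ A := by
  set Fam : Set (Set (H →L[ℂ] H)) :=
    {C | (∀ s ∈ C, IsSelfAdjoint s) ∧ ∀ s ∈ C, ∀ t ∈ C, Commute s t}
  obtain ⟨C, hS₀C, ⟨hC1, hC2⟩, hmax⟩ := zorn_subset_nonempty Fam (fun c hc' hchain _ => by
    refine ⟨⋃₀ c, ⟨?_, ?_⟩, fun a ha => Set.subset_sUnion_of_mem ha⟩
    · rintro s ⟨a, ha, hs⟩
      exact (hc' ha).1 s hs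
    · rintro s ⟨a, ha, hs⟩ t ⟨b, hb, ht⟩
      rcases hchain.total ha hb with h | h
      · exact (hc' hb).2 s (h hs) t ht
      · exact (hc' ha).2 s hs t (h ht)) S₀ ⟨hsa, hc⟩
  have hCA : ∀ s ∈ C, s ∈ vnOf C := fun s hs =>
    (mem_vnOf_of_isSelfAdjoint hC1).2 fun t ht => hC2 t ht s hs
  have hsaC : ∀ a ∈ vnOf C, IsSelfAdjoint a → a ∈ C := by
    intro a ha hasa
    have hac := (mem_vnOf_of_isSelfAdjoint hC1).1 ha
    refine hmax (y := insert a C) ⟨?_, ?_⟩ (Set.subset_insert a C) (Set.mem_insert a C)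
    · rintro s (rfl | hs)
      exacts [hasa, hC1 s hs]
    · rintro s (rfl | hs) t (rfl | ht)
      exacts [Commute.refl _, (hac t ht).symm, hac s hs, hC2 s hs t ht]
  have hcomm : ∀ a ∈ vnOf C, ∀ b ∈ vnOf C, Commute a b := by
    intro a ha b hb
    have hbc := (mem_vnOf_of_isSelfAdjoint hC1).1 hb
    rw [← realPart_add_I_smul_imaginaryPart a]
    refine (hbc _ (hsaC _ ?_ (realPart a).2)).add_left
      ((hbc _ (hsaC _ ?_ (imaginaryPart a).2)).smul_left _)
    · rw [realPart_apply_coe, ← Complex.coe_smul]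
      exact smul_mem' _ (add_mem ha (star_mem ha)) _
    · rw [imaginaryPart_apply_coe, ← Complex.coe_smul]
      exact smul_mem' _ (smul_mem' _ (sub_mem ha (star_mem ha)) _) _
  exact ⟨vnOf C, ⟨fun a _ => mem_vnTop a, hcomm, fun x _ h =>
    (mem_vnOf_of_isSelfAdjoint hC1).2 fun s hs => h s (hCA s hs)⟩, fun s hs => hCA s (hS₀C hs)⟩

/-- Diffuse MASAs of `B(H)` carry no centralised normal functional. -/
theorem noCentralised_of_diffuse {A : VonNeumannAlgebra H}
    (hdiff : ∀ (v : H) (δ : ℝ), 0 < δ → ∃ P : Part A 1, ∀ k, ‖P.p k v‖ ≤ δ) :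
    NoCentralised (vnTop : VonNeumannAlgebra H) A 1 := by
  intro φ hcont _ hcen _
  have hsmallnorm : ∀ δ : ℝ, 0 < δ → ∃ ρ : ℝ, 0 < ρ ∧ ∀ T : H →L[ℂ] H, ‖T‖ ≤ ρ → ‖φ T‖ ≤ δ := by
    intro δ hδ
    obtain ⟨F, η, hη, h⟩ := hcont δ hδ
    set m := ∑ v ∈ F, ‖v‖ + 1 with hm
    have hm0 : 0 < m := by positivity
    refine ⟨min 1 (η / m), lt_min one_pos (by positivity), fun T hT => ?_⟩
    refine h T (mem_vnTop T) (hT.trans (min_le_left _ _)) fun v hv => ?_
    have h1 : ‖v‖ ≤ m := by
      have := Finset.single_le_sum (f := fun v => ‖v‖) (fun v _ => norm_nonneg v) hv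
      rw [hm]
      linarith
    refine (T.le_opNorm v).trans ?_
    calc ‖T‖ * ‖v‖ ≤ η / m * m :=
          mul_le_mul (hT.trans (min_le_right _ _)) h1 (norm_nonneg _) (by positivity)
      _ = η := div_mul_cancel₀ η hm0.ne'
  have hpinch : ∀ (P : Part A 1) (T : H →L[ℂ] H), φ (pinch P.p T) = φ T := by
    intro P T
    have e1 : ∀ k, φ (P.p k * T * P.p k) = φ (P.p k * T) := fun k => by
      rw [← hcen _ (P.isPart.mem k) _ (mem_vnTop _), ← mul_assoc,
        (P.isPart.proj k).isIdempotentElem.eq]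
    rw [pinch, map_sum]
    simp only [e1]
    rw [← map_sum, ← Finset.sum_mul, P.isPart.sum_eq, one_mul]
  have hrank : ∀ (w : H) (y : H →L[ℂ] H), φ (y * (ℂ ∙ w).starProjection) = 0 := by
    intro w y
    rcases eq_or_ne w 0 with rfl | hw
    · have : (ℂ ∙ (0 : H)).starProjection = 0 := by
        ext v; rw [Submodule.starProjection_singleton]; simp
      simp [this]
    have hw2 : 0 < ‖w‖ ^ 2 := by positivity
    rw [← norm_le_zero_iff]
    refine le_of_forall_pos_le_add fun δ hδ => ?_
    rw [zero_add]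
    obtain ⟨ρ, hρ, hρ'⟩ := hsmallnorm δ hδ
    obtain ⟨P, hP⟩ := hdiff w (ρ * ‖w‖ ^ 2 / (‖y w‖ + 1)) (by positivity)
    rw [← hpinch P]
    refine hρ' _ (ContinuousLinearMap.opNorm_le_bound _ hρ.le fun v => ?_)
    refine le_of_pow_le_pow_left₀ two_ne_zero (by positivity) ?_
    rw [P.isPart.norm_pinch_apply_sq, mul_pow]
    refine (Finset.sum_le_sum (g := fun k => ρ ^ 2 * ‖P.p k v‖ ^ 2) fun k _ => ?_).trans ?_
    · rw [← mul_pow]
      refine pow_le_pow_left₀ (norm_nonneg _) ((norm_proj_le (P.isPart.proj k) _).trans ?_) 2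
      rw [mul_apply_eq_comp, Submodule.starProjection_singleton, map_smul, norm_smul]
      have hin : ‖⟪w, P.p k v⟫_ℂ‖ ≤ ‖P.p k w‖ * ‖P.p k v‖ := by
        have e2 : ⟪w, P.p k v⟫_ℂ = ⟪P.p k w, P.p k v⟫_ℂ := by
          rw [inner_sa (P.isPart.proj k).isSelfAdjoint]
          congr 1
          exact (congrArg (fun S : H →L[ℂ] H => S v) (P.isPart.proj k).isIdempotentElem.eq).symm
        rw [e2]
        exact norm_inner_le_norm _ _
      rw [norm_div, RCLike.norm_ofReal, abs_of_nonneg hw2.le,
        div_mul_eq_mul_div, div_le_iff₀ hw2]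
      refine (mul_le_mul_of_nonneg_right hin (norm_nonneg _)).trans ?_
      have h2 := hP k
      rw [le_div_iff₀ (by positivity)] at h2
      nlinarith [norm_nonneg (P.p k w), norm_nonneg (P.p k v), norm_nonneg (y w),
        mul_le_mul_of_nonneg_left h2 (norm_nonneg (P.p k v))]
    · rw [← Finset.mul_sum]
      exact mul_le_mul_of_nonneg_left (P.isPart.sum_norm_sq_le v) (sq_nonneg _)
  have hfin : ∀ F : Finset H, ∃ f : H →L[ℂ] H, IsStarProjection f ∧ (∀ v ∈ F, f v = v) ∧
      ∀ y, φ (y * f) = 0 := by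
    intro F
    classical
    induction F using Finset.induction_on with
    | empty => exact ⟨0, IsStarProjection.zero _, by simp, by simp⟩
    | insert v F _ ih =>
      obtain ⟨f, hf, hfix, hφ⟩ := ih
      set w := v - f v with hw
      set g := (ℂ ∙ w).starProjection with hg
      have hff : ∀ u, f (f u) = f u := fun u =>
        congrArg (fun S : H →L[ℂ] H => S u) hf.isIdempotentElem.eq
      have hfw : f w = 0 := by rw [hw, map_sub, hff, sub_self]
      have hgf : ∀ u, g (f u) = 0 := fun u => by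
        rw [hg, Submodule.starProjection_singleton, ← inner_sa hf.isSelfAdjoint, hfw,
          inner_zero_left, zero_div, zero_smul]
      have hgp : IsStarProjection g := isStarProjection_starProjection
      have hgf0 : g * f = 0 := ContinuousLinearMap.ext hgf
      have hfg0 : f * g = 0 := by
        have := congrArg star hgf0
        simpa only [star_mul, hf.isSelfAdjoint.star_eq, hgp.isSelfAdjoint.star_eq, star_zero]
          using this
      refine ⟨f + g, ⟨?_, hf.isSelfAdjoint.add hgp.isSelfAdjoint⟩, fun u hu => ?_, fun y => ?_⟩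
      · show (f + g) * (f + g) = f + g
        rw [add_mul, mul_add, mul_add, hf.isIdempotentElem.eq, hgp.isIdempotentElem.eq, hgf0,
          hfg0, add_zero, zero_add]
      · rcases Finset.mem_insert.1 hu with rfl | hu
        · have e : u = f u + w := by rw [hw]; abel
          have hgw : g w = w :=
            Submodule.starProjection_eq_self_iff.2 (Submodule.mem_span_singleton_self w)
          have : g u = w := by
            conv_lhs => rw [e]
            rw [map_add, hgf, hgw, zero_add]
          rw [add_apply, this, ← e]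
        · rw [add_apply, hfix u hu]
          have := hgf u
          rw [hfix u hu] at this
          rw [this, add_zero]
      · rw [mul_add, map_add, hφ, hrank, add_zero]
  intro y _
  set c : ℂ := ((‖y‖ + 1 : ℝ) : ℂ) with hc
  have hcn : ‖c‖ = ‖y‖ + 1 := by
    rw [hc, Complex.norm_real, Real.norm_of_nonneg (by positivity)]
  have hc0 : c ≠ 0 := by
    rw [hc, Complex.ofReal_ne_zero]
    positivity
  have h0 : φ (c⁻¹ • y) = 0 := by
    rw [← norm_le_zero_iff]
    refine le_of_forall_pos_le_add fun δ hδ => ?_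
    rw [zero_add]
    obtain ⟨F, η, hη, h⟩ := hcont δ hδ
    obtain ⟨f, hf, hfix, hφ⟩ := hfin F
    have e : φ (c⁻¹ • y) = φ ((c⁻¹ • y) * (1 - f)) := by
      rw [mul_sub, mul_one, map_sub, hφ, sub_zero]
    rw [e]
    refine h _ (mem_vnTop _) ((norm_mul_le _ _).trans ?_) fun v hv => by
      simp [hfix v hv, hη.le]
    refine mul_le_one₀ ?_ (norm_nonneg _) (opNorm_proj_le_one hf.one_sub)
    rw [norm_smul, norm_inv, hcn, inv_mul_le_iff₀ (by positivity), mul_one]
    linarith
  rw [map_smul, smul_eq_zero] at h0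
  exact h0.resolve_left (inv_ne_zero hc0)

end General

/-! ### `B(ℓ²)` with its diagonal -/

/-- `ℓ²(ℕ)`. -/
abbrev Ell2 : Type := lp (fun _ : ℕ => ℂ) 2

/-- The standard basis of `ℓ²(ℕ)`. -/
noncomputable def ellBasis : HilbertBasis ℕ ℂ Ell2 :=
  HilbertBasis.ofRepr (LinearIsometryEquiv.refl ℂ _)

theorem ofReal_norm_sq_eq_tsum {ι E : Type*} [NormedAddCommGroup E] [InnerProductSpace ℂ E]
    [CompleteSpace E] (b : HilbertBasis ι ℂ E) (v : E) :
    ENNReal.ofReal (‖v‖ ^ 2) = ∑' m, ENNReal.ofReal (‖⟪b m, v⟫_ℂ‖ ^ 2) := by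
  have h := lp.hasSum_norm (p := 2) (by norm_num) (b.repr v)
  rw [LinearIsometryEquiv.norm_map] at h
  simp only [HilbertBasis.repr_apply_apply] at h
  have h2 : HasSum (fun m => ‖⟪b m, v⟫_ℂ‖ ^ 2) (‖v‖ ^ 2) := by simpa using h
  rw [← ENNReal.ofReal_tsum_of_nonneg (fun m => sq_nonneg _) h2.summable, h2.tsum_eq]

/-- The rank one projection on the `n`-th basis vector. -/
noncomputable def ellProj (n : ℕ) : Ell2 →L[ℂ] Ell2 := (ℂ ∙ ellBasis n).starProjection

theorem ellProj_apply (n : ℕ) (v : Ell2) : ellProj n v = ⟪ellBasis n, v⟫_ℂ • ellBasis n := by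
  rw [ellProj, Submodule.starProjection_singleton, ellBasis.orthonormal.1 n]
  simp

/-- The diagonal algebra of `B(ℓ²)`. -/
noncomputable def ellDiag : VonNeumannAlgebra Ell2 := vnOf (Set.range ellProj)

theorem ellProj_sa : ∀ s ∈ Set.range ellProj, IsSelfAdjoint s := by
  rintro _ ⟨n, rfl⟩
  exact isStarProjection_starProjection.isSelfAdjoint

theorem ellDiag_apply {a : Ell2 →L[ℂ] Ell2} (ha : a ∈ ellDiag) (n : ℕ) :
    a (ellBasis n) = ⟪ellBasis n, a (ellBasis n)⟫_ℂ • ellBasis n := by
  have h := congrArg (fun S : Ell2 →L[ℂ] Ell2 => S (ellBasis n))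
    ((mem_vnOf_of_isSelfAdjoint ellProj_sa).1 ha _ ⟨n, rfl⟩).eq
  simp only [mul_apply_eq_comp, ellProj_apply, inner_self_eq_norm_sq_to_K,
    ellBasis.orthonormal.1 n] at h
  rw [h]
  simp

theorem isMasa_ellDiag : IsMasa (vnTop : VonNeumannAlgebra Ell2) ellDiag where
  le a _ := mem_vnTop a
  comm a ha b hb := by
    refine ContinuousLinearMap.ext_on
      (Submodule.dense_iff_topologicalClosure_eq_top.2 ellBasis.dense_span) ?_
    rintro _ ⟨n, rfl⟩
    have ea := ellDiag_apply ha n
    have eb := ellDiag_apply hb n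
    show a (b (ellBasis n)) = b (a (ellBasis n))
    generalize ⟪ellBasis n, a (ellBasis n)⟫_ℂ = α at ea
    generalize ⟪ellBasis n, b (ellBasis n)⟫_ℂ = β at eb
    rw [eb, map_smul, ea, map_smul, eb, smul_smul, smul_smul, mul_comm]
  max x _ h := by
    refine (mem_vnOf_of_isSelfAdjoint ellProj_sa).2 ?_
    rintro _ ⟨n, rfl⟩
    refine h _ ((mem_vnOf_of_isSelfAdjoint ellProj_sa).2 ?_)
    rintro _ ⟨m, rfl⟩
    refine ContinuousLinearMap.ext fun v => ?_
    simp only [mul_apply_eq_comp, ellProj_apply, inner_smul_right, smul_smul]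
    rcases eq_or_ne m n with rfl | hmn
    · rfl
    · rw [ellBasis.orthonormal.2 hmn, ellBasis.orthonormal.2 hmn.symm]
      simp

theorem isTraceFamily_ell : IsTraceFamily (vnTop : VonNeumannAlgebra Ell2)
    (fun n : ℕ => ellBasis n) where
  tracial y _ := by
    simp only [tau, ofReal_norm_sq_eq_tsum ellBasis]
    rw [ENNReal.tsum_comm]
    refine tsum_congr fun m => tsum_congr fun n => ?_
    rw [ContinuousLinearMap.star_eq_adjoint, ContinuousLinearMap.adjoint_inner_right,
      norm_inner_symm]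
  faithful y _ h := by
    refine ContinuousLinearMap.ext_on
      (Submodule.dense_iff_topologicalClosure_eq_top.2 ellBasis.dense_span) ?_
    rintro _ ⟨n, rfl⟩
    have h1 := ENNReal.tsum_eq_zero.1 h n
    simpa using h1
  semifinite p _ hp hp0 := by
    obtain ⟨v, hv⟩ : ∃ v, p v ≠ 0 := by
      by_contra h
      push Not at h
      exact hp0 (ContinuousLinearMap.ext h)
    set u := p v with hu
    set f := (ℂ ∙ u).starProjection with hf
    have hpu : p u = u := congrArg (fun S : Ell2 →L[ℂ] Ell2 => S v) hp.isIdempotentElem.eq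
    have hpf : p * f = f := ContinuousLinearMap.ext fun w => by
      simp only [hf, mul_apply_eq_comp, Submodule.starProjection_singleton, map_smul, hpu]
    have hfp : f * p = f := by
      have := congrArg star hpf
      simpa only [star_mul, hp.isSelfAdjoint.star_eq,
        (isStarProjection_starProjection (U := ℂ ∙ u)).isSelfAdjoint.star_eq, hf] using this
    refine ⟨f, mem_vnTop f, isStarProjection_starProjection, fun h0 => hv ?_, hfp, ?_⟩
    · have : f u = u :=
        Submodule.starProjection_eq_self_iff.2 (Submodule.mem_span_singleton_self u)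
      rw [h0] at this
      exact this.symm.trans (zero_apply u)
    · have hb : ∀ n, ENNReal.ofReal (‖f (ellBasis n)‖ ^ 2) ≤
          ENNReal.ofReal ((‖u‖ ^ 2)⁻¹) * ENNReal.ofReal (‖⟪ellBasis n, u⟫_ℂ‖ ^ 2) := by
        intro n
        rw [← ENNReal.ofReal_mul (by positivity)]
        refine ENNReal.ofReal_le_ofReal (le_of_eq ?_)
        rw [hf, Submodule.starProjection_singleton, norm_smul, norm_div,
          RCLike.norm_ofReal, abs_of_nonneg (by positivity), norm_inner_symm]
        have hu0 : ‖u‖ ≠ 0 := norm_ne_zero_iff.2 hv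
        field_simp
      refine ne_top_of_le_ne_top ?_ (ENNReal.tsum_le_tsum hb)
      rw [ENNReal.tsum_mul_left, ← ofReal_norm_sq_eq_tsum]
      exact ENNReal.mul_ne_top ENNReal.ofReal_ne_top ENNReal.ofReal_ne_top

/-! ### `L²[0,1]` -/

/-- Lebesgue measure on `[0, 1]`. -/
noncomputable def unitVol : Measure ℝ := volume.restrict (Set.Icc 0 1)

instance : IsFiniteMeasure unitVol := by
  unfold unitVol
  infer_instance

/-- `L²[0,1]`. -/
abbrev L2I : Type := Lp ℂ 2 unitVol

/-- Multiplication by an indicator on `L²[0,1]`. -/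
noncomputable def indMul (s : Set ℝ) (hs : MeasurableSet s) : L2I →L[ℂ] L2I :=
  LinearMap.mkContinuous
    { toFun := fun f => ((Lp.memLp f).indicator hs).toLp (s.indicator f)
      map_add' := fun f g => by
        refine Lp.ext ?_
        filter_upwards [((Lp.memLp (f + g)).indicator hs).coeFn_toLp,
          ((Lp.memLp f).indicator hs).coeFn_toLp, ((Lp.memLp g).indicator hs).coeFn_toLp,
          Lp.coeFn_add f g,
          Lp.coeFn_add (((Lp.memLp f).indicator hs).toLp (s.indicator f))
            (((Lp.memLp g).indicator hs).toLp (s.indicator g))] with x h1 h2 h3 h4 h5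
        rw [h5, h1, Pi.add_apply, h2, h3]
        by_cases hx : x ∈ s
        · simp only [Set.indicator_of_mem hx]; exact h4
        · simp [hx]
      map_smul' := fun c f => by
        refine Lp.ext ?_
        filter_upwards [((Lp.memLp (c • f)).indicator hs).coeFn_toLp,
          ((Lp.memLp f).indicator hs).coeFn_toLp, Lp.coeFn_smul c f,
          Lp.coeFn_smul c (((Lp.memLp f).indicator hs).toLp (s.indicator f))] with x h1 h2 h3 h4
        rw [RingHom.id_apply, h4, h1, Pi.smul_apply, h2]
        by_cases hx : x ∈ s <;> simp [hx, h3] }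
    1 fun f => by
      rw [one_mul]
      refine Lp.norm_le_norm_of_ae_le ?_
      filter_upwards [((Lp.memLp f).indicator hs).coeFn_toLp] with x hx
      show ‖(((Lp.memLp f).indicator hs).toLp (s.indicator f)) x‖ ≤ _
      rw [hx]
      exact norm_indicator_le_norm_self _ _

theorem indMul_coe (s : Set ℝ) (hs : MeasurableSet s) (f : L2I) :
    indMul s hs f =ᵐ[unitVol] s.indicator f :=
  ((Lp.memLp f).indicator hs).coeFn_toLp

theorem indMul_mul (s t : Set ℝ) (hs : MeasurableSet s) (ht : MeasurableSet t) :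
    indMul s hs * indMul t ht = indMul (s ∩ t) (hs.inter ht) := by
  refine ContinuousLinearMap.ext fun f => Lp.ext ?_
  rw [mul_apply_eq_comp]
  filter_upwards [indMul_coe s hs (indMul t ht f), indMul_coe t ht f,
    indMul_coe (s ∩ t) (hs.inter ht) f] with x h1 h2 h3
  rw [h1, h3]
  by_cases hx : x ∈ s <;> by_cases hy : x ∈ t <;> simp [hx, hy, h2]

theorem indMul_isStarProjection (s : Set ℝ) (hs : MeasurableSet s) :
    IsStarProjection (indMul s hs) := by
  refine ⟨?_, ?_⟩
  · show indMul s hs * indMul s hs = indMul s hs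
    rw [indMul_mul]
    simp only [Set.inter_self]
  · refine LinearMap.IsSymmetric.isSelfAdjoint fun f g => ?_
    show ⟪indMul s hs f, g⟫_ℂ = ⟪f, indMul s hs g⟫_ℂ
    simp only [L2.inner_def]
    refine integral_congr_ae ?_
    filter_upwards [indMul_coe s hs f, indMul_coe s hs g] with x h1 h2
    rw [h1, h2]
    by_cases hx : x ∈ s <;> simp [hx]

/-- The slice of index `k` among `n + 1`. -/
def slice (n k : ℕ) : Set ℝ := {x | min ⌊x * (n + 1)⌋₊ n = k}

theorem measurableSet_slice (n k : ℕ) : MeasurableSet (slice n k) :=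
  ((Nat.measurable_floor.comp (measurable_id.mul_const _)).min measurable_const)
    (measurableSet_singleton k)

theorem unitVol_slice_le (n k : ℕ) :
    unitVol (slice n k) ≤ ENNReal.ofReal (1 / (n + 1)) := by
  have hsub : slice n k ∩ Set.Icc 0 1 ⊆
      Set.Icc ((k : ℝ) / (n + 1)) (((k : ℝ) + 1) / (n + 1)) := by
    rintro x ⟨hx, hx0, hx1⟩
    have hn : (0 : ℝ) < (n : ℝ) + 1 := by positivity
    have h0 : (0 : ℝ) ≤ x * (n + 1) := by positivity
    have h1 := Nat.floor_le h0
    have h2 := Nat.lt_floor_add_one (x * ((n : ℝ) + 1))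
    have hx' : min ⌊x * ((n : ℝ) + 1)⌋₊ n = k := hx
    rw [Set.mem_Icc, div_le_iff₀ hn, le_div_iff₀ hn]
    rcases le_total ⌊x * ((n : ℝ) + 1)⌋₊ n with h | h
    · rw [min_eq_left h] at hx'
      rw [hx'] at h1 h2
      exact ⟨h1, h2.le⟩
    · rw [min_eq_right h] at hx'
      subst hx'
      have : (n : ℝ) ≤ (⌊x * ((n : ℝ) + 1)⌋₊ : ℕ) := by exact_mod_cast h
      constructor <;> nlinarith
  rw [unitVol, Measure.restrict_apply (measurableSet_slice n k)]
  refine (measure_mono hsub).trans ?_
  rw [Real.volume_Icc]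
  exact ENNReal.ofReal_le_ofReal (le_of_eq (by ring))

theorem exists_diffuse_masa : ∃ A : VonNeumannAlgebra L2I, IsMasa vnTop A ∧
    ∀ (v : L2I) (δ : ℝ), 0 < δ → ∃ P : Part A 1, ∀ k, ‖P.p k v‖ ≤ δ := by
  obtain ⟨A, hA, hmem⟩ := exists_masa
    {T : L2I →L[ℂ] L2I | ∃ s, ∃ hs : MeasurableSet s, T = indMul s hs}
    (fun T ⟨s, hs, hT⟩ => hT ▸ (indMul_isStarProjection s hs).isSelfAdjoint)
    (fun T ⟨s, hs, hT⟩ U ⟨t, ht, hU⟩ => by
      subst hT hU
      show _ = _
      rw [indMul_mul, indMul_mul]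
      simp only [Set.inter_comm s t])
  refine ⟨A, hA, fun v δ hδ => ?_⟩
  obtain ⟨ρ, hρ, h⟩ := MemLp.eLpNorm_indicator_le (μ := unitVol) one_le_two (by norm_num)
    (Lp.memLp v) hδ
  obtain ⟨n, hn⟩ := exists_nat_one_div_lt hρ
  refine ⟨⟨n + 1, fun k => indMul (slice n k) (measurableSet_slice n k),
    ⟨fun k => hmem _ ⟨_, _, rfl⟩, fun k => indMul_isStarProjection _ _, fun k l hkl => ?_, ?_⟩⟩,
    fun k => ?_⟩
  · rw [indMul_mul]
    refine ContinuousLinearMap.ext fun f => Lp.ext ?_
    filter_upwards [indMul_coe _ ((measurableSet_slice n k).inter (measurableSet_slice n l)) f,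
      Lp.coeFn_zero ℂ 2 unitVol] with x h1 h2
    rw [h1, zero_apply, h2]
    refine Set.indicator_of_notMem (fun hx => hkl (Fin.ext ?_)) _
    exact hx.1.symm.trans hx.2
  · refine ContinuousLinearMap.ext fun f => Lp.ext ?_
    rw [sum_apply, one_apply_eq_self]
    filter_upwards [Lp.coeFn_finsetSum Finset.univ
        (fun k : Fin (n + 1) => indMul (slice n k) (measurableSet_slice n k) f),
      eventually_all.2 fun k : Fin (n + 1) => indMul_coe _ (measurableSet_slice n k) f]
      with x h1 h2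
    rw [h1, Finset.sum_apply]
    simp only [h2]
    rw [Finset.sum_eq_single (⟨min ⌊x * (n + 1)⌋₊ n, by omega⟩ : Fin (n + 1))]
    · exact Set.indicator_of_mem (s := slice n _) rfl _
    · intro k _ hk
      exact Set.indicator_of_notMem (fun hx => hk (Fin.ext hx.symm)) _
    · simp
  · show ‖indMul (slice n k) (measurableSet_slice n k) v‖ ≤ δ
    rw [Lp.norm_def, eLpNorm_congr_ae (indMul_coe _ _ v)]
    refine ENNReal.toReal_le_of_le_ofReal hδ.le (h _ (measurableSet_slice n k) ?_)
    exact (unitVol_slice_le n k).trans (ENNReal.ofReal_le_ofReal hn.le)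

theorem not_finiteDimensional_ell : ¬ FiniteDimensional ℂ Ell2 := fun _ =>
  not_finite_iff_infinite.2 inferInstance
    (ellBasis.orthonormal.linearIndependent.finite_of_isNoetherian : Finite ℕ)

theorem nontrivial_L2I : Nontrivial L2I := by
  refine ⟨indicatorConstLp 2 MeasurableSet.univ (measure_ne_top unitVol _) (1 : ℂ), 0, fun h => ?_⟩
  have h1 := congrArg norm h
  rw [norm_indicatorConstLp two_ne_zero (by norm_num), norm_zero, norm_one, one_mul] at h1
  simp [unitVol, Measure.real] at h1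

/-- The hypotheses of `exists_bound_of_core` hold for `B(ℓ²)`, an infinite dimensional algebra. -/
theorem exists_traceFamily_witness :
    ∃ (H : Type) (_ : NormedAddCommGroup H) (_ : InnerProductSpace ℂ H) (_ : CompleteSpace H)
      (M A : VonNeumannAlgebra H) (ξ : ℕ → H),
      IsMasa M A ∧ IsTraceFamily M ξ ∧ ¬ FiniteDimensional ℂ H :=
  ⟨Ell2, inferInstance, inferInstance, inferInstance, vnTop, ellDiag, fun n => ellBasis n,
    isMasa_ellDiag, isTraceFamily_ell, not_finiteDimensional_ell⟩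

/-- The hypotheses of `soPavable_of_noCentralised` hold for a MASA of `B(L²[0,1])`. -/
theorem exists_noCentralised_witness :
    ∃ (H : Type) (_ : NormedAddCommGroup H) (_ : InnerProductSpace ℂ H) (_ : CompleteSpace H)
      (M A : VonNeumannAlgebra H), IsMasa M A ∧ NoCentralised M A 1 ∧ Nontrivial H := by
  obtain ⟨A, hA, hdiff⟩ := exists_diffuse_masa
  exact ⟨L2I, inferInstance, inferInstance, inferInstance, vnTop, A, hA,
    noCentralised_of_diffuse hdiff, nontrivial_L2I⟩

end Vale.Agent.P078.General
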